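import Crest.Agent.R324.TPow

/-!
Row 324: in-place words and the recursion for the zeta transform.
-/

set_option autoImplicit false
set_option linter.unusedSectionVars false

namespace Crest.Agent.R324

open Matrix
open scoped Kronecker

variable {κ μ p q r : Type*} [Fintype κ] [DecidableEq κ] [Fintype μ] [DecidableEq μ]
  [Fintype p] [DecidableEq p] [Fintype q] [DecidableEq q] [Fintype r] [DecidableEq r]

/-! ### every matrix has a cost -/

theorem reach_sum (v : q → ℂ) (s : Finset q) :
    Reach (coords q) (2 * s.card) {∑ i ∈ s, v i • (Pi.single i 1 : q → ℂ)} := by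
  induction s using Finset.induction_on with
  | empty => exact .refl (by simp)
  | insert a s ha ih =>
    rw [Finset.card_insert_of_notMem ha, Finset.sum_insert ha, Nat.mul_add, Nat.mul_one]
    refine ih.trans (l := 2) ?_
    rw [add_comm (v a • _)]
    refine (Reach.add_smul (∑ i ∈ s, v i • (Pi.single i 1 : q → ℂ)) (Pi.single a 1)
      (v a)).mono_left ?_
    intro x hx
    simp only [Set.mem_insert_iff, Set.mem_singleton_iff] at hx
    rcases hx with rfl | rfl
    · right; rfl
    · left; exact ⟨a, rfl⟩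

theorem Cost.exists (A : Matrix p q ℂ) : ∃ k, Cost A k := by
  refine ⟨∑ _j : p, 2 * (Finset.univ : Finset q).card, ?_⟩
  have h := Reach.iUnion_univ fun j : p => reach_sum (fun i => A j i) Finset.univ
  refine Reach.mono_right (Reach.mono_left h ?_) ?_
  · exact Set.iUnion_subset fun _ => le_refl _
  · rintro _ ⟨j, rfl⟩
    refine Set.mem_iUnion.2 ⟨j, ?_⟩
    rw [Set.mem_singleton_iff]
    ext i
    simp [Pi.single_apply]

/-- minimal cost of the `K`-th tensor power -/
noncomputable def mc (A : Matrix p q ℂ) (K : ℕ) : ℕ := sInf {k | Cost (tpow (Fin K) A) k}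

theorem cost_mc (A : Matrix p q ℂ) (K : ℕ) : Cost (tpow (Fin K) A) (mc A K) :=
  Nat.sInf_mem (Cost.exists _)

theorem mc_le {A : Matrix p q ℂ} {K k : ℕ} (h : Cost (tpow (Fin K) A) k) : mc A K ≤ k :=
  Nat.sInf_le h

theorem mc_mul_le (A : Matrix p q ℂ) (B : Matrix q r ℂ) (K : ℕ) :
    mc (A * B) K ≤ mc A K + mc B K := by
  refine mc_le ?_
  rw [tpow_mul]
  exact (cost_mc A K).mul (cost_mc B K)

theorem mc_diagonal_le (d : q → ℂ) (K : ℕ) :
    mc (Matrix.diagonal d) K ≤ Fintype.card q ^ K := by
  refine mc_le ?_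
  rw [tpow_diagonal]
  have := Cost.diagonal (κ := Fin K → q) (fun x => ∏ i, d (x i))
  rwa [Fintype.card_fun, Fintype.card_fin] at this

/-- the matrix of a map of symbols -/
def pm (e : p → q) : Matrix p q ℂ := Matrix.of fun j i => if e j = i then (1 : ℂ) else 0

theorem mc_pm (e : p → q) (K : ℕ) : mc (pm e) K = 0 :=
  Nat.le_zero.1 (mc_le (Cost.tpow_perm e))

theorem mc_one (K : ℕ) : mc (1 : Matrix q q ℂ) K = 0 := by
  refine Nat.le_zero.1 (mc_le ?_)
  rw [tpow_one]
  exact Cost.one

/-! ### the zeta matrix -/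

/-- the `2 × 2` zeta matrix -/
def L : Matrix (Fin 2) (Fin 2) ℂ := !![1, 0; 1, 1]

/-- minimal cost of the zeta transform on `K` bits -/
noncomputable def tz (K : ℕ) : ℕ := mc L K

/-- cost of the `K`-th tensor power of a transvection on `Q` symbols -/
noncomputable def FK (K Q : ℕ) : ℕ :=
  ∑ j ∈ Finset.range (K + 1), K.choose j * (Q - 2) ^ (K - j) * tz j

theorem mc_transvection_one_le {a b : q} (hab : a ≠ b) (K : ℕ) :
    mc (Matrix.transvection a b (1 : ℂ)) K ≤ FK K (Fintype.card q) := by
  refine mc_le ?_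
  have h := Cost.tpow_sub (κ := Fin K) (A := L) (M := Matrix.transvection a b (1 : ℂ))
    (fun i : Fin 2 => if i = 0 then b else a) (by
      intro i j h
      fin_cases i <;> fin_cases j <;> simp_all [eq_comm])
    (by
      intro i x
      fin_cases i
      · simp only [Fin.sum_univ_two, L, Matrix.transvection, Matrix.add_apply,
          Matrix.one_apply, Matrix.single_apply]
        by_cases h1 : b = x <;> by_cases h2 : a = x <;> simp_all [eq_comm]
      · simp only [Fin.sum_univ_two, L, Matrix.transvection, Matrix.add_apply,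
          Matrix.one_apply, Matrix.single_apply]
        by_cases h1 : b = x <;> by_cases h2 : a = x <;> simp_all [eq_comm])
    (by
      intro x y hx
      have hxa : x ≠ a := fun h => hx ⟨1, by simp [h]⟩
      simp [Matrix.transvection, Matrix.single_apply, Matrix.one_apply, hxa.symm])
    tz (fun j _ => cost_mc L j)
  simpa [FK] using h

theorem transvection_eq_conj {a b : q} (hab : a ≠ b) {c : ℂ} (hc : c ≠ 0) :
    Matrix.transvection a b c =
      Matrix.diagonal (fun i => if i = a then c else 1) * (Matrix.transvection a b (1 : ℂ) *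
        Matrix.diagonal (fun i => if i = a then c⁻¹ else 1)) := by
  ext i j
  rw [Matrix.diagonal_mul, Matrix.mul_diagonal]
  simp only [Matrix.transvection, Matrix.add_apply, Matrix.one_apply, Matrix.single_apply]
  by_cases hi : i = a <;> by_cases hj : j = a <;> by_cases hij : i = j <;>
    by_cases hjb : b = j <;> simp_all [eq_comm]

theorem mc_transvection_le {a b : q} (hab : a ≠ b) (c : ℂ) (K : ℕ) :
    mc (Matrix.transvection a b c) K ≤
      FK K (Fintype.card q) + 2 * Fintype.card q ^ K := by
  by_cases hc : c = 0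
  · rw [hc, Matrix.transvection_zero, mc_one]
    exact Nat.zero_le _
  · rw [transvection_eq_conj hab hc]
    have h1 := mc_mul_le (Matrix.diagonal (fun i : q => if i = a then c else 1))
      (Matrix.transvection a b (1 : ℂ) *
        Matrix.diagonal (fun i => if i = a then c⁻¹ else 1)) K
    have h2 := mc_mul_le (Matrix.transvection a b (1 : ℂ))
        (Matrix.diagonal (fun i : q => if i = a then c⁻¹ else 1)) K
    have h3 := mc_diagonal_le (fun i : q => if i = a then c else 1) K
    have h4 := mc_diagonal_le (fun i : q => if i = a then c⁻¹ else 1) K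
    have h5 := mc_transvection_one_le hab K
    omega

/-! ### in-place words -/

/-- `IP M r s`: `M` is a product of `r` transvections, `s` diagonal matrices and any number
of matrices of maps of the symbols -/
inductive IP : Matrix q q ℂ → ℕ → ℕ → Prop
  | one : IP 1 0 0
  | map_mul (e : q → q) {M : Matrix q q ℂ} {r s : ℕ} (h : IP M r s) : IP (pm e * M) r s
  | diag_mul (d : q → ℂ) {M : Matrix q q ℂ} {r s : ℕ} (h : IP M r s) :
      IP (Matrix.diagonal d * M) r (s + 1)
  | trans_mul {a b : q} (hab : a ≠ b) (c : ℂ) {M : Matrix q q ℂ} {r s : ℕ} (h : IP M r s) :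
      IP (Matrix.transvection a b c * M) (r + 1) s

theorem IP.mul {M N : Matrix q q ℂ} {r s r' s' : ℕ} (hM : IP M r s) (hN : IP N r' s') :
    IP (M * N) (r + r') (s + s') := by
  induction hM with
  | one => simpa using hN
  | map_mul e _ ih => rw [Matrix.mul_assoc]; exact ih.map_mul e
  | diag_mul d _ ih =>
    rw [Matrix.mul_assoc, Nat.add_right_comm]; exact ih.diag_mul d
  | trans_mul hab c _ ih =>
    rw [Matrix.mul_assoc, Nat.add_right_comm]; exact ih.trans_mul hab c

theorem IP.map (e : q → q) : IP (pm e) 0 0 := by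
  have := (IP.one (q := q)).map_mul e
  rwa [Matrix.mul_one] at this


theorem IP.trans {a b : q} (hab : a ≠ b) (c : ℂ) : IP (Matrix.transvection a b c) 1 0 := by
  have := (IP.one (q := q)).trans_mul hab c
  rwa [Matrix.mul_one] at this

theorem IP.mc_le {M : Matrix q q ℂ} {r s : ℕ} (h : IP M r s) (K : ℕ) :
    mc M K ≤ r * (FK K (Fintype.card q) + 2 * Fintype.card q ^ K) + s * Fintype.card q ^ K := by
  induction h with
  | one => rw [mc_one]; exact Nat.zero_le _
  | map_mul e _ ih =>
    refine (mc_mul_le _ _ K).trans ?_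
    rw [mc_pm, Nat.zero_add]
    exact ih
  | diag_mul d _ ih =>
    refine (mc_mul_le _ _ K).trans ?_
    have := mc_diagonal_le d K
    rw [Nat.add_mul, Nat.one_mul]
    omega
  | trans_mul hab c _ ih =>
    refine (mc_mul_le _ _ K).trans ?_
    have := mc_transvection_le hab c K
    rw [Nat.add_mul, Nat.one_mul]
    omega

/-! ### sub-additivity of the zeta cost -/


theorem mc_add_le (A : Matrix q q ℂ) (a b : ℕ) :
    mc A (a + b) ≤ Fintype.card q ^ b * mc A a + Fintype.card q ^ a * mc A b := by
  refine Crest.Agent.R324.mc_le ?_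
  have h := (cost_mc A a).kronecker (cost_mc A b)
  rw [Fintype.card_fun, Fintype.card_fun, Fintype.card_fin, Fintype.card_fin] at h
  have h2 := h.reindex (Fin.appendEquiv (α := q) a b).symm (Fin.appendEquiv (α := q) a b).symm
  rw [Nat.add_comm (Fintype.card q ^ b * mc A a)]
  convert h2 using 1
  ext x y
  simp only [tpow_apply, Matrix.submatrix_apply, Matrix.kronecker_apply]
  rw [Fin.prod_univ_add]
  rfl

theorem mc_tpow_eq (A : Matrix q q ℂ) (m K : ℕ) : mc A (m * K) = mc (tpow (Fin m) A) K := by
  have key : ∀ x y : Fin K → (Fin m → q), tpow (Fin K) (tpow (Fin m) A) x y =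
      tpow (Fin (m * K)) A
        (fun i => x (finProdFinEquiv.symm i).2 (finProdFinEquiv.symm i).1)
        (fun i => y (finProdFinEquiv.symm i).2 (finProdFinEquiv.symm i).1) := by
    intro x y
    simp only [tpow_apply]
    rw [Equiv.prod_comp finProdFinEquiv.symm (fun i : Fin m × Fin K => A (x i.2 i.1) (y i.2 i.1)),
      Fintype.prod_prod_type, Finset.prod_comm]
  let E : (Fin K → (Fin m → q)) ≃ (Fin (m * K) → q) :=
    { toFun := fun x i => x (finProdFinEquiv.symm i).2 (finProdFinEquiv.symm i).1
      invFun := fun z k j => z (finProdFinEquiv (j, k))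
      left_inv := fun x => by ext k j; simp
      right_inv := fun z => by
        ext i
        exact congrArg z (finProdFinEquiv.apply_symm_apply i) }
  apply le_antisymm
  · refine Crest.Agent.R324.mc_le ?_
    have := (cost_mc (tpow (Fin m) A) K).reindex E.symm E.symm
    convert this using 1
    ext x y
    rw [Matrix.submatrix_apply, key]
    have h3 : ∀ z : Fin (m * K) → q, (fun i => E.symm z (finProdFinEquiv.symm i).2
        (finProdFinEquiv.symm i).1) = z := fun z => E.right_inv z
    rw [h3, h3]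
  · refine Crest.Agent.R324.mc_le ?_
    have := (cost_mc A (m * K)).reindex E E
    convert this using 1
    ext x y
    rw [key]
    rfl

/-! ### the recursion -/

/-- normalised cost -/
noncomputable def tau (K : ℕ) : ℝ := tz K / 2 ^ K





/-- Jensen for a binomial law with success probability `x` -/
theorem binomial_jensen {θ x : ℝ} (h0 : 0 ≤ θ) (h1 : θ ≤ 1) (hx0 : 0 ≤ x) (hx1 : x ≤ 1)
    (K : ℕ) :
    ∑ j ∈ Finset.range (K + 1), ((K.choose j : ℝ) * x ^ j * (1 - x) ^ (K - j)) * (j : ℝ) ^ θ ≤
      (K * x) ^ θ := by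
  have hw : ∑ j ∈ Finset.range (K + 1), ((K.choose j : ℝ) * x ^ j * (1 - x) ^ (K - j)) = 1 := by
    have := add_pow x (1 - x) K
    rw [add_sub_cancel, one_pow] at this
    refine Eq.trans ?_ this.symm
    exact Finset.sum_congr rfl fun j _ => by ring
  have hm : ∑ j ∈ Finset.range (K + 1),
      ((K.choose j : ℝ) * x ^ j * (1 - x) ^ (K - j)) * (j : ℝ) = K * x := by
    have := congrArg (Polynomial.eval x) (bernsteinPolynomial.sum_smul ℝ K)
    rw [Polynomial.eval_finsetSum] at this
    simp only [bernsteinPolynomial, nsmul_eq_mul, Polynomial.eval_mul, Polynomial.eval_natCast,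
      Polynomial.eval_pow, Polynomial.eval_X, Polynomial.eval_sub, Polynomial.eval_one] at this
    rw [← this]
    exact Finset.sum_congr rfl fun j _ => by ring
  have := (Real.concaveOn_rpow h0 h1).le_map_sum (t := Finset.range (K + 1))
    (w := fun j => (K.choose j : ℝ) * x ^ j * (1 - x) ^ (K - j)) (p := fun j => (j : ℝ))
    (fun j _ => by
      have : 0 ≤ 1 - x := by linarith
      positivity) hw (fun j _ => by simp)
  simp only [smul_eq_mul] at this
  rw [hm] at this
  exact this

theorem FK_le {A θ : ℝ} (h0 : 0 < θ) (h1 : θ ≤ 1) (hA : 0 ≤ A) {K Q : ℕ} (hQ : 2 ≤ Q)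
    (h : ∀ j ≤ K, tau j ≤ A * (j : ℝ) ^ θ) :
    (FK K Q : ℝ) ≤ Q ^ K * (A * (K * (2 / Q)) ^ θ) := by
  have hQ0 : (0 : ℝ) < Q := by exact_mod_cast (by omega : 0 < Q)
  have hx0 : (0 : ℝ) ≤ 2 / Q := by positivity
  have hx1 : (2 : ℝ) / Q ≤ 1 := by
    rw [div_le_one hQ0]; exact_mod_cast hQ
  have hJ := binomial_jensen h0.le h1 hx0 hx1 K
  have hcast : ((Q - 2 : ℕ) : ℝ) = Q - 2 := by
    rw [Nat.cast_sub hQ]; norm_num
  calc (FK K Q : ℝ) = ∑ j ∈ Finset.range (K + 1),
        (K.choose j : ℝ) * (Q - 2 : ℝ) ^ (K - j) * tz j := by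
        unfold FK
        push_cast
        rw [hcast]
    _ ≤ ∑ j ∈ Finset.range (K + 1), Q ^ K * (A *
        (((K.choose j : ℝ) * (2 / Q) ^ j * (1 - 2 / Q) ^ (K - j)) * (j : ℝ) ^ θ)) := by
        refine Finset.sum_le_sum fun j hj => ?_
        have hjK : j ≤ K := Nat.lt_succ_iff.1 (Finset.mem_range.1 hj)
        have ht := h j hjK
        unfold tau at ht
        rw [div_le_iff₀ (by positivity)] at ht
        have hQ2 : (0 : ℝ) ≤ (Q : ℝ) - 2 := by
          rw [← hcast]; positivity
        have e1 : (Q : ℝ) ^ K = Q ^ j * Q ^ (K - j) := by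
          rw [← pow_add]; congr 1; omega
        have e2 : (1 - 2 / (Q : ℝ)) = (Q - 2) / Q := by field_simp
        rw [e1, e2, div_pow, div_pow]
        calc (K.choose j : ℝ) * (Q - 2 : ℝ) ^ (K - j) * tz j
            ≤ (K.choose j : ℝ) * (Q - 2 : ℝ) ^ (K - j) * (A * (j : ℝ) ^ θ * 2 ^ j) := by
              gcongr
          _ = _ := by
              field_simp
    _ = Q ^ K * (A * ∑ j ∈ Finset.range (K + 1),
        (((K.choose j : ℝ) * (2 / Q) ^ j * (1 - 2 / Q) ^ (K - j)) * (j : ℝ) ^ θ)) := by
        rw [Finset.mul_sum, Finset.mul_sum]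
    _ ≤ Q ^ K * (A * (K * (2 / Q)) ^ θ) := by gcongr



end Crest.Agent.R324
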