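import Mathlib
import Crest.Agent.R324.Layers
import Crest.Agent.R324.Fourier2_Mg
import Crest.Agent.R324.TW
import Crest.Agent.R324.Word
import Crest.Prelude.Def_LinCircuit

-- ▼ part R324/ToepLoc
section

/-!
# Unipotent Toeplitz matrices acting on a set of registers, with dirty registers around
-/

set_option autoImplicit false
set_option linter.unusedSectionVars false
set_option linter.unusedSimpArgs false

namespace Crest.Agent.R324

open Matrix

variable {q : Type*} [Fintype q] [DecidableEq q]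
variable {α β γ : Type*} [Fintype α] [DecidableEq α] [Fintype β] [DecidableEq β]
  [Fintype γ] [DecidableEq γ]

/-! ### Two by two block words -/

theorem emb_elim_inl (f : α → q) (g : β → q) (i : q) (x : α) :
    emb (Sum.elim f g) i (Sum.inl x) = emb f i x := rfl

theorem emb_elim_inr (f : α → q) (g : β → q) (i : q) (x : β) :
    emb (Sum.elim f g) i (Sum.inr x) = emb g i x := rfl

theorem loc_sum_elim (f : α → q) (g : β → q) (A : Matrix α α ℂ) (B : Matrix α β ℂ)
    (C : Matrix β α ℂ) (D : Matrix β β ℂ) :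
    loc (Sum.elim f g) (Matrix.fromBlocks A B C D) = 1 + (emb f * (A - 1) * (emb f)ᵀ +
      emb f * B * (emb g)ᵀ + emb g * C * (emb f)ᵀ + emb g * (D - 1) * (emb g)ᵀ) := by
  have h1 : (Matrix.fromBlocks A B C D - 1 : Matrix (α ⊕ β) (α ⊕ β) ℂ)
      = Matrix.fromBlocks (A - 1) B C (D - 1) := by
    rw [← Matrix.fromBlocks_one]
    ext (i | i) (j | j) <;> simp [Matrix.one_apply]
  unfold loc
  rw [h1]
  congr 1
  ext i j
  simp only [Matrix.mul_apply, Matrix.add_apply, Matrix.transpose_apply, Fintype.sum_sum_type,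
    emb_elim_inl, emb_elim_inr, Matrix.fromBlocks_apply₁₁,
    Matrix.fromBlocks_apply₁₂, Matrix.fromBlocks_apply₂₁, Matrix.fromBlocks_apply₂₂, add_mul,
    Finset.sum_add_distrib]
  ring

theorem loc_upper (f : α → q) (g : β → q) (B : Matrix α β ℂ) :
    loc (Sum.elim f g) (Matrix.fromBlocks 1 B 0 1) = addm f g B := by
  rw [loc_sum_elim]; simp [addm]

theorem loc_lower (f : α → q) (g : β → q) (C : Matrix β α ℂ) :
    loc (Sum.elim f g) (Matrix.fromBlocks 1 0 C 1) = addm g f C := by
  rw [loc_sum_elim]; simp [addm]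

theorem loc_left (f : α → q) (g : β → q) (A : Matrix α α ℂ) :
    loc (Sum.elim f g) (Matrix.fromBlocks A 0 0 1) = loc f A := by
  rw [loc_sum_elim]; simp [loc]

theorem loc_right (f : α → q) (g : β → q) (A : Matrix β β ℂ) :
    loc (Sum.elim f g) (Matrix.fromBlocks 1 0 0 A) = loc g A := by
  rw [loc_sum_elim]; simp [loc]

theorem whitehead {f g : α → q} (hf : Function.Injective f) (hg : Function.Injective g)
    (hgf : ∀ a b, g a ≠ f b) {S S' D D' T : Matrix α α ℂ} (h1 : S * S' = 1)
    (hT : T = D * S * D' * S') :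
    loc f T = loc f D * (addm f g S * addm g f (-S') * addm f g S) * loc g D' *
      (addm f g (-S) * addm g f S' * addm f g (-S)) := by
  have h2 : S' * S = 1 := mul_eq_one_comm.mp h1
  have hinj : Function.Injective (Sum.elim f g) := by
    rintro (a | a) (b | b) h
    · rw [hf h]
    · exact absurd h.symm (hgf b a)
    · exact absurd h (hgf a b)
    · rw [hg h]
  rw [← loc_left f g T, ← loc_left f g D, ← loc_right f g D', ← loc_upper f g S,
    ← loc_upper f g (-S), ← loc_lower f g (-S'), ← loc_lower f g S']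
  simp only [← loc_mul hinj]
  congr 1
  simp only [Matrix.fromBlocks_multiply, Matrix.mul_one, Matrix.one_mul, Matrix.mul_zero,
    Matrix.zero_mul, add_zero, zero_add, Matrix.mul_neg, Matrix.neg_mul, h1, h2, neg_neg,
    add_neg_cancel, neg_add_cancel, neg_zero]
  rw [hT]
  try simp [Matrix.mul_assoc]

/-! ### The Toeplitz algebra -/

/-- lower triangular Toeplitz matrix of a power series -/
noncomputable def ptoep (n : ℕ) (f : PowerSeries ℂ) : Matrix (Fin n) (Fin n) ℂ :=
  Matrix.of fun j i => if i.val ≤ j.val then PowerSeries.coeff (j.val - i.val) f else 0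

theorem ptoep_one (n : ℕ) : ptoep n 1 = 1 := by
  ext j i
  simp only [ptoep, Matrix.of_apply, PowerSeries.coeff_one, Matrix.one_apply]
  by_cases h : j = i
  · subst h; simp
  · rw [if_neg h]
    by_cases h2 : i.val ≤ j.val
    · rw [if_pos h2, if_neg]
      intro h3
      exact h (Fin.ext (by omega))
    · rw [if_neg h2]

theorem ptoep_mul (n : ℕ) (f g : PowerSeries ℂ) : ptoep n (f * g) = ptoep n f * ptoep n g := by
  ext j i
  rw [Matrix.mul_apply]
  simp only [ptoep, Matrix.of_apply]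
  by_cases h : i.val ≤ j.val
  · rw [if_pos h, PowerSeries.coeff_mul, ← Finset.sum_range (f := fun k => (if k ≤ j.val then
      PowerSeries.coeff (j.val - k) f else 0) * (if i.val ≤ k then
      PowerSeries.coeff (k - i.val) g else 0)) (n := n)]
    rw [← Finset.Nat.sum_antidiagonal_swap, Finset.Nat.sum_antidiagonal_eq_sum_range_succ_mk]
    symm
    rw [← Finset.sum_subset (s₁ := Finset.Ico i.val (j.val + 1))]
    · rw [Finset.sum_Ico_eq_sum_range]
      have : j.val + 1 - i.val = (j.val - i.val).succ := by omega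
      rw [this]
      refine Finset.sum_congr rfl fun k hk => ?_
      rw [Finset.mem_range] at hk
      rw [if_pos (by omega), if_pos (by omega)]
      simp only [Prod.fst_swap, Prod.snd_swap]
      congr 3
      · omega
      · omega
    · intro k hk
      rw [Finset.mem_Ico] at hk
      rw [Finset.mem_range]
      omega
    · intro k _ hk
      rw [Finset.mem_Ico] at hk
      by_cases h3 : k ≤ j.val
      · rw [if_neg (c := i.val ≤ k) (by omega), mul_zero]
      · rw [if_neg h3, zero_mul]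
  · rw [if_neg h]
    symm
    refine Finset.sum_eq_zero fun k _ => ?_
    by_cases h3 : k.val ≤ j.val
    · rw [if_neg (c := i.val ≤ k.val) (by omega), mul_zero]
    · rw [if_neg h3, zero_mul]

/-- solution of `s(2x) = t(x) s(x)` -/
noncomputable def sol (t : ℕ → ℂ) : ℕ → ℂ
  | 0 => 1
  | k + 1 => (∑ l : Fin (k + 1), t (k + 1 - l.val) * sol t l.val) / (2 ^ (k + 1) - 1)
decreasing_by exact l.isLt

theorem sol_zero (t : ℕ → ℂ) : sol t 0 = 1 := by rw [sol]

theorem two_pow_sub_one_ne (k : ℕ) : (2 : ℂ) ^ (k + 1) - 1 ≠ 0 := by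
  have h : (2 : ℝ) ^ (k + 1) - 1 ≠ 0 := by
    have : (1 : ℝ) < 2 ^ (k + 1) := one_lt_pow₀ (by norm_num) (Nat.succ_ne_zero k)
    linarith
  intro h'
  apply h
  exact_mod_cast h'

theorem sol_spec {t : ℕ → ℂ} (ht : t 0 = 1) (k : ℕ) :
    2 ^ k * sol t k = ∑ l ∈ Finset.range (k + 1), t (k - l) * sol t l := by
  cases k with
  | zero => simp [ht]
  | succ k =>
    rw [Finset.sum_range_succ, Nat.sub_self, ht, one_mul, Finset.sum_range]
    have h1 : (2 ^ (k + 1) - 1) * sol t (k + 1) = ∑ l : Fin (k + 1), t (k + 1 - l.val) *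
        sol t l.val := by
      conv_lhs => rw [sol]
      rw [mul_div_cancel₀ _ (two_pow_sub_one_ne k)]
    rw [← h1]; ring

theorem exists_commutator (n : ℕ) {t : ℕ → ℂ} (ht : t 0 = 1) :
    ∃ s s' : ℕ → ℂ, QPascal.toep n s * QPascal.toep n s' = 1 ∧
      QPascal.toep n t = Matrix.diagonal (fun i : Fin n => (2 : ℂ) ^ i.val) * QPascal.toep n s *
        Matrix.diagonal (fun i : Fin n => ((2 : ℂ) ^ i.val)⁻¹) * QPascal.toep n s' := by
  set S : PowerSeries ℂ := PowerSeries.mk (sol t) with hS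
  have hS0 : PowerSeries.constantCoeff S ≠ 0 := by
    rw [hS, ← PowerSeries.coeff_zero_eq_constantCoeff_apply, PowerSeries.coeff_mk, sol_zero]
    exact one_ne_zero
  have hSS : S * S⁻¹ = 1 := PowerSeries.mul_inv_cancel S hS0
  have e1 : QPascal.toep n (sol t) = ptoep n S := by
    ext j i; simp [QPascal.toep, ptoep, hS]
  have e2 : QPascal.toep n (fun k => PowerSeries.coeff k S⁻¹) = ptoep n S⁻¹ := by
    ext j i; simp [QPascal.toep, ptoep]
  have e3 : QPascal.toep n t = ptoep n (PowerSeries.mk t) := by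
    ext j i; simp [QPascal.toep, ptoep]
  have h1 : ptoep n S * ptoep n S⁻¹ = 1 := by rw [← ptoep_mul, hSS, ptoep_one]
  refine ⟨sol t, fun k => PowerSeries.coeff k S⁻¹, by rw [e1, e2, h1], ?_⟩
  have h2 : PowerSeries.mk t * S = PowerSeries.mk fun k => 2 ^ k * sol t k := by
    ext k
    rw [PowerSeries.coeff_mul, PowerSeries.coeff_mk, sol_spec ht,
      ← Finset.Nat.sum_antidiagonal_swap, Finset.Nat.sum_antidiagonal_eq_sum_range_succ_mk]
    refine Finset.sum_congr rfl fun l _ => ?_
    simp [hS]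
  have h3 : Matrix.diagonal (fun i : Fin n => (2 : ℂ) ^ i.val) * ptoep n S *
        Matrix.diagonal (fun i : Fin n => ((2 : ℂ) ^ i.val)⁻¹)
      = ptoep n (PowerSeries.mk fun k => 2 ^ k * sol t k) := by
    ext j i
    rw [Matrix.mul_diagonal, Matrix.diagonal_mul]
    simp only [ptoep, Matrix.of_apply, PowerSeries.coeff_mk, hS]
    by_cases h : i.val ≤ j.val
    · rw [if_pos h, if_pos h, pow_sub₀ _ two_ne_zero h]; ring
    · rw [if_neg h, if_neg h]; simp
  rw [e1, e2, e3, h3, ← h2, ptoep_mul, Matrix.mul_assoc, h1, Matrix.mul_one]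

/-- symbol on the integers -/
def toZ (s : ℕ → ℂ) (x : ℤ) : ℂ := if 0 ≤ x then s x.toNat else 0

theorem toep_eq (n : ℕ) (s : ℕ → ℂ) : QPascal.toep n s = Matrix.of fun (i j : Fin n) =>
    toZ s ((i.val : ℤ) - j.val) := by
  ext i j
  simp only [QPascal.toep, Matrix.of_apply, toZ]
  by_cases h : j.val ≤ i.val
  · rw [if_pos h, if_pos (by omega)]
    congr 1; omega
  · rw [if_neg h, if_neg (by omega)]

theorem neg_toep_eq (n : ℕ) (s : ℕ → ℂ) : -QPascal.toep n s = Matrix.of fun (i j : Fin n) =>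
    toZ (fun k => -s k) ((i.val : ℤ) - j.val) := by
  rw [toep_eq]
  ext i j
  simp only [Matrix.neg_apply, Matrix.of_apply, toZ]
  split_ifs <;> simp

/-- `T` on the registers `range f`, all other registers unchanged -/
theorem lw_toepLoc {m n H : ℕ} (hH : H = 2 ^ m) (hn : n + n ≤ H) {f g : Fin n → q}
    {w : Fin H → q} (hf : Function.Injective f) (hg : Function.Injective g)
    (hw : Function.Injective w) (hgf : ∀ a c, g a ≠ f c) (hgw : ∀ a b, g a ≠ w b)
    (hwf : ∀ b c, w b ≠ f c) {t : ℕ → ℂ} (ht : t 0 = 1) :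
    LW (240 * m + 74) (loc f (QPascal.toep n t)) := by
  obtain ⟨s, s', h1, h2⟩ := exists_commutator n ht
  rw [whitehead hf hg hgf h1 h2]
  have hfg : ∀ a c, f a ≠ g c := fun a c h => hgf c a h.symm
  have hfw : ∀ a c, f a ≠ w c := fun a c h => hwf c a h.symm
  have hwg : ∀ a c, w a ≠ g c := fun a c h => hgw c a h.symm
  have a1 : LW (40 * m + 12) (addm f g (QPascal.toep n s)) := by
    rw [toep_eq]; exact lw_toepAdd hH hn hf hg hw hgf hgw hwf (toZ s)
  have a2 : LW (40 * m + 12) (addm f g (-QPascal.toep n s)) := by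
    rw [neg_toep_eq]; exact lw_toepAdd hH hn hf hg hw hgf hgw hwf (toZ fun k => -s k)
  have a3 : LW (40 * m + 12) (addm g f (QPascal.toep n s')) := by
    rw [toep_eq]; exact lw_toepAdd hH hn hg hf hw hfg hfw hwg (toZ s')
  have a4 : LW (40 * m + 12) (addm g f (-QPascal.toep n s')) := by
    rw [neg_toep_eq]; exact lw_toepAdd hH hn hg hf hw hfg hfw hwg (toZ fun k => -s' k)
  have d1 := (LW.diagonal (fun i : Fin n => (2 : ℂ) ^ i.val)).loc hf
  have d2 := (LW.diagonal (fun i : Fin n => ((2 : ℂ) ^ i.val)⁻¹)).loc hg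
  exact (((d1.mul ((a1.mul a4).mul a1)).mul d2).mul ((a2.mul a3).mul a2)).mono (by omega)

end Crest.Agent.R324
private theorem rz_707aa1600b : type_of% @_root_.Crest.Agent.R324.sol.eq_1 := @_root_.Crest.Agent.R324.sol.eq_1 -- L142
private theorem rz_f588290282 : type_of% @_root_.Crest.Agent.R324.sol.eq_def := @_root_.Crest.Agent.R324.sol.eq_def -- L142
end

-- ▼ part R324/FourierLW
section

/-!
# The Fourier matrix of any size `N` is a product of `O(log N)` steps
-/

set_option autoImplicit false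
set_option linter.unusedSectionVars false
set_option linter.unusedSimpArgs false

namespace Crest.Agent.R324

open Matrix

variable {q : Type*} [Fintype q] [DecidableEq q]
variable {α β γ : Type*} [Fintype α] [DecidableEq α] [Fintype β] [DecidableEq β]
  [Fintype γ] [DecidableEq γ]

/-- registers avoiding a given family -/
theorem exists_disjoint (F : α → q) (n : ℕ) (h : Fintype.card α + n ≤ Fintype.card q) :
    ∃ w : Fin n → q, Function.Injective w ∧ ∀ a b, w b ≠ F a := by
  classical
  have hc : Fintype.card (Fin n) ≤ Fintype.card {x : q // x ∉ Set.range F} := by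
    rw [Fintype.card_fin, Fintype.card_subtype_compl]
    have h1 : Fintype.card {x : q // x ∈ Set.range F} ≤ Fintype.card α := by
      exact Fintype.card_range_le F
    omega
  obtain ⟨e⟩ := Function.Embedding.nonempty_of_card_le hc
  refine ⟨fun i => (e i).1, fun i j hij => e.injective (Subtype.ext hij), fun a b hab => ?_⟩
  exact (e b).2 ⟨a, hab.symm⟩

theorem loc_equiv (f : α → q) (e : β ≃ α) (M : Matrix α α ℂ) :
    loc f M = loc (f ∘ e) (M.submatrix e e) := by
  unfold loc
  rw [emb_comp]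
  have h : emb (e : β → α) * (M.submatrix e e - 1) * (emb (e : β → α))ᵀ = M - 1 := by
    have h1 : (M.submatrix e e - 1 : Matrix β β ℂ) = (M - 1).submatrix e e := by
      ext i j; simp [Matrix.one_apply]
    rw [h1]
    ext i j
    obtain ⟨i, rfl⟩ := e.surjective i
    obtain ⟨j, rfl⟩ := e.surjective j
    simp [emb, Matrix.mul_apply]
  rw [← h]
  simp only [Matrix.transpose_mul, Matrix.mul_assoc]

theorem loc_id (M : Matrix q q ℂ) : loc id M = M := by
  have : emb (id : q → q) = 1 := by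
    ext i j; simp [emb, Matrix.one_apply]
  simp [loc, this]

theorem loc_split {s1 s2 : ℕ} {f : Fin (s1 + s2) → q} (hf : Function.Injective f)
    {M : Matrix (Fin (s1 + s2)) (Fin (s1 + s2)) ℂ} {T1 : Matrix (Fin s1) (Fin s1) ℂ}
    {A : Matrix (Fin s2) (Fin s1) ℂ} {T2 : Matrix (Fin s2) (Fin s2) ℂ}
    (h11 : ∀ i j, M (Fin.castAdd s2 i) (Fin.castAdd s2 j) = T1 i j)
    (h12 : ∀ i j, M (Fin.castAdd s2 i) (Fin.natAdd s1 j) = 0)
    (h21 : ∀ i j, M (Fin.natAdd s1 i) (Fin.castAdd s2 j) = A i j)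
    (h22 : ∀ i j, M (Fin.natAdd s1 i) (Fin.natAdd s1 j) = T2 i j) :
    loc f M = loc (f ∘ Fin.castAdd s2) T1 * addm (f ∘ Fin.natAdd s1) (f ∘ Fin.castAdd s2) A *
      loc (f ∘ Fin.natAdd s1) T2 := by
  have he : f ∘ (finSumFinEquiv : Fin s1 ⊕ Fin s2 ≃ Fin (s1 + s2))
      = Sum.elim (f ∘ Fin.castAdd s2) (f ∘ Fin.natAdd s1) := by
    ext (i | i) <;> simp
  have hM : M.submatrix (finSumFinEquiv : Fin s1 ⊕ Fin s2 ≃ Fin (s1 + s2)) finSumFinEquiv
      = Matrix.fromBlocks T1 0 0 1 * Matrix.fromBlocks 1 0 A 1 * Matrix.fromBlocks 1 0 0 T2 := by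
    simp only [Matrix.fromBlocks_multiply, Matrix.mul_one, Matrix.one_mul, Matrix.mul_zero,
      Matrix.zero_mul, add_zero, zero_add]
    ext (i | i) (j | j)
    · simp [h11]
    · simp [h12]
    · simp [h21]
    · simp [h22]
  have hinj : Function.Injective (Sum.elim (f ∘ Fin.castAdd s2) (f ∘ Fin.natAdd s1)) := by
    rw [← he]; exact hf.comp (Equiv.injective _)
  rw [loc_equiv f finSumFinEquiv, he, hM, loc_mul hinj, loc_mul hinj, loc_left, loc_right,
    loc_lower]

theorem addm_split {s1 s2 : ℕ} {f : Fin (s1 + s2) → q} {g : α → q}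
    (hgf : ∀ a b, g a ≠ f b) (A : Matrix (Fin (s1 + s2)) α ℂ) :
    addm f g A = addm (f ∘ Fin.castAdd s2) g (A.submatrix (Fin.castAdd s2) id) *
      addm (f ∘ Fin.natAdd s1) g (A.submatrix (Fin.natAdd s1) id) := by
  have h1 : emb f * A = emb (f ∘ Fin.castAdd s2) * A.submatrix (Fin.castAdd s2) id +
      emb (f ∘ Fin.natAdd s1) * A.submatrix (Fin.natAdd s1) id := by
    ext i j
    simp only [Matrix.mul_apply, Matrix.add_apply, Fin.sum_univ_add]
    rfl
  have h2 : (emb g)ᵀ * emb (f ∘ Fin.natAdd s1) = 0 :=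
    emb_transpose_mul fun a b => hgf a _
  have h3 : emb (f ∘ Fin.castAdd s2) * A.submatrix (Fin.castAdd s2) id * (emb g)ᵀ *
      (emb (f ∘ Fin.natAdd s1) * A.submatrix (Fin.natAdd s1) id * (emb g)ᵀ) = 0 := by
    calc _ = emb (f ∘ Fin.castAdd s2) * A.submatrix (Fin.castAdd s2) id *
        ((emb g)ᵀ * emb (f ∘ Fin.natAdd s1)) * A.submatrix (Fin.natAdd s1) id * (emb g)ᵀ := by
          simp only [Matrix.mul_assoc]
      _ = 0 := by rw [h2]; simp
  unfold addm
  rw [h1, Matrix.mul_add, Matrix.mul_one, Matrix.add_mul, Matrix.add_mul, h3, Matrix.one_mul]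
  abel

/-- interval of registers -/
def iv (N a s : ℕ) (h : a + s ≤ N) : Fin s → Fin N := fun i => ⟨a + i.val, by omega⟩

theorem iv_injective {N a s : ℕ} (h : a + s ≤ N) : Function.Injective (iv N a s h) := by
  intro i j hij
  have : a + i.val = a + j.val := congrArg Fin.val hij
  exact Fin.ext (by omega)

theorem iv_castAdd {N a s1 s2 : ℕ} (h : a + (s1 + s2) ≤ N) :
    iv N a (s1 + s2) h ∘ Fin.castAdd s2 = iv N a s1 (by omega) := by
  ext i; simp [iv]

theorem iv_natAdd {N a s1 s2 : ℕ} (h : a + (s1 + s2) ≤ N) :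
    iv N a (s1 + s2) h ∘ Fin.natAdd s1 = iv N (a + s1) s2 (by omega) := by
  ext i; simp [iv, Nat.add_assoc]

theorem iv_ne {N a s b s' : ℕ} (h : a + s ≤ N) (h' : b + s' ≤ N) (hab : a + s ≤ b)
    (i : Fin s) (j : Fin s') : iv N a s h i ≠ iv N b s' h' j := by
  intro hij
  have : a + i.val = b + j.val := congrArg Fin.val hij
  have := i.2
  omega

/-- basic operations are available on intervals of length at most `h` -/
structure Avail (N h L : ℕ) (c : ℕ → ℂ) : Prop where
  diag : ∀ (a s : ℕ) (ha : a + s ≤ N), s ≤ h → LW L (loc (iv N a s ha) (QPascal.toep s c))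
  add : ∀ (a s b s' : ℕ) (ha : a + s ≤ N) (hb : b + s' ≤ N), a + s ≤ b → s ≤ h → s' ≤ h →
    ∀ u : ℤ → ℂ, LW L (addm (iv N b s' hb) (iv N a s ha)
      (Matrix.of fun (i : Fin s') (j : Fin s) => u ((i.val : ℤ) - j.val)))

theorem addm_of_isEmpty {f : α → q} {g : β → q} (A : Matrix α β ℂ)
    (h : IsEmpty α ∨ IsEmpty β) : addm f g A = 1 := by
  have : A = 0 := by
    ext i j
    rcases h with h | h
    · exact (h.false i).elim
    · exact (h.false j).elim
  rw [this, addm_zero]

theorem Avail.addRows {N h L : ℕ} {c : ℕ → ℂ} (H : Avail N h L c) (k : ℕ) :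
    ∀ (a s b s' : ℕ) (ha : a + s ≤ N) (hb : b + s' ≤ N), a + s ≤ b → s ≤ h → s' ≤ k * h →
    ∀ u : ℤ → ℂ, LW (k * L) (addm (iv N b s' hb) (iv N a s ha)
      (Matrix.of fun (i : Fin s') (j : Fin s) => u ((i.val : ℤ) - j.val))) := by
  induction k with
  | zero =>
    intro a s b s' ha hb hab hs hs' u
    have : s' = 0 := by omega
    subst this
    rw [addm_of_isEmpty _ (Or.inl inferInstance), Nat.zero_mul]
    exact LW.one
  | succ k ih =>
    intro a s b s' ha hb hab hs hs' u
    obtain ⟨s1, s2, rfl, h1, h2⟩ : ∃ s1 s2, s' = s1 + s2 ∧ s1 ≤ h ∧ s2 ≤ k * h := by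
      refine ⟨min s' h, s' - min s' h, by omega, by omega, ?_⟩
      rw [Nat.succ_mul] at hs'
      rcases le_total s' h with h3 | h3
      · rw [min_eq_left h3]; simp
      · rw [min_eq_right h3]; omega
    rw [addm_split (fun x y => iv_ne ha hb hab x y), iv_castAdd, iv_natAdd]
    have A1 := H.add a s b s1 ha (by omega) hab hs h1 u
    have A2 := ih a s (b + s1) s2 ha (by omega) (by omega) hs h2 (fun x => u (x + s1))
    have e1 : (Matrix.of fun (i : Fin (s1 + s2)) (j : Fin s) =>
        u ((i.val : ℤ) - j.val)).submatrix (Fin.castAdd s2) id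
        = Matrix.of fun (i : Fin s1) (j : Fin s) => u ((i.val : ℤ) - j.val) := by
      ext i j; simp
    have e2 : (Matrix.of fun (i : Fin (s1 + s2)) (j : Fin s) =>
        u ((i.val : ℤ) - j.val)).submatrix (Fin.natAdd s1) id
        = Matrix.of fun (i : Fin s2) (j : Fin s) => u ((i.val : ℤ) - j.val + s1) := by
      ext i j
      simp only [Matrix.submatrix_apply, Matrix.of_apply, Fin.val_natAdd, id]
      congr 1; push_cast; ring
    rw [e1, e2]
    exact (A1.mul A2).mono (by rw [Nat.succ_mul]; omega)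

theorem Avail.diagRows {N h L : ℕ} {c : ℕ → ℂ} (H : Avail N h L c) (k : ℕ) :
    ∀ (a s : ℕ) (ha : a + s ≤ N), s ≤ k * h →
      LW (k ^ 2 * L) (loc (iv N a s ha) (QPascal.toep s c)) := by
  induction k with
  | zero =>
    intro a s ha hs
    have : s = 0 := by omega
    subst this
    have h1 : QPascal.toep 0 c = (1 : Matrix (Fin 0) (Fin 0) ℂ) := by
      ext i j; exact i.elim0
    rw [h1, loc_one]
    exact LW.one.mono (Nat.zero_le _)
  | succ k ih =>
    intro a s ha hs
    obtain ⟨s1, s2, rfl, h1, h2⟩ : ∃ s1 s2, s = s1 + s2 ∧ s1 ≤ h ∧ s2 ≤ k * h := by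
      refine ⟨min s h, s - min s h, by omega, by omega, ?_⟩
      rw [Nat.succ_mul] at hs
      rcases le_total s h with h3 | h3
      · rw [min_eq_left h3]; simp
      · rw [min_eq_right h3]; omega
    have A1 := H.diag a s1 (by omega) h1
    have A2 := H.addRows k a s1 (a + s1) s2 (by omega) (by omega) (by omega) h1 h2
      (fun x => toZ c (x + s1))
    have A3 := ih (a + s1) s2 (by omega) h2
    rw [loc_split (iv_injective ha) (T1 := QPascal.toep s1 c) (T2 := QPascal.toep s2 c)
      (A := Matrix.of fun (i : Fin s2) (j : Fin s1) => toZ c ((i.val : ℤ) - j.val + s1)),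
      iv_castAdd, iv_natAdd]
    · refine ((A1.mul A2).mul A3).mono ?_
      nlinarith [Nat.zero_le (k * L)]
    · intro i j
      simp only [QPascal.toep, Matrix.of_apply, Fin.val_castAdd]
    · intro i j
      simp only [QPascal.toep, Matrix.of_apply, Fin.val_castAdd, Fin.val_natAdd]
      rw [if_neg (by omega)]
    · intro i j
      simp only [QPascal.toep, Matrix.of_apply, Fin.val_castAdd, Fin.val_natAdd, toZ]
      rw [if_pos (by omega), if_pos (by omega)]
      congr 1; omega
    · intro i j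
      simp only [QPascal.toep, Matrix.of_apply, Fin.val_natAdd]
      by_cases h3 : j.val ≤ i.val
      · rw [if_pos (by omega), if_pos h3]
        congr 1; omega
      · rw [if_neg (by omega), if_neg h3]

theorem Avail.full {N h L : ℕ} {c : ℕ → ℂ} (H : Avail N h L c) (k : ℕ) (hk : N ≤ k * h) :
    LW (k ^ 2 * L) (QPascal.toep N c) := by
  have h1 := H.diagRows k 0 N (by omega) hk
  have h2 : iv N 0 N (by omega) = id := by ext i; simp [iv]
  rw [h2, loc_id] at h1
  exact h1

theorem avail_one (N : ℕ) {c : ℕ → ℂ} (hc : c 0 = 1) : Avail N 1 1 c := by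
  constructor
  · intro a s ha hs
    have h1 : QPascal.toep s c = (1 : Matrix (Fin s) (Fin s) ℂ) := by
      ext i j
      have : i = j := Fin.ext (by omega)
      subst this
      simp [QPascal.toep, hc]
    rw [h1, loc_one]
    exact LW.one.mono (Nat.zero_le _)
  · intro a s b s' ha hb hab hs hs' u
    rcases Nat.eq_zero_or_pos s with h0 | h0
    · subst h0
      rw [addm_of_isEmpty _ (Or.inr inferInstance)]
      exact LW.one.mono (Nat.zero_le _)
    rcases Nat.eq_zero_or_pos s' with h0' | h0'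
    · subst h0'
      rw [addm_of_isEmpty _ (Or.inl inferInstance)]
      exact LW.one.mono (Nat.zero_le _)
    have e1 : s = 1 := by omega
    have e2 : s' = 1 := by omega
    subst e1 e2
    have h1 : (Matrix.of fun (i j : Fin 1) => u ((i.val : ℤ) - j.val))
        = Matrix.diagonal fun _ => u 0 := by
      ext i j
      have hi : i = 0 := Subsingleton.elim _ _
      have hj : j = 0 := Subsingleton.elim _ _
      subst hi hj
      simp
    rw [h1]
    exact (isMatch_addm_diagonal (iv_injective _) (iv_injective _)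
      (fun x y => iv_ne ha hb hab x y) _).isStep.lw

theorem avail_big {N h m : ℕ} (hm : h + h ≤ 2 ^ m) (hN : h + h + 2 ^ m ≤ N) {c : ℕ → ℂ}
    (hc : c 0 = 1) : Avail N h (240 * m + 74) c := by
  constructor
  · intro a s ha hs
    obtain ⟨g, hg, hgf⟩ := exists_disjoint (iv N a s ha) s (by simp; omega)
    obtain ⟨w, hw, hwF⟩ := exists_disjoint (Sum.elim (iv N a s ha) g) (2 ^ m) (by simp; omega)
    exact lw_toepLoc rfl (by omega) (iv_injective ha) hg hw (fun x y => hgf y x)
      (fun x y h' => hwF (Sum.inr x) y h'.symm) (fun x y => hwF (Sum.inl y) x) hc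
  · intro a s b s' ha hb hab hs hs' u
    obtain ⟨w, hw, hwF⟩ := exists_disjoint (Sum.elim (iv N b s' hb) (iv N a s ha)) (2 ^ m)
      (by simp; omega)
    exact (lw_toepAdd rfl (by omega) (iv_injective hb) (iv_injective ha) hw
      (fun x y => iv_ne ha hb hab x y) (fun x y h' => hwF (Sum.inr x) y h'.symm)
      (fun x y => hwF (Sum.inl y) x) u).mono (by omega)

theorem lw_toep (N : ℕ) {c : ℕ → ℂ} (hc : c 0 = 1) :
    LW (20096 * (Nat.log 2 N + 1)) (QPascal.toep N c) := by
  rcases Nat.lt_or_ge N 24 with hN | hN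
  · have h1 := (avail_one N hc).full 24 (by omega)
    exact h1.mono (by omega)
  · obtain ⟨h, hh⟩ : ∃ h, h = N / 8 + 1 := ⟨_, rfl⟩
    have h0 : h + h ≠ 0 := by omega
    have h1 : h + h < 2 ^ (Nat.log 2 (h + h) + 1) := Nat.lt_pow_succ_log_self (by norm_num) _
    have h2 : 2 ^ Nat.log 2 (h + h) ≤ h + h := Nat.pow_log_le_self 2 h0
    have h3 : Nat.log 2 (h + h) ≤ Nat.log 2 N := Nat.log_mono_right (by omega)
    have h4 : 2 ^ (Nat.log 2 (h + h) + 1) = 2 * 2 ^ Nat.log 2 (h + h) := by rw [pow_succ]; ring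
    have A := (avail_big (N := N) (h := h) (m := Nat.log 2 (h + h) + 1) h1.le (by omega)
      hc).full 8 (by omega)
    exact A.mono (by omega)

/-- **Every Fourier matrix is a product of `O(log N)` steps.** -/
theorem lw_fourier {N : ℕ} {z : ℂ} (hz : IsPrimitiveRoot z N) :
    LW (40195 * (Nat.log 2 N + 1)) (Matrix.of fun j k : Fin N => z ^ (j.val * k.val)) := by
  rw [QPascal.fourier_factor z N (QPascal.g_ne_zero_of_primitive hz)]
  have hT := lw_toep N (c := fun m => (QPascal.g z m)⁻¹) (by simp)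
  exact (((((LW.diagonal _).mul hT).mul (LW.diagonal _)).mul hT.transpose).mul
    (LW.diagonal _)).mono (by omega)

theorem fourier_LW : ∃ C : ℕ, ∀ N : ℕ, 1 ≤ N → ∀ z : ℂ, IsPrimitiveRoot z N →
    LW (C * (Nat.log 2 N + 1)) (Matrix.of fun j k : Fin N => z ^ (j.val * k.val)) :=
  ⟨40195, fun _ _ _ hz => lw_fourier hz⟩

end Crest.Agent.R324
end

-- ▼ part R324/Gadget
section

/-!
Row 324: the gadget.  Wires `Fin (d+2) → Option (B × Bool)`.  The block of the tensor power of
the star is computed with fewer than `L n^L` transvections (walker with held symbols).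
-/

set_option autoImplicit false
set_option linter.unusedSectionVars false

namespace Crest.Agent.R324

open Matrix

section general

variable {q : Type*} [Fintype q] [DecidableEq q]

theorem TW.one_add_sum {T : Type*} (s : Finset T) (D : T → Matrix q q ℂ) (k : T → ℕ)
    (h0 : ∀ i ∈ s, ∀ j ∈ s, D i * D j = 0) (h : ∀ i ∈ s, TW (1 + D i) (k i)) :
    TW (1 + ∑ i ∈ s, D i) (∑ i ∈ s, k i) := by
  classical
  induction s using Finset.induction_on with
  | empty => simpa using (TW.one (q := q))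
  | insert a s ha ih =>
    have ih' := ih (fun i hi j hj => h0 i (Finset.mem_insert_of_mem hi) j
      (Finset.mem_insert_of_mem hj)) fun i hi => h i (Finset.mem_insert_of_mem hi)
    have h1 := (h a (Finset.mem_insert_self _ _)).mul ih'
    rw [Finset.sum_insert ha, Finset.sum_insert ha]
    have e : (1 + D a) * (1 + ∑ i ∈ s, D i) = 1 + (D a + ∑ i ∈ s, D i) := by
      rw [Matrix.add_mul, Matrix.one_mul, Matrix.mul_add, Matrix.mul_one, Finset.mul_sum,
        Finset.sum_eq_zero fun j hj => h0 a (Finset.mem_insert_self _ _) j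
          (Finset.mem_insert_of_mem hj)]
      abel
    rwa [e] at h1

end general

section wires

variable {B : Type*} [Fintype B] [DecidableEq B] {d : ℕ}

/-- outputs -/
def ox (a : B × Bool) (b : Fin (d + 1) → B) (v : Fin (d + 1) → Bool) :
    Fin (d + 2) → Option (B × Bool) :=
  Fin.cons (some a) fun t => some (b t, v t)

/-- root faces -/
def ow (b : Fin (d + 1) → B) (v : Fin (d + 1) → Bool) : Fin (d + 2) → Option (B × Bool) :=
  Fin.cons none fun t => some (b t, v t)

/-- faces in direction `t` -/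
def oe (t : Fin (d + 1)) (a : B × Bool) (b : Fin (d + 1) → B) (v : Fin (d + 1) → Bool) :
    Fin (d + 2) → Option (B × Bool) :=
  Fin.cons (some a) (Function.update (fun t' => some (b t', v t')) t none)

theorem ox_ne_ow (a : B × Bool) (b b' : Fin (d + 1) → B) (v v' : Fin (d + 1) → Bool) :
    ox a b v ≠ ow b' v' := fun h => by
  have := congrFun h 0
  simp [ox, ow] at this

theorem ow_ne_oe (t : Fin (d + 1)) (a : B × Bool) (b b' : Fin (d + 1) → B)
    (v v' : Fin (d + 1) → Bool) : ow b v ≠ oe t a b' v' := fun h => by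
  have := congrFun h 0
  simp [oe, ow] at this

theorem ox_ne_oe (t : Fin (d + 1)) (a a' : B × Bool) (b b' : Fin (d + 1) → B)
    (v v' : Fin (d + 1) → Bool) : ox a b v ≠ oe t a' b' v' := fun h => by
  have := congrFun h t.succ
  simp [oe, ox] at this

theorem ow_injective (v : Fin (d + 1) → Bool) :
    Function.Injective fun b : Fin (d + 1) → B => ow b v := by
  intro b b' h
  ext t
  have := congrFun h t.succ
  simpa [ow] using this

/-- same symbol in direction `t` -/
def Sm (t : Fin (d + 1)) (σ τ : (B × Bool) × (Fin (d + 1) → Bool)) : Prop :=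
  σ.1 = τ.1 ∧ ∀ t' ≠ t, σ.2 t' = τ.2 t'

instance (t : Fin (d + 1)) (σ τ : (B × Bool) × (Fin (d + 1) → Bool)) : Decidable (Sm t σ τ) := by
  unfold Sm; infer_instance

theorem oe_congr (t : Fin (d + 1)) (σ τ : (B × Bool) × (Fin (d + 1) → Bool)) (h : Sm t σ τ)
    (b : Fin (d + 1) → B) : oe t σ.1 b σ.2 = oe t τ.1 b τ.2 := by
  unfold oe
  rw [h.1]
  congr 1
  ext t'
  by_cases ht : t' = t
  · subst ht; simp
  · simp [Function.update_of_ne ht, h.2 t' ht]

theorem oe_ne (t : Fin (d + 1)) (σ τ : (B × Bool) × (Fin (d + 1) → Bool)) (h : ¬ Sm t σ τ)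
    (b b' : Fin (d + 1) → B) : oe t σ.1 b σ.2 ≠ oe t τ.1 b' τ.2 := by
  intro h'
  refine h ⟨?_, fun t' ht => ?_⟩
  · have := congrFun h' 0
    simpa [oe] using this
  · have := congrFun h' t'.succ
    simp only [oe, Fin.cons_succ, Function.update_of_ne ht] at this
    simpa using (Prod.ext_iff.1 (Option.some_injective _ this)).2

theorem oe_ins (t : Fin (d + 1)) (β : B) (b : Fin (d + 1) → B)
    (σ : (B × Bool) × (Fin (d + 1) → Bool)) :
    oe t σ.1 (Fin.insertNth t β (Fin.removeNth t b)) σ.2 = oe t σ.1 b σ.2 := by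
  unfold oe
  congr 1
  ext t'
  by_cases ht : t' = t
  · subst ht; simp
  · obtain ⟨s, rfl⟩ := Fin.exists_succAbove_eq ht
    simp

theorem oe_ins_injective (t : Fin (d + 1)) (β : B) (σ : (B × Bool) × (Fin (d + 1) → Bool)) :
    Function.Injective fun k : Fin d → B => oe t σ.1 (Fin.insertNth t β k : Fin (d+1) → B) σ.2 := by
  intro k k' h
  ext s
  have := congrFun h (t.succAbove s).succ
  simp only [oe, Fin.cons_succ, Function.update_of_ne (Fin.succAbove_ne t s)] at this
  simpa using (Prod.ext_iff.1 (Option.some_injective _ this)).1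

/-! ### macros -/

/-- add the direction-`t` symbol `σ` to the targets `y b` -/
def aT (t : Fin (d + 1)) (y : (Fin (d + 1) → B) → (Fin (d + 2) → Option (B × Bool)))
    (σ : (B × Bool) × (Fin (d + 1) → Bool)) :
    Matrix (Fin (d + 2) → Option (B × Bool)) (Fin (d + 2) → Option (B × Bool)) ℂ :=
  gsum Finset.univ y (fun b => oe t σ.1 b σ.2) 1

theorem TW.move (t : Fin (d + 1)) (y : (Fin (d + 1) → B) → (Fin (d + 2) → Option (B × Bool)))
    (hy : ∀ t a b b' v, y b ≠ oe t a b' v) (σ τ : (B × Bool) × (Fin (d + 1) → Bool)) :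
    TW (1 + (aT t y τ - aT t y σ)) ((if Sm t τ σ then 0 else 1) *
      (Fintype.card B ^ (d + 1) + 2 * Fintype.card B ^ d)) := by
  split_ifs with h
  · have : aT t y τ = aT t y σ := by
      unfold aT
      congr 1
      ext b : 1
      exact oe_congr t τ σ h b
    rw [this, sub_self, add_zero]
    exact TW.one' _
  · rcases isEmpty_or_nonempty B with hB | ⟨⟨β⟩⟩
    · have : IsEmpty (Fin (d + 1) → B) := ⟨fun f => hB.elim (f 0)⟩
      have h1 : ∀ σ, aT t y σ = 0 := fun σ => by
        unfold aT gsum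
        rw [Finset.univ_eq_empty, Finset.sum_empty]
      rw [h1, h1, sub_self, add_zero]
      exact TW.one' _
    · have := TW.diff (I := Fin (d + 1) → B) (K := Fin d → B) Finset.univ Finset.univ y
        (fun k => oe t τ.1 (Fin.insertNth t β k : Fin (d+1) → B) τ.2)
        (fun k => oe t σ.1 (Fin.insertNth t β k : Fin (d+1) → B) σ.2)
        (fun b => Fin.removeNth t b) (fun _ _ => Finset.mem_univ _)
        (oe_ins_injective t β τ) (fun b _ k _ => hy _ _ _ _ _) (fun b _ k _ => hy _ _ _ _ _)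
        (fun k _ l _ => oe_ne t τ σ h _ _)
      simp only [oe_ins] at this
      rw [one_mul]
      refine (cast (congrArg₂ TW ?_ ?_) this)
      · unfold aT
        abel
      · simp

/-! ### the walker -/

/-- the base symbol of the walker -/
def v0 (d : ℕ) : Fin (d + 1) → Bool := fun _ => false

/-- the walker wires `ow b v0` are shifted by the held symbols -/
def RR (σ : Fin (d + 1) → (B × Bool) × (Fin (d + 1) → Bool)) :
    Matrix (Fin (d + 2) → Option (B × Bool)) (Fin (d + 2) → Option (B × Bool)) ℂ :=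
  ∑ t, aT t (fun b => ow b (v0 d)) (σ t)

/-- send the walker to the outputs `(a, ·, v)` -/
def SS (a : B × Bool) (v : Fin (d + 1) → Bool) :
    Matrix (Fin (d + 2) → Option (B × Bool)) (Fin (d + 2) → Option (B × Bool)) ℂ :=
  gsum Finset.univ (fun b => ox a b v) (fun b => ow b (v0 d)) 1

/-- what the walk has to add to the outputs `(a, ·, v)` -/
def XX (a : B × Bool) (v : Fin (d + 1) → Bool) :
    Matrix (Fin (d + 2) → Option (B × Bool)) (Fin (d + 2) → Option (B × Bool)) ℂ :=
  SS a v + ∑ t, aT t (fun b => ox a b v) (a, v)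

theorem aT_mul_aT (t t' : Fin (d + 1)) (y y' : (Fin (d + 1) → B) → (Fin (d + 2) → Option (B × Bool)))
    (hy : ∀ t a b b' v, y' b ≠ oe t a b' v) (σ τ : (B × Bool) × (Fin (d + 1) → Bool)) :
    aT t y σ * aT t' y' τ = 0 :=
  gsum_mul_gsum_zero _ _ _ _ _ _ _ _ fun _ _ _ _ => (hy _ _ _ _ _).symm

theorem aT_mul_SS (t : Fin (d + 1)) (y : (Fin (d + 1) → B) → (Fin (d + 2) → Option (B × Bool)))
    (σ : (B × Bool) × (Fin (d + 1) → Bool)) (a : B × Bool) (v : Fin (d + 1) → Bool) :
    aT t y σ * SS a v = 0 :=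
  gsum_mul_gsum_zero _ _ _ _ _ _ _ _ fun _ _ _ _ => (ox_ne_oe _ _ _ _ _ _ _).symm

theorem SS_mul_SS (a a' : B × Bool) (v v' : Fin (d + 1) → Bool) :
    SS a v * SS a' v' = 0 :=
  gsum_mul_gsum_zero _ _ _ _ _ _ _ _ fun _ _ _ _ => (ox_ne_ow _ _ _ _ _).symm

theorem SS_mul_aT_ox (t : Fin (d + 1)) (a a' : B × Bool) (v v' : Fin (d + 1) → Bool)
    (σ : (B × Bool) × (Fin (d + 1) → Bool)) :
    SS a v * aT t (fun b => ox a' b v') σ = 0 :=
  gsum_mul_gsum_zero _ _ _ _ _ _ _ _ fun _ _ _ _ => (ox_ne_ow _ _ _ _ _).symm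

theorem SS_mul_aT (t : Fin (d + 1)) (a : B × Bool) (v : Fin (d + 1) → Bool)
    (σ : (B × Bool) × (Fin (d + 1) → Bool)) :
    SS a v * aT t (fun b => ow b (v0 d)) σ = aT t (fun b => ox a b v) σ := by
  unfold SS aT gsum
  rw [Finset.sum_mul]
  refine Finset.sum_congr rfl fun i _ => ?_
  rw [Finset.mul_sum, Finset.sum_eq_single i]
  · rw [Matrix.single_mul_single_same, mul_one]
  · intro k _ hk
    exact Matrix.single_mul_single_of_ne _ _ _ _ (fun h => hk (ow_injective _ h).symm) _
  · intro h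
    exact absurd (Finset.mem_univ _) h

theorem RR_mul_RR (σ τ : Fin (d + 1) → (B × Bool) × (Fin (d + 1) → Bool)) :
    RR σ * RR τ = 0 := by
  unfold RR
  rw [Finset.sum_mul]
  refine Finset.sum_eq_zero fun t _ => ?_
  rw [Finset.mul_sum]
  exact Finset.sum_eq_zero fun t' _ => aT_mul_aT _ _ _ _ (fun _ _ _ _ _ => ow_ne_oe _ _ _ _ _ _) _ _

theorem RR_mul_XX (σ : Fin (d + 1) → (B × Bool) × (Fin (d + 1) → Bool)) (a : B × Bool)
    (v : Fin (d + 1) → Bool) : RR σ * XX a v = 0 := by
  unfold RR XX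
  rw [Finset.sum_mul]
  refine Finset.sum_eq_zero fun t _ => ?_
  rw [Matrix.mul_add, aT_mul_SS, zero_add, Finset.mul_sum]
  exact Finset.sum_eq_zero fun t' _ => aT_mul_aT _ _ _ _ (fun _ _ _ _ _ => ox_ne_oe _ _ _ _ _ _ _) _ _

theorem XX_mul_RR (σ : Fin (d + 1) → (B × Bool) × (Fin (d + 1) → Bool)) (a : B × Bool)
    (v : Fin (d + 1) → Bool) : XX a v * RR σ = ∑ t, aT t (fun b => ox a b v) (σ t) := by
  unfold RR XX
  rw [Matrix.add_mul, Finset.mul_sum]
  have : (∑ t, aT t (fun b => ox a b v) (a, v)) *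
      (∑ t, aT t (fun b => ow b (v0 d)) (σ t)) = 0 := by
    rw [Finset.sum_mul]
    refine Finset.sum_eq_zero fun t _ => ?_
    rw [Finset.mul_sum]
    exact Finset.sum_eq_zero fun t' _ =>
      aT_mul_aT _ _ _ _ (fun _ _ _ _ _ => ow_ne_oe _ _ _ _ _ _) _ _
  rw [this, add_zero]
  exact Finset.sum_congr rfl fun t _ => SS_mul_aT _ _ _ _

theorem XX_mul_XX (a a' : B × Bool) (v v' : Fin (d + 1) → Bool) : XX a v * XX a' v' = 0 := by
  unfold XX
  rw [Matrix.add_mul, Matrix.mul_add, Matrix.mul_add, SS_mul_SS, zero_add]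
  have h1 : SS a v * ∑ t, aT t (fun b => ox a' b v') (a', v') = 0 := by
    rw [Finset.mul_sum]
    exact Finset.sum_eq_zero fun t' _ => SS_mul_aT_ox _ _ _ _ _ _
  have h2 : (∑ t, aT t (fun b => ox a b v) (a, v)) * SS a' v' = 0 := by
    rw [Finset.sum_mul]
    exact Finset.sum_eq_zero fun t' _ => aT_mul_SS _ _ _ _ _
  have h3 : (∑ t, aT t (fun b => ox a b v) (a, v)) *
      (∑ t, aT t (fun b => ox a' b v') (a', v')) = 0 := by
    rw [Finset.sum_mul]
    refine Finset.sum_eq_zero fun t _ => ?_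
    rw [Finset.mul_sum]
    exact Finset.sum_eq_zero fun t' _ =>
      aT_mul_aT _ _ _ _ (fun _ _ _ _ _ => ox_ne_oe _ _ _ _ _ _ _) _ _
  rw [h1, h2, h3, add_zero, add_zero]

/-- cost of one symbol change -/
def mcst (B : Type*) [Fintype B] (d : ℕ) : ℕ := Fintype.card B ^ (d + 1) + 2 * Fintype.card B ^ d

/-- cost of one step of the walk -/
def scst (σ τ : Fin (d + 1) → (B × Bool) × (Fin (d + 1) → Bool)) (a : B × Bool)
    (v : Fin (d + 1) → Bool) : ℕ :=
  Fintype.card B ^ (d + 1) + ((∑ t, if Sm t (a, v) (τ t) then 0 else 1) +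
    (∑ t, if Sm t (τ t) (σ t) then 0 else 1)) * mcst B d

theorem TW.walk_step (σ τ : Fin (d + 1) → (B × Bool) × (Fin (d + 1) → Bool)) (a : B × Bool)
    (v : Fin (d + 1) → Bool) :
    TW ((1 + RR τ) * (1 + XX a v) * (1 - RR σ)) (scst σ τ a v) := by
  have w1 : TW (1 + ∑ t, (aT t (fun b => ox a b v) (a, v) - aT t (fun b => ox a b v) (τ t)))
      (∑ t, (if Sm t (a, v) (τ t) then 0 else 1) * mcst B d) := by
    refine TW.one_add_sum _ _ _ (fun i _ j _ => ?_) fun t _ =>
      TW.move t _ (fun _ _ _ _ _ => ox_ne_oe _ _ _ _ _ _ _) _ _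
    have : ∀ σ τ, aT i (fun b => ox a b v) σ * aT j (fun b => ox a b v) τ = 0 := fun σ τ =>
      aT_mul_aT _ _ _ _ (fun _ _ _ _ _ => ox_ne_oe _ _ _ _ _ _ _) _ _
    rw [Matrix.sub_mul, Matrix.mul_sub, Matrix.mul_sub, this, this, this, this]
    simp
  have w2 : TW (1 + ∑ t, (aT t (fun b => ow b (v0 d)) (τ t) - aT t (fun b => ow b (v0 d)) (σ t)))
      (∑ t, (if Sm t (τ t) (σ t) then 0 else 1) * mcst B d) := by
    refine TW.one_add_sum _ _ _ (fun i _ j _ => ?_) fun t _ =>
      TW.move t _ (fun _ _ _ _ _ => ow_ne_oe _ _ _ _ _ _) _ _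
    have : ∀ σ τ, aT i (fun b => ow b (v0 d)) σ * aT j (fun b => ow b (v0 d)) τ =
        (0 : Matrix (Fin (d + 2) → Option (B × Bool)) (Fin (d + 2) → Option (B × Bool)) ℂ) :=
      fun σ τ => aT_mul_aT _ _ _ _ (fun _ _ _ _ _ => ow_ne_oe _ _ _ _ _ _) _ _
    rw [Matrix.sub_mul, Matrix.mul_sub, Matrix.mul_sub, this, this, this, this]
    simp
  have w3 : TW (1 + SS a v) (Fintype.card B ^ (d + 1)) := by
    have := TW.gates (Finset.univ : Finset (Fin (d + 1) → B)) (fun b => ox a b v)
      (fun b => ow b (v0 d)) 1 fun _ _ _ _ => ox_ne_ow _ _ _ _ _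
    unfold SS
    simpa using this
  have w := (w1.mul w3).mul w2
  have e : (1 + ∑ t, (aT t (fun b => ox a b v) (a, v) - aT t (fun b => ox a b v) (τ t))) *
      (1 + SS a v) *
      (1 + ∑ t, (aT t (fun b => ow b (v0 d)) (τ t) - aT t (fun b => ow b (v0 d)) (σ t))) =
      (1 + RR τ) * (1 + XX a v) * (1 - RR σ) := by
    have r1 : (∑ t, (aT t (fun b => ow b (v0 d)) (τ t) - aT t (fun b => ow b (v0 d)) (σ t))) =
        RR τ - RR σ := Finset.sum_sub_distrib ..
    have r2 : (∑ t, (aT t (fun b => ox a b v) (a, v) - aT t (fun b => ox a b v) (τ t))) =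
        (∑ t, aT t (fun b => ox a b v) (a, v)) - ∑ t, aT t (fun b => ox a b v) (τ t) :=
      Finset.sum_sub_distrib ..
    have hSR : ∀ σ, SS a v * RR σ = ∑ t, aT t (fun b => ox a b v) (σ t) := fun σ => by
      unfold RR
      rw [Finset.mul_sum]
      exact Finset.sum_congr rfl fun t _ => SS_mul_aT _ _ _ _
    have hPS : ∀ σ : Fin (d + 1) → (B × Bool) × (Fin (d + 1) → Bool),
        (∑ t, aT t (fun b => ox a b v) (σ t)) * SS a v = 0 := fun σ => by
      rw [Finset.sum_mul]
      exact Finset.sum_eq_zero fun t _ => aT_mul_SS _ _ _ _ _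
    have hPR : ∀ σ τ : Fin (d + 1) → (B × Bool) × (Fin (d + 1) → Bool),
        (∑ t, aT t (fun b => ox a b v) (σ t)) * RR τ = 0 := fun σ τ => by
      unfold RR
      rw [Finset.sum_mul]
      refine Finset.sum_eq_zero fun t _ => ?_
      rw [Finset.mul_sum]
      exact Finset.sum_eq_zero fun t' _ =>
        aT_mul_aT _ _ _ _ (fun _ _ _ _ _ => ow_ne_oe _ _ _ _ _ _) _ _
    have hRX := RR_mul_XX τ a v
    have hRR := RR_mul_RR τ σ
    have hXR := XX_mul_RR σ a v
    rw [r1, r2]
    have hS1 := hSR τ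
    have hS2 := hSR σ
    have hP1 := hPS fun _ => (a, v)
    have hP2 := hPS τ
    have hP3 := hPR (fun _ => (a, v)) τ
    have hP4 := hPR (fun _ => (a, v)) σ
    have hP5 := hPR τ τ
    have hP6 := hPR τ σ
    have hX : XX a v = SS a v + ∑ t, aT t (fun b => ox a b v) (a, v) := rfl
    generalize (∑ t, aT t (fun b => ox a b v) (a, v)) = P0 at *
    generalize (∑ t, aT t (fun b => ox a b v) (τ t)) = Pt at *
    generalize (∑ t, aT t (fun b => ox a b v) (σ t)) = Ps at *
    generalize RR τ = Rt at *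
    generalize RR σ = Rs at *
    generalize SS a v = S at *
    generalize XX a v = X at *
    have l : (1 + (P0 - Pt)) * (1 + S) * (1 + (Rt - Rs)) =
        1 + P0 - Pt + S + (P0 * S - Pt * S) + (Rt - Rs) + (P0 * Rt - P0 * Rs - Pt * Rt + Pt * Rs)
          + (S * Rt - S * Rs) + (P0 * S - Pt * S) * (Rt - Rs) := by noncomm_ring
    have r : (1 + Rt) * (1 + X) * (1 - Rs) = 1 + Rt + X + Rt * X - Rs - Rt * Rs - X * Rs -
        Rt * X * Rs := by noncomm_ring
    rw [l, r, hRX, hRR, hXR, hP1, hP2, hP3, hP4, hP5, hP6, hS1, hS2, hX]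
    simp only [sub_zero, zero_mul, add_zero, sub_self]
    abel
  rw [e] at w
  refine w.mono (le_of_eq ?_)
  unfold scst
  rw [← Finset.sum_mul, ← Finset.sum_mul]
  ring

/-- symbols held -/
abbrev Hd (B : Type*) (d : ℕ) := Fin (d + 1) → (B × Bool) × (Fin (d + 1) → Bool)

/-- a visit: the symbols held by the walker and the output visited -/
abbrev Vis (B : Type*) (d : ℕ) := Hd B d × ((B × Bool) × (Fin (d + 1) → Bool))

/-- the symbols held at the end of a list of visits -/
def runEnd (σ : Hd B d) : List (Vis B d) → Hd B d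
  | [] => σ
  | x :: l => runEnd x.1 l

/-- the cost of a list of visits -/
def runCost (σ : Hd B d) : List (Vis B d) → ℕ
  | [] => 0
  | x :: l => scst σ x.1 x.2.1 x.2.2 + runCost x.1 l


theorem TW.walk (l : List (Vis B d)) (σ : Hd B d) :
    TW ((1 + RR (runEnd σ l)) * (1 + (l.map fun x => XX x.2.1 x.2.2).sum) * (1 - RR σ))
      (runCost σ l) := by
  induction l generalizing σ with
  | nil =>
    have : (1 + RR σ) * (1 + 0) * (1 - RR σ) = 1 := by
      have h := RR_mul_RR σ σ
      generalize RR σ = R at *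
      have : (1 + R) * (1 + 0) * (1 - R) = 1 - R * R := by noncomm_ring
      rw [this, h, sub_zero]
    simp only [runEnd, List.map_nil, List.sum_nil, this, runCost]
    exact TW.one
  | cons x l ih =>
    have w := (ih x.1).mul (TW.walk_step σ x.1 x.2.1 x.2.2)
    have hz : (l.map fun x => XX x.2.1 x.2.2).sum * XX x.2.1 x.2.2 = 0 := by
      clear w ih
      induction l with
      | nil => simp
      | cons y l ihl =>
        rw [List.map_cons, List.sum_cons, Matrix.add_mul, ihl, XX_mul_XX, add_zero]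
    have h := RR_mul_RR x.1 x.1
    have e : (1 + RR (runEnd x.1 l)) * (1 + (l.map fun x => XX x.2.1 x.2.2).sum) *
        (1 - RR x.1) * ((1 + RR x.1) * (1 + XX x.2.1 x.2.2) * (1 - RR σ)) =
        (1 + RR (runEnd σ (x :: l))) * (1 + ((x :: l).map fun x => XX x.2.1 x.2.2).sum) *
        (1 - RR σ) := by
      simp only [runEnd, List.map_cons, List.sum_cons]
      generalize RR (runEnd x.1 l) = E at *
      generalize RR x.1 = R at *
      generalize RR σ = R0 at *
      generalize (l.map fun x => XX x.2.1 x.2.2).sum = Y at *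
      generalize XX x.2.1 x.2.2 = X at *
      have h1 : (1 + E) * (1 + Y) * (1 - R) * ((1 + R) * (1 + X) * (1 - R0)) =
          (1 + E) * (1 + Y) * (1 - R * R) * (1 + X) * (1 - R0) := by noncomm_ring
      have h2 : (1 + E) * (1 + Y) * (1 + X) * (1 - R0) =
          (1 + E) * (1 + (X + Y) + Y * X) * (1 - R0) := by noncomm_ring
      rw [h1, h, sub_zero, Matrix.mul_one, h2, hz, add_zero]
    rw [e] at w
    simp only [runCost]
    exact w.mono (by omega)

theorem TW.RR (σ : Hd B d) : TW (1 + RR σ) ((d + 1) * Fintype.card B ^ (d + 1)) := by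
  have := TW.one_add_sum Finset.univ (fun t => aT t (fun b => ow b (v0 d)) (σ t))
    (fun _ => Fintype.card B ^ (d + 1))
    (fun i _ j _ => aT_mul_aT _ _ _ _ (fun _ _ _ _ _ => ow_ne_oe _ _ _ _ _ _) _ _)
    (fun t _ => by
      have := TW.gates (Finset.univ : Finset (Fin (d + 1) → B)) (fun b => ow b (v0 d))
        (fun b => oe t (σ t).1 b (σ t).2) 1 fun _ _ _ _ => ow_ne_oe _ _ _ _ _ _
      unfold aT
      simpa using this)
  simpa [Crest.Agent.R324.RR] using this

theorem TW.neg_RR (σ : Hd B d) :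
    TW (1 - Crest.Agent.R324.RR σ) ((d + 1) * Fintype.card B ^ (d + 1)) := by
  have hneg : ∀ t, gsum (Finset.univ : Finset (Fin (d + 1) → B)) (fun b => ow b (v0 d))
        (fun b => oe t (σ t).1 b (σ t).2) (-1) = - aT t (fun b => ow b (v0 d)) (σ t) := fun t => by
    unfold aT gsum
    rw [← Finset.sum_neg_distrib]
    refine Finset.sum_congr rfl fun i _ => ?_
    ext a b
    simp [Matrix.single_apply]
    split_ifs <;> simp
  have := TW.one_add_sum Finset.univ (fun t => - aT t (fun b => ow b (v0 d)) (σ t))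
    (fun _ => Fintype.card B ^ (d + 1))
    (fun i _ j _ => by
      rw [neg_mul_neg]
      exact aT_mul_aT _ _ _ _ (fun _ _ _ _ _ => ow_ne_oe _ _ _ _ _ _) _ _)
    (fun t _ => by
      have := TW.gates (Finset.univ : Finset (Fin (d + 1) → B)) (fun b => ow b (v0 d))
        (fun b => oe t (σ t).1 b (σ t).2) (-1) fun _ _ _ _ => ow_ne_oe _ _ _ _ _ _
      rw [← hneg]
      simpa using this)
  rw [Finset.sum_neg_distrib, ← sub_eq_add_neg] at this
  simpa [Crest.Agent.R324.RR] using this

/-- the whole walk, including loading and unloading the walker -/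
theorem TW.walk_total (l : List (Vis B d)) (σ : Hd B d) :
    TW (1 + (l.map fun x => XX x.2.1 x.2.2).sum)
      (runCost σ l + 2 * ((d + 1) * Fintype.card B ^ (d + 1))) := by
  have w := ((TW.neg_RR (runEnd σ l)).mul (TW.walk l σ)).mul (TW.RR σ)
  have h1 := RR_mul_RR (runEnd σ l) (runEnd σ l)
  have h2 := RR_mul_RR σ σ
  generalize Crest.Agent.R324.RR (runEnd σ l) = E at *
  generalize Crest.Agent.R324.RR σ = R at *
  generalize (l.map fun x => XX x.2.1 x.2.2).sum = Y at *
  have e : (1 - E) * ((1 + E) * (1 + Y) * (1 - R)) * (1 + R) =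
      (1 - E * E) * (1 + Y) * (1 - R * R) := by noncomm_ring
  rw [e, h1, h2, sub_zero, Matrix.one_mul, Matrix.mul_one] at w
  exact w.mono (by omega)

end wires

end Crest.Agent.R324
private theorem rz_6f42442368 : type_of% @_root_.Crest.Agent.R324.runCost.eq_def := @_root_.Crest.Agent.R324.runCost.eq_def -- L371
private theorem rz_c77f48577c : type_of% @_root_.Crest.Agent.R324.runCost.eq_1 := @_root_.Crest.Agent.R324.runCost.eq_1 -- L371
private theorem rz_5cd161c199 : type_of% @_root_.Crest.Agent.R324.runEnd.eq_def := @_root_.Crest.Agent.R324.runEnd.eq_def -- L366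
private theorem rz_bbc1f7f305 : type_of% @_root_.Crest.Agent.R324.runEnd.eq_1 := @_root_.Crest.Agent.R324.runEnd.eq_1 -- L366
end

-- ▼ part R324/Gadget2
section

/-!
Row 324: the walk with three held symbols on boxes `{0,1}^3`.
-/

set_option autoImplicit false
set_option linter.unusedSectionVars false

namespace Crest.Agent.R324

open Matrix

variable {B : Type*} [Fintype B] [DecidableEq B] {d : ℕ}

/-- number of symbol changes and pendants of a list of visits -/
def runMoves (σ : Hd B d) : List (Vis B d) → ℕ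
  | [] => 0
  | x :: l => ((∑ t, if Sm t x.2 (x.1 t) then 0 else 1) +
    (∑ t, if Sm t (x.1 t) (σ t) then 0 else 1)) + runMoves x.1 l

theorem runCost_eq (σ : Hd B d) (l : List (Vis B d)) :
    runCost σ l = l.length * Fintype.card B ^ (d + 1) + runMoves σ l * mcst B d := by
  induction l generalizing σ with
  | nil => simp [runCost, runMoves]
  | cons x l ih =>
    simp only [runCost, runMoves, ih, scst, List.length_cons]
    ring

theorem runMoves_append (σ : Hd B d) (l l' : List (Vis B d)) :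
    runMoves σ (l ++ l') = runMoves σ l + runMoves (runEnd σ l) l' := by
  induction l generalizing σ with
  | nil => simp [runMoves, runEnd]
  | cons x l ih => simp [runMoves, runEnd, ih, add_assoc]

/-- the vertex with binary expansion `m` -/
def bv (m : ℕ) : Fin 3 → Bool := fun t => m.testBit t

/-- held symbols, all in slice `a` -/
def held (a : B × Bool) (h : Fin 3 → ℕ) : Hd B 2 := fun t => (a, bv (h t))

/-- number of directions whose symbol is not the held one -/
def missN (m : ℕ) (h : Fin 3 → ℕ) : ℕ :=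
  ∑ t : Fin 3, if (∀ t' ≠ t, bv m t' = bv (h t) t') then 0 else 1

/-- number of changes -/
def chgN (h g : Fin 3 → ℕ) : ℕ :=
  ∑ t : Fin 3, if (∀ t' ≠ t, bv (h t) t' = bv (g t) t') then 0 else 1

theorem Sm_same (t : Fin (d + 1)) (a : B × Bool) (u u' : Fin (d + 1) → Bool) :
    Sm t (a, u) (a, u') ↔ ∀ t' ≠ t, u t' = u' t' := by
  simp [Sm]

theorem runMoves_held (a : B × Bool) (g h : Fin 3 → ℕ) (m : ℕ) (l : List (Vis B 2)) :
    runMoves (held a g) ((held a h, (a, bv m)) :: l) =
      missN m h + chgN h g + runMoves (held a h) l := by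
  simp only [runMoves, missN, chgN]
  congr 2
  · refine Finset.sum_congr rfl fun t _ => ?_
    simp only [held, Sm_same]
  · refine Finset.sum_congr rfl fun t _ => ?_
    simp only [held, Sm_same]

theorem runMoves_first (σ : Hd B 2) (a : B × Bool) (h : Fin 3 → ℕ) (m : ℕ) (l : List (Vis B 2)) :
    runMoves σ ((held a h, (a, bv m)) :: l) ≤ missN m h + 3 + runMoves (held a h) l := by
  have e : runMoves σ ((held a h, (a, bv m)) :: l) = missN m h +
      (∑ t, if Sm t (held a h t) (σ t) then 0 else 1) + runMoves (held a h) l := by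
    simp only [runMoves, missN]
    congr 2
    refine Finset.sum_congr rfl fun t _ => ?_
    simp only [held, Sm_same]
  have h1 : (∑ t, if Sm t (held a h t) (σ t) then 0 else 1) ≤ 3 := by
    have : (∑ t : Fin 3, if Sm t (held a h t) (σ t) then 0 else 1) ≤ ∑ _t : Fin 3, 1 :=
      Finset.sum_le_sum fun t _ => by split_ifs <;> simp
    simpa using this
  omega

/-- the visits of one slice -/
def slice (a : B × Bool) : List (Vis B 2) :=
  [(held a ![4, 4, 1], (a, bv 6)), (held a ![4, 4, 1], (a, bv 4)),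
   (held a ![4, 5, 1], (a, bv 5)), (held a ![0, 5, 1], (a, bv 1)),
   (held a ![0, 5, 3], (a, bv 7)), (held a ![0, 0, 3], (a, bv 0)),
   (held a ![2, 0, 3], (a, bv 2)), (held a ![2, 0, 3], (a, bv 3))]

theorem slice_moves (a : B × Bool) (σ : Hd B 2) : runMoves σ (slice a) ≤ 16 := by
  unfold slice
  refine (runMoves_first _ _ _ _ _).trans ?_
  simp only [runMoves_held]
  have m1 : missN 6 ![4, 4, 1] = 2 := by decide
  have m2 : missN 4 ![4, 4, 1] = 1 := by decide
  have m3 : missN 5 ![4, 5, 1] = 0 := by decide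
  have m4 : missN 1 ![0, 5, 1] = 1 := by decide
  have m5 : missN 7 ![0, 5, 3] = 1 := by decide
  have m6 : missN 0 ![0, 0, 3] = 1 := by decide
  have m7 : missN 2 ![2, 0, 3] = 1 := by decide
  have m8 : missN 3 ![2, 0, 3] = 1 := by decide
  have c1 : chgN ![4, 4, 1] ![4, 4, 1] = 0 := by decide
  have c2 : chgN ![4, 5, 1] ![4, 4, 1] = 1 := by decide
  have c3 : chgN ![0, 5, 1] ![4, 5, 1] = 1 := by decide
  have c4 : chgN ![0, 5, 3] ![0, 5, 1] = 1 := by decide
  have c5 : chgN ![0, 0, 3] ![0, 5, 3] = 1 := by decide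
  have c6 : chgN ![2, 0, 3] ![0, 0, 3] = 1 := by decide
  have c7 : chgN ![2, 0, 3] ![2, 0, 3] = 0 := by decide
  rw [m1, m2, m3, m4, m5, m6, m7, m8, c1, c2, c3, c4, c5, c6, c7]
  simp [runMoves]

theorem slices_moves (L : List (B × Bool)) (σ : Hd B 2) :
    runMoves σ (L.flatMap slice) ≤ 16 * L.length := by
  induction L generalizing σ with
  | nil => simp [runMoves]
  | cons a L ih =>
    rw [List.flatMap_cons, runMoves_append, List.length_cons]
    have h1 := slice_moves a σ
    have h2 := ih (runEnd σ (slice a))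
    omega

theorem slices_cost (L : List (B × Bool)) (σ : Hd B 2) :
    runCost σ (L.flatMap slice) ≤
      L.length * (24 * Fintype.card B ^ 3 + 32 * Fintype.card B ^ 2) := by
  rw [runCost_eq]
  have h1 : (L.flatMap (slice (B := B))).length = 8 * L.length := by
    induction L with
    | nil => simp
    | cons a L ih =>
      rw [List.flatMap_cons, List.length_append, ih, List.length_cons]
      simp only [slice, List.length_cons, List.length_nil]
      ring
  have h2 := Nat.mul_le_mul_right (mcst B 2) (slices_moves L σ)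
  rw [h1]
  refine (Nat.add_le_add_left h2 _).trans (le_of_eq ?_)
  unfold mcst
  ring

theorem slices_sum (L : List (B × Bool)) :
    ((L.flatMap slice).map fun x => XX x.2.1 x.2.2).sum =
      (L.map fun a => ∑ v : Fin 3 → Bool, XX (d := 2) a v).sum := by
  induction L with
  | nil => simp
  | cons a L ih =>
    rw [List.flatMap_cons, List.map_append, List.sum_append, ih, List.map_cons, List.sum_cons]
    congr 1
    simp only [slice, List.map_cons, List.map_nil, List.sum_cons, List.sum_nil]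
    have e : (Finset.univ : Finset (Fin 3 → Bool)) =
        {bv 6, bv 4, bv 5, bv 1, bv 7, bv 0, bv 2, bv 3} := by decide
    rw [e]
    rw [Finset.sum_insert (by decide), Finset.sum_insert (by decide),
      Finset.sum_insert (by decide), Finset.sum_insert (by decide),
      Finset.sum_insert (by decide), Finset.sum_insert (by decide),
      Finset.sum_insert (by decide), Finset.sum_singleton]
    abel

theorem TW.walk_all : TW (1 + ∑ a : B × Bool, ∑ v : Fin 3 → Bool, XX (d := 2) a v)
    (2 * Fintype.card B * (24 * Fintype.card B ^ 3 + 32 * Fintype.card B ^ 2) +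
      6 * Fintype.card B ^ 3) := by
  rcases isEmpty_or_nonempty B with hB | ⟨⟨β⟩⟩
  · simp only [Finset.univ_eq_empty, Finset.sum_empty, add_zero]
    exact TW.one' _
  · have w := TW.walk_total ((Finset.univ : Finset (B × Bool)).toList.flatMap slice)
      (held (β, false) ![0, 0, 0])
    rw [slices_sum, Finset.sum_map_toList] at w
    refine w.mono ?_
    have := slices_cost (Finset.univ : Finset (B × Bool)).toList (held (β, false) ![0, 0, 0])
    rw [Finset.length_toList, Finset.card_univ, Fintype.card_prod, Fintype.card_bool] at this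
    have e : Fintype.card B * 2 = 2 * Fintype.card B := by ring
    rw [e] at this
    have e2 : 2 * ((2 + 1) * Fintype.card B ^ (2 + 1)) = 6 * Fintype.card B ^ 3 := by ring
    rw [e2]
    omega

end Crest.Agent.R324
private theorem rz_bc7aea1334 : type_of% @_root_.Crest.Agent.R324.runMoves.eq_def := @_root_.Crest.Agent.R324.runMoves.eq_def -- L17
private theorem rz_9e68a95a70 : type_of% @_root_.Crest.Agent.R324.runMoves.eq_1 := @_root_.Crest.Agent.R324.runMoves.eq_1 -- L17
end

-- ▼ part R324/Gadget3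
section

/-!
Row 324: the block of the fourth tensor power of a star.
-/

set_option autoImplicit false
set_option linter.unusedSectionVars false

namespace Crest.Agent.R324

open Matrix

variable {B : Type*} [Fintype B] [DecidableEq B]

/-- the block: every output (no `none`) receives all its `L` faces -/
def blk (L : ℕ) (N : Type*) [Fintype N] [DecidableEq N] :
    Matrix (Fin L → Option N) (Fin L → Option N) ℂ :=
  ∑ α : Fin L → N, ∑ s : Fin L,
    Matrix.single (fun i => some (α i)) (Function.update (fun i => some (α i)) s none) 1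

/-- root differences -/
def DD (v : Fin 3 → Bool) :
    Matrix (Fin 4 → Option (B × Bool)) (Fin 4 → Option (B × Bool)) ℂ :=
  gsum (Finset.univ : Finset ((B × Bool) × (Fin 3 → B))) (fun i => ox i.1 i.2 v)
    (fun i => ow i.2 v) 1 -
  gsum (Finset.univ : Finset ((B × Bool) × (Fin 3 → B))) (fun i => ox i.1 i.2 v)
    (fun i => ow i.2 (v0 2)) 1

theorem TW.DD (v : Fin 3 → Bool) (hv : v ≠ v0 2) :
    TW (1 + Crest.Agent.R324.DD (B := B) v)
      (2 * Fintype.card B * Fintype.card B ^ 3 + 2 * Fintype.card B ^ 3) := by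
  have := TW.diff (Finset.univ : Finset ((B × Bool) × (Fin 3 → B)))
    (Finset.univ : Finset (Fin 3 → B)) (fun i => ox i.1 i.2 v) (fun k => ow k v)
    (fun k => ow k (v0 2)) (fun i => i.2) (fun _ _ => Finset.mem_univ _) (ow_injective v)
    (fun _ _ _ _ => ox_ne_ow _ _ _ _ _) (fun _ _ _ _ => ox_ne_ow _ _ _ _ _)
    (fun k _ l _ h => hv (by
      ext t
      have := congrFun h t.succ
      simpa [ow] using (Prod.ext_iff.1 (Option.some_injective _ this)).2))
  refine (cast (congrArg₂ TW ?_ ?_) this)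
  · unfold Crest.Agent.R324.DD
    abel
  · simp only [Finset.card_univ, Fintype.card_prod, Fintype.card_fun, Fintype.card_fin,
      Fintype.card_bool]
    ring

theorem DD_mul_DD (v v' : Fin 3 → Bool) : DD (B := B) v * DD v' = 0 := by
  unfold DD
  have h : ∀ u u' w w' : Fin 3 → Bool,
      gsum (Finset.univ : Finset ((B × Bool) × (Fin 3 → B))) (fun i => ox i.1 i.2 u)
        (fun i => ow i.2 u') 1 *
      gsum (Finset.univ : Finset ((B × Bool) × (Fin 3 → B))) (fun i => ox i.1 i.2 w)
        (fun i => ow i.2 w') 1 = 0 := fun u u' w w' =>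
    gsum_mul_gsum_zero _ _ _ _ _ _ _ _ fun _ _ _ _ => (ox_ne_ow _ _ _ _ _).symm
  rw [Matrix.sub_mul, Matrix.mul_sub, Matrix.mul_sub, h, h, h, h]
  simp

theorem XX_mul_DD (a : B × Bool) (v v' : Fin 3 → Bool) : XX (d := 2) a v * DD v' = 0 := by
  unfold DD XX SS aT
  have h1 : ∀ u, gsum (Finset.univ : Finset (Fin 3 → B)) (fun b => ox a b v)
        (fun b => ow b (v0 2)) 1 *
      gsum (Finset.univ : Finset ((B × Bool) × (Fin 3 → B))) (fun i => ox i.1 i.2 v')
        (fun i => ow i.2 u) 1 = 0 := fun u =>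
    gsum_mul_gsum_zero _ _ _ _ _ _ _ _ fun _ _ _ _ => (ox_ne_ow _ _ _ _ _).symm
  have h2 : ∀ u, (∑ t, gsum (Finset.univ : Finset (Fin 3 → B)) (fun b => ox a b v)
        (fun b => oe t a b v) 1) *
      gsum (Finset.univ : Finset ((B × Bool) × (Fin 3 → B))) (fun i => ox i.1 i.2 v')
        (fun i => ow i.2 u) 1 = 0 := fun u => by
    rw [Finset.sum_mul]
    exact Finset.sum_eq_zero fun t _ =>
      gsum_mul_gsum_zero _ _ _ _ _ _ _ _ fun _ _ _ _ => (ox_ne_oe _ _ _ _ _ _ _).symm
  rw [Matrix.add_mul, Matrix.mul_sub, Matrix.mul_sub, h1, h1, h2, h2]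
  simp

theorem gsum_prod (u u' : Fin 3 → Bool) :
    gsum (Finset.univ : Finset ((B × Bool) × (Fin 3 → B))) (fun i => ox i.1 i.2 u)
        (fun i => ow i.2 u') 1 = ∑ a : B × Bool, ∑ b : Fin 3 → B,
          Matrix.single (ox a b u) (ow b u') (1 : ℂ) := by
  unfold gsum
  rw [Fintype.sum_prod_type]

theorem blk_eq : blk 4 (B × Bool) = ∑ a : B × Bool, ∑ v : Fin 3 → Bool, ∑ b : Fin 3 → B,
    (Matrix.single (ox a b v) (ow b v) 1 +
      ∑ t, Matrix.single (ox a b v) (oe t a b v) (1 : ℂ)) := by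
  unfold blk
  rw [← (Fin.consEquiv fun _ : Fin 4 => B × Bool).sum_comp, Fintype.sum_prod_type]
  refine Finset.sum_congr rfl fun a _ => ?_
  rw [← (Equiv.arrowProdEquivProdArrow (Fin 3) (fun _ => B) (fun _ => Bool)).symm.sum_comp,
    Fintype.sum_prod_type, Finset.sum_comm]
  refine Finset.sum_congr rfl fun v _ => Finset.sum_congr rfl fun b _ => ?_
  rw [Fin.sum_univ_succ]
  have e : (fun i => some ((Fin.consEquiv fun _ : Fin 4 => B × Bool)
      (a, (Equiv.arrowProdEquivProdArrow (Fin 3) (fun _ => B) (fun _ => Bool)).symm (b, v)) i)) =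
      ox a b v := by
    funext i
    refine Fin.cases ?_ (fun i => ?_) i
    · simp [ox]
    · simp [ox, Equiv.arrowProdEquivProdArrow]
  simp only [e]
  congr 1
  · congr 1
    unfold ox ow
    rw [Fin.update_cons_zero]
  · refine Finset.sum_congr rfl fun t _ => ?_
    congr 1
    unfold ox oe
    rw [Fin.cons_update]

theorem TW.block : TW (1 + blk 4 (B × Bool))
    (2 * Fintype.card B * (31 * Fintype.card B ^ 3 + 32 * Fintype.card B ^ 2) +
      20 * Fintype.card B ^ 3) := by
  have w2 := TW.one_add_sum (Finset.univ.erase (v0 2)) (fun v => Crest.Agent.R324.DD (B := B) v)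
    (fun _ => 2 * Fintype.card B * Fintype.card B ^ 3 + 2 * Fintype.card B ^ 3)
    (fun _ _ _ _ => DD_mul_DD _ _) (fun v hv => TW.DD v (Finset.mem_erase.1 hv).1)
  have w := (TW.walk_all (B := B)).mul w2
  have hz : (∑ a : B × Bool, ∑ v : Fin 3 → Bool, XX (d := 2) a v) *
      (∑ v ∈ Finset.univ.erase (v0 2), Crest.Agent.R324.DD (B := B) v) = 0 := by
    rw [Finset.sum_mul]
    refine Finset.sum_eq_zero fun a _ => ?_
    rw [Finset.sum_mul]
    refine Finset.sum_eq_zero fun v _ => ?_
    rw [Finset.mul_sum]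
    exact Finset.sum_eq_zero fun v' _ => XX_mul_DD _ _ _
  have e : (1 + ∑ a : B × Bool, ∑ v : Fin 3 → Bool, XX (d := 2) a v) *
      (1 + ∑ v ∈ Finset.univ.erase (v0 2), Crest.Agent.R324.DD (B := B) v) =
      1 + blk 4 (B × Bool) := by
    rw [Matrix.add_mul, Matrix.one_mul, Matrix.mul_add, Matrix.mul_one, hz, add_zero,
      add_assoc]
    congr 1
    rw [blk_eq]
    have h1 : (∑ v ∈ Finset.univ.erase (v0 2), Crest.Agent.R324.DD (B := B) v) =
        ∑ v : Fin 3 → Bool, Crest.Agent.R324.DD (B := B) v := by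
      rw [← Finset.add_sum_erase Finset.univ _ (Finset.mem_univ (v0 2))]
      have : Crest.Agent.R324.DD (B := B) (v0 2) = 0 := by
        unfold Crest.Agent.R324.DD
        rw [sub_self]
      rw [this, zero_add]
    rw [h1]
    have h2 : (∑ v : Fin 3 → Bool, Crest.Agent.R324.DD (B := B) v) =
        ∑ a : B × Bool, ∑ v : Fin 3 → Bool, ∑ b : Fin 3 → B,
          (Matrix.single (ox a b v) (ow b v) (1 : ℂ) -
            Matrix.single (ox a b v) (ow b (v0 2)) 1) := by
      rw [Finset.sum_comm]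
      refine Finset.sum_congr rfl fun v _ => ?_
      unfold Crest.Agent.R324.DD
      rw [gsum_prod, gsum_prod, ← Finset.sum_sub_distrib]
      refine Finset.sum_congr rfl fun a _ => ?_
      rw [← Finset.sum_sub_distrib]
    rw [h2, ← Finset.sum_add_distrib]
    refine Finset.sum_congr rfl fun a _ => ?_
    rw [← Finset.sum_add_distrib]
    refine Finset.sum_congr rfl fun v _ => ?_
    unfold XX SS aT gsum
    rw [Finset.sum_comm (s := Finset.univ) (t := Finset.univ), ← Finset.sum_add_distrib,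
      ← Finset.sum_add_distrib]
    refine Finset.sum_congr rfl fun b _ => ?_
    abel
  rw [e] at w
  refine w.mono (le_of_eq ?_)
  rw [Finset.sum_const, Finset.card_erase_of_mem (Finset.mem_univ _), Finset.card_univ,
    Fintype.card_fun, Fintype.card_bool, Fintype.card_fin, smul_eq_mul]
  ring

end Crest.Agent.R324
end

-- ▼ part R324/Fibre
section

/-!
Row 324: the fibre lemma (tensor power of `(A ⊗ 1_V) ⊕ 1_R`).
-/

set_option autoImplicit false
set_option linter.unusedSectionVars false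

namespace Crest.Agent.R324

open Matrix
open scoped Kronecker

variable {κ V p q : Type*} [Fintype κ] [DecidableEq κ] [Fintype V] [DecidableEq V]
  [Fintype p] [DecidableEq p] [Fintype q] [DecidableEq q]

/-- Tensor power of a matrix that acts as `A` on each of the families of symbols
`f (v, ·)` and trivially elsewhere. -/
theorem Cost.tpow_fibre {A : Matrix p p ℂ} {M : Matrix q q ℂ} (f : V × p → q)
    (hf : Function.Injective f)
    (hM1 : ∀ v i b, M (f (v, i)) b = ∑ i', A i i' * (if f (v, i') = b then 1 else 0))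
    (hM2 : ∀ a b, a ∉ Set.range f → M a b = if a = b then 1 else 0)
    (t : ℕ → ℕ) (ht : ∀ j ≤ Fintype.card κ, Cost (tpow (Fin j) A) (t j)) :
    Cost (tpow κ M) (∑ j ∈ Finset.range (Fintype.card κ + 1),
      (Fintype.card κ).choose j * (Fintype.card V ^ j *
        (Fintype.card q - Fintype.card V * Fintype.card p) ^ (Fintype.card κ - j)) *
        t j) := by
  classical
  let β := Σ J : Finset κ, ({i : κ // i ∈ J} → V) × ({i : κ // i ∉ J} → {s : q // s ∉ Set.range f})
  let Jx : (κ → q) → Finset κ := fun x => Finset.univ.filter fun i => x i ∈ Set.range f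
  have hJ : ∀ x i, i ∈ Jx x ↔ x i ∈ Set.range f := fun x i => by simp [Jx]
  let g : ∀ b : β, ({i : κ // i ∈ b.1} → p) → (κ → q) := fun b w i =>
    if h : i ∈ b.1 then f (b.2.1 ⟨i, h⟩, w ⟨i, h⟩) else (b.2.2 ⟨i, h⟩).1
  let row : (κ → q) → Σ b : β, ({i : κ // i ∈ b.1} → p) := fun x =>
    ⟨⟨Jx x, (fun i => (((hJ x i.1).1 i.2).choose).1,
      fun i => ⟨x i.1, fun h => i.2 ((hJ x i.1).2 h)⟩)⟩,
      fun i => (((hJ x i.1).1 i.2).choose).2⟩
  have h1 := Cost.blocks (κ := κ → q) (ι := κ → q) (β := β)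
    (κb := fun b => ({i : κ // i ∈ b.1} → p)) (ιb := fun b => ({i : κ // i ∈ b.1} → p))
    (fun b => tpow {i : κ // i ∈ b.1} A) (fun b => t b.1.card) (by
      intro b
      have hb : Fintype.card {i : κ // i ∈ b.1} = b.1.card := by simp
      exact (ht b.1.card (Finset.card_le_univ _)).tpow_congr
        (Fintype.equivFinOfCardEq hb)) g (A := tpow κ M) row (by
      intro x y
      have hw : ∀ i : {i : κ // i ∈ Jx x}, f ((row x).1.2.1 i, (row x).2 i) = x i.1 := fun i =>
        ((hJ x i.1).1 i.2).choose_spec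
      have e1 : ∏ i : {i : κ // i ∈ Jx x}, M (x i.1) (y i.1) =
          ∑ w' : {i : κ // i ∈ Jx x} → p, ∏ i : {i : κ // i ∈ Jx x},
            (A ((row x).2 i) (w' i) *
              (if f ((row x).1.2.1 i, w' i) = y i.1 then 1 else 0)) := by
        have : ∏ i : {i : κ // i ∈ Jx x}, M (x i.1) (y i.1) =
            ∏ i : {i : κ // i ∈ Jx x}, ∑ i' : p,
              A ((row x).2 i) i' * (if f ((row x).1.2.1 i, i') = y i.1 then 1 else 0) := by
          refine Finset.prod_congr rfl fun i _ => ?_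
          rw [← hM1, hw i]
        rw [this, Finset.prod_univ_sum, Fintype.piFinset_univ]
      have e2 : ∏ i ∈ (Jx x)ᶜ, M (x i) (y i) =
          if (∀ i ∈ (Jx x)ᶜ, x i = y i) then 1 else 0 := by
        have h3 : ∏ i ∈ (Jx x)ᶜ, M (x i) (y i) =
            ∏ i ∈ (Jx x)ᶜ, (if x i = y i then (1 : ℂ) else 0) := by
          refine Finset.prod_congr rfl fun i hi => ?_
          exact hM2 _ _ fun h => (Finset.mem_compl.1 hi) ((hJ x i).2 h)
        rw [h3, Finset.prod_boole]
        congr
      have e3 : tpow κ M x y = (∏ i : {i : κ // i ∈ Jx x}, M (x i.1) (y i.1)) *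
          ∏ i ∈ (Jx x)ᶜ, M (x i) (y i) := by
        rw [tpow_apply, ← Finset.prod_mul_prod_compl (Jx x),
          ← Finset.prod_coe_sort (Jx x) (fun i => M (x i) (y i))]
      rw [e3, e1, e2, Finset.sum_mul]
      refine Finset.sum_congr rfl fun w' _ => ?_
      rw [Finset.prod_mul_distrib, Finset.prod_boole, tpow_apply, mul_assoc]
      congr 1
      have key : ((∀ i ∈ (Finset.univ : Finset {i : κ // i ∈ Jx x}),
          f ((row x).1.2.1 i, w' i) = y i.1) ∧
          (∀ i ∈ (Jx x)ᶜ, x i = y i)) ↔ g (row x).1 w' = y := by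
        rw [funext_iff]
        constructor
        · rintro ⟨h3, h4⟩ i
          by_cases hi : i ∈ Jx x
          · have := h3 ⟨i, hi⟩ (Finset.mem_univ _)
            simp only [g, row]
            rw [dif_pos hi]
            exact this
          · simp only [g, row]
            rw [dif_neg hi]
            exact h4 i (Finset.mem_compl.2 hi)
        · intro h3
          constructor
          · intro i _
            have := h3 i.1
            simp only [g, row] at this
            rw [dif_pos i.2] at this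
            exact this
          · intro i hi
            have := h3 i
            simp only [g, row] at this
            rw [dif_neg (Finset.mem_compl.1 hi)] at this
            exact this
      by_cases hP : ∀ i ∈ (Finset.univ : Finset {i : κ // i ∈ Jx x}),
          f ((row x).1.2.1 i, w' i) = y i.1
      · by_cases hQ : ∀ i ∈ (Jx x)ᶜ, x i = y i
        · rw [if_pos hP, if_pos hQ, if_pos (key.1 ⟨hP, hQ⟩), one_mul]
        · rw [if_pos hP, if_neg hQ, if_neg fun h => hQ (key.2 h).2, mul_zero]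
      · rw [if_neg hP, if_neg fun h => hP (key.2 h).1, zero_mul])
  refine h1.mono (le_of_eq ?_)
  rw [Fintype.sum_sigma]
  have hs : ∀ J : Finset κ, (∑ _y : ({i : κ // i ∈ J} → V) ×
      ({i : κ // i ∉ J} → {s : q // s ∉ Set.range f}), t J.card) =
      (Fintype.card V ^ J.card *
        (Fintype.card q - Fintype.card V * Fintype.card p) ^ (Fintype.card κ - J.card)) *
        t J.card := by
    intro J
    rw [Finset.sum_const, smul_eq_mul, Finset.card_univ, Fintype.card_prod, Fintype.card_fun,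
      Fintype.card_fun]
    congr 2
    · rw [Fintype.card_coe]
    · congr 1
      · rw [Fintype.card_subtype_compl, Set.card_range_of_injective hf, Fintype.card_prod]
      · rw [Fintype.card_subtype_compl, Fintype.card_coe]
  simp only [hs]
  rw [← Finset.powerset_univ, Finset.sum_powerset_apply_card
    (fun j => (Fintype.card V ^ j *
      (Fintype.card q - Fintype.card V * Fintype.card p) ^ (Fintype.card κ - j)) * t j)]
  simp only [smul_eq_mul, Finset.card_univ, mul_assoc]

end Crest.Agent.R324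
end

-- ▼ part R324/Double
section

/-!
Row 324: the doubling recursion for stars (helper42's lemma).
-/

set_option autoImplicit false
set_option linter.unusedSectionVars false

namespace Crest.Agent.R324

open Matrix
open scoped Kronecker

variable {κ V p q ι ι' : Type*} [Fintype κ] [DecidableEq κ] [Fintype V] [DecidableEq V]
  [Fintype p] [DecidableEq p] [Fintype q] [DecidableEq q] [Fintype ι] [DecidableEq ι]
  [Fintype ι'] [DecidableEq ι']

/-- the star `x_j += x_0` on the wires `0, 1, …, a` -/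
def star (a : ℕ) : Matrix (Fin (a + 1)) (Fin (a + 1)) ℂ :=
  Matrix.of fun i j => if i = j ∨ j = 0 then 1 else 0

/-- the star on `Option ι`, the centre is `none` -/
def starO (ι : Type*) [DecidableEq ι] : Matrix (Option ι) (Option ι) ℂ :=
  Matrix.of fun i j => if i = j ∨ j = none then 1 else 0

theorem mc_submatrix_le (M : Matrix q q ℂ) (e : p ≃ q) (K : ℕ) :
    mc (M.submatrix e e) K ≤ mc M K :=
  mc_le ((cost_mc M K).tpow_submatrix e)

theorem mc_submatrix (M : Matrix q q ℂ) (e : p ≃ q) (K : ℕ) :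
    mc (M.submatrix e e) K = mc M K := by
  apply le_antisymm (mc_submatrix_le M e K)
  have h := mc_submatrix_le (M.submatrix e e) e.symm K
  rw [Matrix.submatrix_submatrix] at h
  simpa using h

theorem starO_submatrix (e : ι ≃ ι') :
    (starO ι').submatrix (Equiv.optionCongr e) (Equiv.optionCongr e) = starO ι := by
  ext i j
  cases i <;> cases j <;> simp [starO]

theorem mc_starO_congr (h : Fintype.card ι = Fintype.card ι') (K : ℕ) :
    mc (starO ι) K = mc (starO ι') K := by
  have e : ι ≃ ι' := Fintype.equivOfCardEq h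
  rw [← starO_submatrix e, mc_submatrix]

theorem star_eq (a : ℕ) :
    star a = (starO (Fin a)).submatrix (finSuccEquiv a) (finSuccEquiv a) := by
  ext i j
  refine Fin.cases ?_ (fun i => ?_) i <;> refine Fin.cases ?_ (fun j => ?_) j <;>
    simp [star, starO, (Fin.succ_ne_zero _).symm]

theorem star_one : star 1 = L := by
  ext i j
  fin_cases i <;> fin_cases j <;> simp [star, L]

theorem mc_star (a K : ℕ) : mc (star a) K = mc (starO (Fin a)) K := by
  rw [star_eq, mc_submatrix]

theorem starO_none_sum (F : Option ι → ℂ) :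
    ∑ i, starO ι none i * F i = F none := by
  simp [starO, eq_comm]

theorem starO_some_sum (k : ι) (F : Option ι → ℂ) :
    ∑ i, starO ι (some k) i * F i = F (some k) + F none := by
  rw [Fintype.sum_option]
  simp [starO, add_comm]

/-! ### the factorisation of `S ⊗ S` -/

/-- the arms of the star -/
def armO (ι : Type*) [DecidableEq ι] : Matrix (Option ι) (Option ι) ℂ :=
  Matrix.of fun i j => if i ≠ none ∧ j = none then 1 else 0

/-- projection on the leaves -/
def projO (ι : Type*) [DecidableEq ι] : Matrix (Option ι) (Option ι) ℂ :=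
  Matrix.diagonal fun i => if i = none then 0 else 1

theorem starO_eq : starO ι = 1 + armO ι := by
  ext i j
  cases i <;> cases j <;> simp [starO, armO, Matrix.one_apply]

theorem proj_mul_arm : projO ι * armO ι = armO ι := by
  ext i j
  cases i <;> cases j <;> simp [projO, armO]

theorem arm_mul_proj : armO ι * projO ι = 0 := by
  ext i j
  cases i <;> cases j <;> simp [projO, armO]

theorem arm_mul_arm : armO ι * armO ι = 0 := by
  ext i j
  simp only [Matrix.mul_apply, armO, Matrix.of_apply, Matrix.zero_apply]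
  refine Finset.sum_eq_zero fun k _ => ?_
  cases k <;> simp


def step1 (ι : Type*) [Fintype ι] [DecidableEq ι] :
    Matrix (Option ι × Option ι) (Option ι × Option ι) ℂ := 1 + armO ι ⊗ₖ projO ι

def step2 (ι : Type*) [Fintype ι] [DecidableEq ι] :
    Matrix (Option ι × Option ι) (Option ι × Option ι) ℂ :=
  1 + (armO ι ⊗ₖ (1 - projO ι) + (1 - projO ι) ⊗ₖ armO ι)

def step3 (ι : Type*) [Fintype ι] [DecidableEq ι] :
    Matrix (Option ι × Option ι) (Option ι × Option ι) ℂ := 1 + projO ι ⊗ₖ armO ι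

theorem starO_kronecker : starO ι ⊗ₖ starO ι = step3 ι * (step2 ι * step1 ι) := by
  have e1 : starO ι ⊗ₖ starO ι = 1 + armO ι ⊗ₖ 1 + 1 ⊗ₖ armO ι + armO ι ⊗ₖ armO ι := by
    rw [starO_eq, Matrix.add_kronecker, Matrix.kronecker_add, Matrix.kronecker_add,
      Matrix.one_kronecker_one]
    abel
  have e2 : step2 ι * step1 ι = 1 + armO ι ⊗ₖ 1 + (1 - projO ι) ⊗ₖ armO ι := by
    unfold step1 step2
    have h1 : (armO ι ⊗ₖ (1 - projO ι)) * (armO ι ⊗ₖ projO ι) = 0 := by
      rw [← Matrix.mul_kronecker_mul, arm_mul_arm, Matrix.zero_kronecker]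
    have h2 : ((1 - projO ι) ⊗ₖ armO ι) * (armO ι ⊗ₖ projO ι) = 0 := by
      rw [← Matrix.mul_kronecker_mul, arm_mul_proj, Matrix.kronecker_zero]
    have h3 : armO ι ⊗ₖ (1 : Matrix (Option ι) (Option ι) ℂ) =
        armO ι ⊗ₖ (1 - projO ι) + armO ι ⊗ₖ projO ι := by
      rw [← Matrix.kronecker_add, sub_add_cancel]
    rw [Matrix.add_mul, Matrix.one_mul, Matrix.mul_add, Matrix.mul_one, Matrix.add_mul, h1, h2,
      h3]
    abel
  rw [e1, e2]
  unfold step3
  have h4 : (projO ι ⊗ₖ armO ι) * (armO ι ⊗ₖ (1 : Matrix (Option ι) (Option ι) ℂ)) =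
      armO ι ⊗ₖ armO ι := by
    rw [← Matrix.mul_kronecker_mul, proj_mul_arm, Matrix.mul_one]
  have h5 : (projO ι ⊗ₖ armO ι) * ((1 - projO ι) ⊗ₖ armO ι) = 0 := by
    rw [← Matrix.mul_kronecker_mul, arm_mul_arm, Matrix.kronecker_zero]
  have h6 : (1 : Matrix (Option ι) (Option ι) ℂ) ⊗ₖ armO ι =
        (1 - projO ι) ⊗ₖ armO ι + projO ι ⊗ₖ armO ι := by
    rw [← Matrix.add_kronecker, sub_add_cancel]
  rw [Matrix.add_mul, Matrix.one_mul, Matrix.mul_add, Matrix.mul_add, Matrix.mul_one, h4, h5, h6]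
  abel

theorem ite_and' (P Q : Prop) [Decidable P] [Decidable Q] :
    (if P ∧ Q then (1 : ℂ) else 0) = if Q then (if P then 1 else 0) else 0 := by
  by_cases hP : P <;> by_cases hQ : Q <;> simp [hP, hQ]

/-- cost of the fibre construction -/
noncomputable def FT (T : ℕ → ℕ) (K c r : ℕ) : ℕ :=
  ∑ j ∈ Finset.range (K + 1), K.choose j * (c ^ j * r ^ (K - j)) * T j

theorem mc_step1_le (K : ℕ) :
    mc (step1 ι) K ≤ FT (mc (starO ι)) K (Fintype.card ι) (Fintype.card ι + 1) := by
  refine mc_le ?_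
  have h := Cost.tpow_fibre (κ := Fin K) (V := ι) (A := starO ι) (M := step1 ι)
    (fun x => (x.2, some x.1)) (by
      rintro ⟨a, b⟩ ⟨c, d⟩ h
      simpa [and_comm] using h)
    (by
      rintro v i ⟨b1, b2⟩
      have h1 : ∀ i', (if ((i', some v) : Option ι × Option ι) = (b1, b2) then (1 : ℂ) else 0) =
          if i' = b1 then (if some v = b2 then 1 else 0) else 0 := by
        intro i'
        by_cases h1 : i' = b1 <;> by_cases h2 : some v = b2 <;> simp [h1, h2]
      simp only [h1, mul_ite, mul_zero, mul_one, Finset.sum_ite_eq', Finset.mem_univ, if_true]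
      simp only [step1, Matrix.add_apply, Matrix.one_apply, Matrix.kroneckerMap_apply, starO,
        armO, projO, Matrix.of_apply, Matrix.diagonal_apply]
      cases b2 <;> cases i <;> cases b1 <;> simp [Prod.mk.injEq]
      rw [ite_and']
      )
    (by
      rintro ⟨a1, a2⟩ ⟨b1, b2⟩ h
      have ha : a2 = none := by
        cases a2 with
        | none => rfl
        | some v => exact absurd ⟨(v, a1), rfl⟩ h
      subst ha
      simp only [step1, Matrix.add_apply, Matrix.one_apply, Matrix.kroneckerMap_apply,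
        armO, projO, Matrix.of_apply, Matrix.diagonal_apply]
      simp)
    (mc (starO ι)) (fun j _ => cost_mc _ j)
  have e : Fintype.card (Option ι × Option ι) - Fintype.card ι * Fintype.card (Option ι) =
      Fintype.card ι + 1 := by
    rw [Fintype.card_prod, Fintype.card_option]
    have : (Fintype.card ι + 1) * (Fintype.card ι + 1) =
      Fintype.card ι * (Fintype.card ι + 1) + (Fintype.card ι + 1) := by ring
    omega
  rw [e] at h
  simpa [FT] using h

theorem mc_step3_le (K : ℕ) :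
    mc (step3 ι) K ≤ FT (mc (starO ι)) K (Fintype.card ι) (Fintype.card ι + 1) := by
  have h0 : step3 ι = (step1 ι).submatrix (Equiv.prodComm _ _) (Equiv.prodComm _ _) := by
    ext ⟨a1, a2⟩ ⟨b1, b2⟩
    simp only [step3, step1, Matrix.submatrix_apply, Matrix.add_apply, Matrix.one_apply,
      Matrix.kroneckerMap_apply, Equiv.prodComm_apply, Prod.swap_prod_mk, Prod.mk.injEq]
    rw [mul_comm]
    simp only [and_comm]
  rw [h0, mc_submatrix]
  exact mc_step1_le K

theorem mc_step2_le (K : ℕ) :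
    mc (step2 ι) K ≤ FT (mc (starO (ι ⊕ ι))) K 1 (Fintype.card ι * Fintype.card ι) := by
  refine mc_le ?_
  have h := Cost.tpow_fibre (κ := Fin K) (V := Unit) (A := starO (ι ⊕ ι)) (M := step2 ι)
    (fun x => match x.2 with
      | none => (none, none)
      | some (Sum.inl j) => (some j, none)
      | some (Sum.inr j) => (none, some j)) (by
      rintro ⟨⟨⟩, a⟩ ⟨⟨⟩, b⟩ h
      rcases a with _ | a | a <;> rcases b with _ | b | b <;> simp_all)
    (by
      rintro ⟨⟩ i ⟨b1, b2⟩
      rcases i with _ | i | i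
      · rw [starO_none_sum]
        simp only [step2, Matrix.add_apply, Matrix.one_apply, Matrix.kroneckerMap_apply,
          Matrix.sub_apply, armO, projO, Matrix.of_apply, Matrix.diagonal_apply]
        simp
      · rw [starO_some_sum]
        simp only [step2, Matrix.add_apply, Matrix.one_apply, Matrix.kroneckerMap_apply,
          Matrix.sub_apply, armO, projO, Matrix.of_apply, Matrix.diagonal_apply]
        cases b1 <;> cases b2 <;> simp
      · rw [starO_some_sum]
        simp only [step2, Matrix.add_apply, Matrix.one_apply, Matrix.kroneckerMap_apply,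
          Matrix.sub_apply, armO, projO, Matrix.of_apply, Matrix.diagonal_apply]
        cases b1 <;> cases b2 <;> simp)
    (by
      rintro ⟨a1, a2⟩ ⟨b1, b2⟩ h
      cases a1 with
      | none =>
        cases a2 with
        | none => exact absurd ⟨((), none), rfl⟩ h
        | some v => exact absurd ⟨((), some (Sum.inr v)), rfl⟩ h
      | some u =>
        cases a2 with
        | none => exact absurd ⟨((), some (Sum.inl u)), rfl⟩ h
        | some v =>
          simp only [step2, Matrix.add_apply, Matrix.one_apply, Matrix.kroneckerMap_apply,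
            Matrix.sub_apply, armO, projO, Matrix.of_apply, Matrix.diagonal_apply]
          cases b1 <;> cases b2 <;> simp)
    (mc (starO (ι ⊕ ι))) (fun j _ => cost_mc _ j)
  have e : Fintype.card (Option ι × Option ι) - Fintype.card Unit * Fintype.card (Option (ι ⊕ ι)) =
      Fintype.card ι * Fintype.card ι := by
    rw [Fintype.card_prod, Fintype.card_option, Fintype.card_option, Fintype.card_sum,
      Fintype.card_unit]
    have : (Fintype.card ι + 1) * (Fintype.card ι + 1) =
      Fintype.card ι * Fintype.card ι + (Fintype.card ι + Fintype.card ι + 1) := by ring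
    omega
  rw [e] at h
  simpa [FT] using h

/-- the doubling recursion -/
theorem mc_starO_two_mul_le (K : ℕ) :
    mc (starO ι) (2 * K) ≤
      2 * FT (mc (starO ι)) K (Fintype.card ι) (Fintype.card ι + 1) +
        FT (mc (starO (ι ⊕ ι))) K 1 (Fintype.card ι * Fintype.card ι) := by
  rw [mc_tpow_eq]
  have h0 : tpow (Fin 2) (starO ι) =
      (starO ι ⊗ₖ starO ι).submatrix (finTwoArrowEquiv _) (finTwoArrowEquiv _) := by
    ext x y
    simp [Fin.prod_univ_two, finTwoArrowEquiv]
  rw [h0, mc_submatrix, starO_kronecker]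
  have h1 := mc_mul_le (step3 ι) (step2 ι * step1 ι) K
  have h2 := mc_mul_le (step2 ι) (step1 ι) K
  have h3 := mc_step1_le (ι := ι) K
  have h4 := mc_step2_le (ι := ι) K
  have h5 := mc_step3_le (ι := ι) K
  omega

/-- the doubling recursion, in terms of `star a` -/
theorem mc_star_two_mul_le (a K : ℕ) :
    mc (star a) (2 * K) ≤
      2 * FT (mc (star a)) K a (a + 1) + FT (mc (star (2 * a))) K 1 (a * a) := by
  have h := mc_starO_two_mul_le (ι := Fin a) K
  have e1 : mc (starO (Fin a)) = mc (star a) := by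
    funext j; exact (mc_star a j).symm
  have e2 : mc (starO (Fin a ⊕ Fin a)) = mc (star (2 * a)) := by
    funext j
    rw [mc_star]
    exact mc_starO_congr (by simp [two_mul]) j
  rwa [e1, e2, Fintype.card_fin] at h

/-! ### Real estimates -/

theorem mc_zero (A : Matrix q q ℂ) : mc A 0 = 0 := by
  refine Nat.le_zero.1 (mc_le ?_)
  have : tpow (Fin 0) A = 1 := by
    ext x y
    rw [Subsingleton.elim x y]
    simp
  rw [this]
  exact Cost.one

/-- the normalised cost -/
noncomputable def nc (A : Matrix q q ℂ) (K : ℕ) : ℝ := mc A K / (Fintype.card q : ℝ) ^ K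

theorem nc_nonneg (A : Matrix q q ℂ) (K : ℕ) : 0 ≤ nc A K := by unfold nc; positivity

theorem nc_zero (A : Matrix q q ℂ) : nc A 0 = 0 := by simp [nc, mc_zero]

theorem nc_add_le [Nonempty q] (A : Matrix q q ℂ) (a b : ℕ) :
    nc A (a + b) ≤ nc A a + nc A b := by
  unfold nc
  have hq : (0 : ℝ) < Fintype.card q := by exact_mod_cast Fintype.card_pos
  have h := mc_add_le A a b
  have h' : (mc A (a + b) : ℝ) ≤ (Fintype.card q : ℝ) ^ b * mc A a +
      (Fintype.card q : ℝ) ^ a * mc A b := by exact_mod_cast h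
  rw [div_le_iff₀ (by positivity)]
  calc (mc A (a + b) : ℝ) ≤ _ := h'
    _ = (mc A a / (Fintype.card q : ℝ) ^ a + mc A b / (Fintype.card q : ℝ) ^ b) *
        (Fintype.card q : ℝ) ^ (a + b) := by
      rw [pow_add]; field_simp

theorem nc_le_mul [Nonempty q] (A : Matrix q q ℂ) (K : ℕ) : nc A K ≤ K * nc A 1 := by
  induction K with
  | zero => simp [nc_zero]
  | succ K ih =>
    refine (nc_add_le A K 1).trans ?_
    push_cast
    nlinarith [ih]

/-- the Jensen estimate for the fibre construction -/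
theorem FT_le {A θ : ℝ} (h0 : 0 < θ) (h1 : θ ≤ 1) (hA : 0 ≤ A) {K c r p Q : ℕ}
    (hQ : c * p + r = Q) (hQ0 : 0 < Q) {T : ℕ → ℕ}
    (h : ∀ j ≤ K, (T j : ℝ) ≤ A * (j : ℝ) ^ θ * (p : ℝ) ^ j) :
    (FT T K c r : ℝ) ≤ (Q : ℝ) ^ K * (A * (K * ((c : ℝ) * p / Q)) ^ θ) := by
  have hQ0 : (0 : ℝ) < Q := by exact_mod_cast hQ0
  have hQr : (c : ℝ) * p + r = Q := by exact_mod_cast hQ
  have hx0 : (0 : ℝ) ≤ (c : ℝ) * p / Q := by positivity
  have hr0 : (0 : ℝ) ≤ r := by positivity
  have hx1 : (c : ℝ) * p / Q ≤ 1 := by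
    rw [div_le_one hQ0]; linarith
  have hJ := binomial_jensen h0.le h1 hx0 hx1 K
  calc (FT T K c r : ℝ) = ∑ j ∈ Finset.range (K + 1),
        (K.choose j : ℝ) * ((c : ℝ) ^ j * (r : ℝ) ^ (K - j)) * T j := by
        unfold FT
        push_cast
        rfl
    _ ≤ ∑ j ∈ Finset.range (K + 1), (Q : ℝ) ^ K * (A *
        (((K.choose j : ℝ) * ((c : ℝ) * p / Q) ^ j * (1 - (c : ℝ) * p / Q) ^ (K - j)) *
          (j : ℝ) ^ θ)) := by
        refine Finset.sum_le_sum fun j hj => ?_
        have hjK : j ≤ K := Nat.lt_succ_iff.1 (Finset.mem_range.1 hj)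
        have ht := h j hjK
        have e1 : (Q : ℝ) ^ K = Q ^ j * Q ^ (K - j) := by
          rw [← pow_add]; congr 1; omega
        have e2 : (1 - (c : ℝ) * p / Q) = r / Q := by
          field_simp; linarith
        rw [e1, e2, div_pow, div_pow, mul_pow]
        calc (K.choose j : ℝ) * ((c : ℝ) ^ j * (r : ℝ) ^ (K - j)) * T j
            ≤ (K.choose j : ℝ) * ((c : ℝ) ^ j * (r : ℝ) ^ (K - j)) *
              (A * (j : ℝ) ^ θ * (p : ℝ) ^ j) := by gcongr
          _ = _ := by field_simp
    _ = (Q : ℝ) ^ K * (A * ∑ j ∈ Finset.range (K + 1),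
        (((K.choose j : ℝ) * ((c : ℝ) * p / Q) ^ j * (1 - (c : ℝ) * p / Q) ^ (K - j)) *
          (j : ℝ) ^ θ)) := by
        rw [Finset.mul_sum, Finset.mul_sum]
    _ ≤ (Q : ℝ) ^ K * (A * (K * ((c : ℝ) * p / Q)) ^ θ) := by gcongr

/-- the doubling step, real form -/
theorem nc_star_two_mul_le {θ : ℝ} (h0 : 0 < θ) (h1 : θ ≤ 1) {A B : ℝ} (hA : 0 ≤ A)
    (hB : 0 ≤ B) (a K : ℕ) (h : ∀ j ≤ K, nc (star a) j ≤ A * (j : ℝ) ^ θ)
    (h' : ∀ j ≤ K, nc (star (2 * a)) j ≤ B * (j : ℝ) ^ θ) :
    nc (star a) (2 * K) ≤ (2 * A * ((a : ℝ) / (a + 1)) ^ θ +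
      B * ((2 * (a : ℝ) + 1) / ((a : ℝ) + 1) ^ 2) ^ θ) * (K : ℝ) ^ θ := by
  have hc : ∀ a : ℕ, (Fintype.card (Fin (a + 1)) : ℝ) = (a : ℝ) + 1 := fun a => by simp
  have e1 := FT_le h0 h1 hA (K := K) (c := a) (r := a + 1) (p := a + 1) (Q := (a + 1) ^ 2)
    (by ring) (by positivity) (T := mc (star a)) (by
      intro j hj
      have := h j hj
      unfold nc at this
      rw [div_le_iff₀ (by rw [hc]; positivity), hc] at this
      push_cast
      exact this)
  have e2 := FT_le h0 h1 hB (K := K) (c := 1) (r := a * a) (p := 2 * a + 1) (Q := (a + 1) ^ 2)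
    (by ring) (by positivity) (T := mc (star (2 * a))) (by
      intro j hj
      have := h' j hj
      unfold nc at this
      rw [div_le_iff₀ (by rw [hc]; positivity), hc] at this
      push_cast at this ⊢
      exact this)
  have e3 : (mc (star a) (2 * K) : ℝ) ≤
      2 * (FT (mc (star a)) K a (a + 1) : ℝ) + (FT (mc (star (2 * a))) K 1 (a * a) : ℝ) := by
    exact_mod_cast mc_star_two_mul_le a K
  have hK : (0 : ℝ) ≤ K := by positivity
  have e4 : (a : ℝ) * ((a + 1 : ℕ) : ℝ) / (((a + 1) ^ 2 : ℕ) : ℝ) = (a : ℝ) / (a + 1) := by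
    push_cast; field_simp
  have e5 : ((1 : ℕ) : ℝ) * ((2 * a + 1 : ℕ) : ℝ) / (((a + 1) ^ 2 : ℕ) : ℝ) =
      (2 * (a : ℝ) + 1) / ((a : ℝ) + 1) ^ 2 := by
    push_cast; rw [one_mul]
  rw [e4, Real.mul_rpow hK (by positivity)] at e1
  rw [e5, Real.mul_rpow hK (by positivity)] at e2
  unfold nc
  rw [div_le_iff₀ (by rw [hc]; positivity), hc]
  push_cast at e1 e2
  rw [pow_mul]
  calc (mc (star a) (2 * K) : ℝ) ≤ _ := e3
    _ ≤ 2 * ((((a : ℝ) + 1) ^ 2) ^ K * (A * ((K : ℝ) ^ θ * ((a : ℝ) / (a + 1)) ^ θ))) +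
        (((a : ℝ) + 1) ^ 2) ^ K * (B * ((K : ℝ) ^ θ *
          ((2 * (a : ℝ) + 1) / ((a : ℝ) + 1) ^ 2) ^ θ)) := by gcongr
    _ = _ := by ring

end Crest.Agent.R324
end

-- ▼ part R324/Gadget4
section

/-!
Row 324: the fourth tensor power of a star is `Post * Block * Pre`.
-/

set_option autoImplicit false
set_option linter.unusedSectionVars false

namespace Crest.Agent.R324

open Matrix

section ptp

variable {L : ℕ} {q : Type*} [Fintype q] [DecidableEq q]

/-- tensor product of matrices -/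
def ptp (M : Fin L → Matrix q q ℂ) : Matrix (Fin L → q) (Fin L → q) ℂ :=
  Matrix.of fun x y => ∏ i, M i (x i) (y i)

theorem ptp_mul (M M' : Fin L → Matrix q q ℂ) : ptp M * ptp M' = ptp fun i => M i * M' i := by
  ext x y
  simp only [ptp, Matrix.mul_apply, Matrix.of_apply]
  rw [Finset.prod_univ_sum, Fintype.piFinset_univ]
  exact Finset.sum_congr rfl fun z _ => Finset.prod_mul_distrib.symm

end ptp

variable {N : Type*} [Fintype N] [DecidableEq N] {L : ℕ}

/-- number of gates in direction `s` into the wires `x` satisfying `P` -/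
def cnt (s : Fin L) (P : (Fin L → Option N) → Prop) [DecidablePred P] : ℕ :=
  (Finset.univ.filter fun x : Fin L → Option N => x s ≠ none ∧ P x).card

/-- gates in direction `s` into the wires `x` satisfying `P` -/
def gt (s : Fin L) (P : (Fin L → Option N) → Prop) [DecidablePred P] :
    Matrix (Fin L → Option N) (Fin L → Option N) ℂ :=
  gsum (Finset.univ.filter fun x : Fin L → Option N => x s ≠ none ∧ P x) id
    (fun x => Function.update x s none) 1

theorem gt_mul_gt (s s' : Fin L) (P P' : (Fin L → Option N) → Prop) [DecidablePred P]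
    [DecidablePred P'] (h : ∀ x x', x s ≠ none → P x → x' s' ≠ none → P' x' →
      Function.update x s none ≠ x') : gt s P * gt s' P' = 0 := by
  refine gsum_mul_gsum_zero _ _ _ _ _ _ _ _ fun x hx x' hx' => ?_
  rw [Finset.mem_filter] at hx hx'
  exact h x x' hx.2.1 hx.2.2 hx'.2.1 hx'.2.2

theorem gt_mul_gt_same (s : Fin L) (P P' : (Fin L → Option N) → Prop) [DecidablePred P]
    [DecidablePred P'] : gt s P * gt s P' = 0 :=
  gt_mul_gt s s P P' fun x x' _ _ h _ e => h (by rw [← e]; simp)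

theorem TW.gt (s : Fin L) (P : (Fin L → Option N) → Prop) [DecidablePred P] :
    TW (1 + Crest.Agent.R324.gt s P) (cnt s P) := by
  refine TW.gates _ _ _ _ fun x hx x' _ h => ?_
  rw [Finset.mem_filter] at hx
  refine hx.2.1 ?_
  have h' : x = Function.update x' s none := h
  rw [h']
  simp

theorem gt_add (s : Fin L) (P Q R : (Fin L → Option N) → Prop) [DecidablePred P]
    [DecidablePred Q] [DecidablePred R] (h : ∀ x, x s ≠ none → (P x ↔ (Q x ∨ R x)))
    (h' : ∀ x, ¬ (Q x ∧ R x)) :
    gt s P = gt s Q + gt s R := by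
  unfold gt gsum
  rw [← Finset.sum_union]
  · refine Finset.sum_congr ?_ fun _ _ => rfl
    ext x
    simp only [Finset.mem_filter, Finset.mem_univ, true_and, Finset.mem_union]
    by_cases hx : x s = none
    · simp [hx]
    · rw [h x hx]
      tauto
  · rw [Finset.disjoint_left]
    intro x hx hx'
    rw [Finset.mem_filter] at hx hx'
    exact h' x ⟨hx.2.2, hx'.2.2⟩

theorem gt_apply (s : Fin L) (P : (Fin L → Option N) → Prop) [DecidablePred P]
    (x y : Fin L → Option N) : gt s P x y =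
      if (x s ≠ none ∧ P x) ∧ Function.update x s none = y then 1 else 0 := by
  unfold gt gsum
  rw [Matrix.sum_apply]
  simp only [Matrix.single_apply, id]
  by_cases hx : x s ≠ none ∧ P x
  · rw [Finset.sum_eq_single_of_mem x (by simp [hx])]
    · simp [hx]
    · intro b _ hb
      rw [if_neg fun h => hb h.1]
  · rw [if_neg fun h => hx h.1]
    refine Finset.sum_eq_zero fun b hb => ?_
    rw [if_neg]
    rintro ⟨rfl, _⟩
    exact hx (Finset.mem_filter.1 hb).2

/-- one direction -/
theorem ptp_update (s : Fin L) :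
    ptp (fun i => if i = s then starO N else (1 : Matrix (Option N) (Option N) ℂ)) =
      1 + gt s fun _ => True := by
  ext x y
  rw [Matrix.add_apply, gt_apply, Matrix.one_apply]
  simp only [ptp, Matrix.of_apply]
  by_cases h : ∀ i, i ≠ s → x i = y i
  · have h1 : ∏ i, (if i = s then starO N else (1 : Matrix (Option N) (Option N) ℂ)) (x i) (y i) =
        starO N (x s) (y s) := by
      rw [Finset.prod_eq_single s]
      · rw [if_pos rfl]
      · intro i _ hi
        rw [if_neg hi, h i hi, Matrix.one_apply_eq]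
      · intro h
        exact absurd (Finset.mem_univ _) h
    rw [h1]
    have e1 : x = y ↔ x s = y s := by
      refine ⟨fun h => by rw [h], fun h' => ?_⟩
      funext i
      by_cases hi : i = s
      · rw [hi, h']
      · exact h i hi
    have e2 : Function.update x s none = y ↔ y s = none := by
      refine ⟨fun h => by rw [← h]; simp, fun h' => ?_⟩
      funext i
      by_cases hi : i = s
      · rw [hi, h']; simp
      · rw [Function.update_of_ne hi]
        exact h i hi
    simp only [e1, e2, and_true, starO, Matrix.of_apply]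
    by_cases h3 : x s = y s
    · by_cases h4 : y s = none
      · simp [h3, h4]
      · simp [h3, h4]
    · by_cases h4 : y s = none
      · have h5 : x s ≠ none := fun h5 => h3 (h5.trans h4.symm)
        simp [h4, h5]
      · simp [h3, h4]
  · have h' := h
    push Not at h
    obtain ⟨i, hi, hxy⟩ := h
    rw [Finset.prod_eq_zero (Finset.mem_univ i) (by
      rw [if_neg hi, Matrix.one_apply_ne hxy]), if_neg, if_neg, add_zero]
    · rintro ⟨_, h2⟩
      refine h' fun j hj => ?_
      rw [← h2, Function.update_of_ne hj]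
    · rintro rfl
      exact hxy rfl

/-- into outputs -/
def isB (_s : Fin L) (x : Fin L → Option N) : Prop := ∀ i, x i ≠ none
/-- first zero after `s` -/
def isP (s : Fin L) (x : Fin L → Option N) : Prop := (∃ i, x i = none) ∧ ∀ i, x i = none → s < i
/-- a zero before `s` -/
def isQ (s : Fin L) (x : Fin L → Option N) : Prop := ∃ i, x i = none ∧ i < s

instance (s : Fin L) : DecidablePred (isB (N := N) s) := fun x => by unfold isB; infer_instance
instance (s : Fin L) : DecidablePred (isP (N := N) s) := fun x => by unfold isP; infer_instance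
instance (s : Fin L) : DecidablePred (isQ (N := N) s) := fun x => by unfold isQ; infer_instance

theorem dir_eq (s : Fin L) : (1 + gt (N := N) s fun _ => True) =
    (1 + gt s (isQ s)) * (1 + gt s (isB s)) * (1 + gt s (isP s)) := by
  have h1 : gt (N := N) s (fun _ => True) =
      gt s (isQ s) + gt s (fun x => isB s x ∨ isP s x) := by
    refine gt_add s _ _ _ (fun x hx => ?_) fun x => ?_
    · simp only [true_iff, isQ, isB, isP]
      by_cases h : ∃ i, x i = none
      · by_cases h' : ∃ i, x i = none ∧ i < s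
        · exact Or.inl h'
        · refine Or.inr (Or.inr ⟨h, fun i hi => ?_⟩)
          push Not at h'
          refine lt_of_le_of_ne (h' i hi) ?_
          rintro rfl
          exact hx hi
      · push Not at h
        exact Or.inr (Or.inl h)
    · simp only [isQ, isB, isP]
      rintro ⟨⟨i, h1, h2⟩, h3 | h3⟩
      · exact h3 i h1
      · exact absurd h2 (not_lt.2 (h3.2 i h1).le)
  have h2 : gt (N := N) s (fun x => isB s x ∨ isP s x) = gt s (isB s) + gt s (isP s) := by
    refine gt_add s _ _ _ (fun x _ => Iff.rfl) fun x => ?_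
    simp only [isB, isP]
    rintro ⟨h1, ⟨i, hi⟩, _⟩
    exact h1 i hi
  rw [h1, h2]
  have z1 := gt_mul_gt_same (N := N) s (isQ s) (isB s)
  have z2 := gt_mul_gt_same (N := N) s (isQ s) (isP s)
  have z3 := gt_mul_gt_same (N := N) s (isB s) (isP s)
  generalize gt (N := N) s (isQ s) = Q at *
  generalize gt (N := N) s (isB s) = B at *
  generalize gt (N := N) s (isP s) = P at *
  have : (1 + Q) * (1 + B) * (1 + P) = 1 + (Q + (B + P)) + Q * B + Q * P + B * P + Q * B * P := by
    noncomm_ring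
  rw [this, z1, z2, z3]
  simp

theorem comm_of {A B : Matrix (Fin L → Option N) (Fin L → Option N) ℂ} (h : A * B = 0)
    (h' : B * A = 0) : Commute (1 + A) (1 + B) := by
  change (1 + A) * (1 + B) = (1 + B) * (1 + A)
  have e1 : (1 + A) * (1 + B) = 1 + A + B + A * B := by noncomm_ring
  have e2 : (1 + B) * (1 + A) = 1 + A + B + B * A := by noncomm_ring
  rw [e1, e2, h, h']

theorem comm_QB (s s' : Fin L) (h : s < s') :
    Commute (1 + gt (N := N) s' (isB s')) (1 + gt s (isQ s)) := by
  refine comm_of (gt_mul_gt _ _ _ _ fun x x' _ hx _ hx' e => ?_)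
    (gt_mul_gt _ _ _ _ fun x x' _ _ _ hx' e => ?_)
  · obtain ⟨i, hi, his⟩ := hx'
    have : i ≠ s' := (his.trans h).ne
    rw [← e, Function.update_of_ne this] at hi
    exact hx i hi
  · exact hx' s (by rw [← e]; simp)

theorem comm_QP (s s' : Fin L) (h : s < s') :
    Commute (1 + gt (N := N) s' (isP s')) (1 + gt s (isQ s)) := by
  refine comm_of (gt_mul_gt _ _ _ _ fun x x' _ hx _ hx' e => ?_)
    (gt_mul_gt _ _ _ _ fun x x' _ _ _ hx' e => ?_)
  · obtain ⟨i, hi, his⟩ := hx'
    have : i ≠ s' := (his.trans h).ne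
    rw [← e, Function.update_of_ne this] at hi
    exact absurd (hx.2 i hi) (not_lt.2 (his.trans h).le)
  · have := hx'.2 s (by rw [← e]; simp)
    exact absurd this (not_lt.2 h.le)

theorem comm_BP (s s' : Fin L) (h : s < s') :
    Commute (1 + gt (N := N) s' (isP s')) (1 + gt s (isB s)) := by
  refine comm_of (gt_mul_gt _ _ _ _ fun x x' _ hx _ hx' e => ?_)
    (gt_mul_gt _ _ _ _ fun x x' _ _ _ hx' e => ?_)
  · exact hx' s' (by rw [← e]; simp)
  · have := hx'.2 s (by rw [← e]; simp)
    exact absurd this (not_lt.2 h.le)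

theorem reorder {M : Type*} [Monoid M] (Q K P QQ KK PP : M) (h1 : Commute K QQ)
    (h2 : Commute P QQ) (h3 : Commute P KK) :
    (Q * K * P) * (QQ * KK * PP) = (Q * QQ) * (K * KK) * (P * PP) := by
  calc (Q * K * P) * (QQ * KK * PP) = Q * K * (P * QQ) * KK * PP := by simp only [mul_assoc]
    _ = Q * (K * QQ) * (P * KK) * PP := by rw [h2.eq]; simp only [mul_assoc]
    _ = (Q * QQ) * (K * KK) * (P * PP) := by rw [h1.eq, h3.eq]; simp only [mul_assoc]

theorem assemble {M : Type*} [Monoid M] (Q K P : Fin 4 → M)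
    (h1 : ∀ s s', s < s' → Commute (K s') (Q s)) (h2 : ∀ s s', s < s' → Commute (P s') (Q s))
    (h3 : ∀ s s', s < s' → Commute (P s') (K s)) :
    (Q 3 * K 3 * P 3) * ((Q 2 * K 2 * P 2) * ((Q 1 * K 1 * P 1) * (Q 0 * K 0 * P 0))) =
    (Q 3 * (Q 2 * (Q 1 * Q 0))) * (K 3 * (K 2 * (K 1 * K 0))) * (P 3 * (P 2 * (P 1 * P 0))) := by
  rw [reorder _ _ _ _ _ _ (h1 0 1 (by decide)) (h2 0 1 (by decide)) (h3 0 1 (by decide)),
    reorder _ _ _ _ _ _ ((h1 1 2 (by decide)).mul_right (h1 0 2 (by decide)))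
      ((h2 1 2 (by decide)).mul_right (h2 0 2 (by decide)))
      ((h3 1 2 (by decide)).mul_right (h3 0 2 (by decide))),
    reorder _ _ _ _ _ _
      ((h1 2 3 (by decide)).mul_right ((h1 1 3 (by decide)).mul_right (h1 0 3 (by decide))))
      ((h2 2 3 (by decide)).mul_right ((h2 1 3 (by decide)).mul_right (h2 0 3 (by decide))))
      ((h3 2 3 (by decide)).mul_right ((h3 1 3 (by decide)).mul_right (h3 0 3 (by decide))))]

theorem gtB_sum (s : Fin L) : gt (N := N) s (isB s) = ∑ α : Fin L → N,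
    Matrix.single (fun i => some (α i)) (Function.update (fun i => some (α i)) s none) (1 : ℂ) := by
  unfold gt gsum
  symm
  refine Finset.sum_bij (fun α _ => fun i => some (α i)) (fun α _ => ?_) (fun α _ β _ h => ?_)
    (fun x hx => ?_) (fun _ _ => rfl)
  · rw [Finset.mem_filter]
    exact ⟨Finset.mem_univ _, by simp, fun i => by simp⟩
  · funext i
    exact Option.some_injective _ (congrFun h i)
  · rw [Finset.mem_filter] at hx
    have : ∀ i, ∃ a, some a = x i := fun i => by
      obtain ⟨a, ha⟩ := Option.ne_none_iff_exists.1 (hx.2.2 i)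
      exact ⟨a, ha⟩
    choose α hα using this
    exact ⟨α, Finset.mem_univ _, funext hα⟩

theorem tpow_starO_four : ptp (fun _ : Fin 4 => starO N) =
    ((1 + gt (3 : Fin 4) (isQ 3)) * ((1 + gt 2 (isQ 2)) * ((1 + gt 1 (isQ 1)) *
      (1 + gt 0 (isQ 0))))) * (1 + blk 4 N) *
    ((1 + gt (3 : Fin 4) (isP 3)) * ((1 + gt 2 (isP 2)) * ((1 + gt 1 (isP 1)) *
      (1 + gt 0 (isP 0))))) := by
  have h0 : ptp (fun _ : Fin 4 => starO N) =
      ptp (fun i => if i = 3 then starO N else (1 : Matrix (Option N) (Option N) ℂ)) *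
      (ptp (fun i => if i = 2 then starO N else (1 : Matrix (Option N) (Option N) ℂ)) *
      (ptp (fun i => if i = 1 then starO N else (1 : Matrix (Option N) (Option N) ℂ)) *
      ptp (fun i => if i = 0 then starO N else (1 : Matrix (Option N) (Option N) ℂ)))) := by
    rw [ptp_mul, ptp_mul, ptp_mul]
    congr 1
    funext i
    fin_cases i <;> simp
  have hb : (1 + blk 4 N) = (1 + gt (3 : Fin 4) (isB 3)) * ((1 + gt 2 (isB 2)) *
      ((1 + gt 1 (isB 1)) * (1 + gt 0 (isB 0)))) := by
    have hz : ∀ s s' : Fin 4, gt (N := N) s (isB s) * gt s' (isB s') = 0 := fun s s' =>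
      gt_mul_gt _ _ _ _ fun x x' _ _ _ hx' e => hx' s (by rw [← e]; simp)
    have hs : blk 4 N = gt (0 : Fin 4) (isB 0) + gt 1 (isB 1) + gt 2 (isB 2) + gt 3 (isB 3) := by
      unfold blk
      rw [Finset.sum_comm, Fin.sum_univ_four]
      simp only [gtB_sum]
    rw [hs]
    have z1 := hz 3 2
    have z2 := hz 3 1
    have z3 := hz 3 0
    have z4 := hz 2 1
    have z5 := hz 2 0
    have z6 := hz 1 0
    generalize gt (N := N) (3 : Fin 4) (isB 3) = A3 at *
    generalize gt (N := N) (2 : Fin 4) (isB 2) = A2 at *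
    generalize gt (N := N) (1 : Fin 4) (isB 1) = A1 at *
    generalize gt (N := N) (0 : Fin 4) (isB 0) = A0 at *
    have : (1 + A3) * ((1 + A2) * ((1 + A1) * (1 + A0))) =
        1 + (A0 + A1 + A2 + A3) + A3 * A2 + A3 * A1 + A3 * A0 + A2 * A1 + A2 * A0 + A1 * A0 +
        A3 * A2 * A1 + A3 * A2 * A0 + A3 * A1 * A0 + A2 * A1 * A0 + A3 * A2 * A1 * A0 := by
      noncomm_ring
    rw [this, z1, z2, z3, z4, z5, z6]
    simp
  rw [h0, ptp_update, ptp_update, ptp_update, ptp_update, dir_eq, dir_eq, dir_eq, dir_eq, hb]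
  exact assemble (fun s => 1 + gt s (isQ s)) (fun s => 1 + gt s (isB s))
    (fun s => 1 + gt s (isP s)) (fun s s' h => comm_QB s s' h) (fun s s' h => comm_QP s s' h)
    fun s s' h => comm_BP s s' h

theorem card_ne (s : Fin (L + 1)) :
    (Finset.univ.filter fun x : Fin (L + 1) → Option N => x s ≠ none).card =
      Fintype.card N * (Fintype.card N + 1) ^ L := by
  have h : (Finset.univ.filter fun x : Fin (L + 1) → Option N => x s ≠ none) =
      Fintype.piFinset fun i => if i = s then Finset.univ.erase none else Finset.univ := by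
    ext x
    simp only [Finset.mem_filter, Finset.mem_univ, true_and, Fintype.mem_piFinset]
    constructor
    · intro h i
      split_ifs with hi
      · subst hi; simpa using h
      · simp
    · intro h
      have := h s
      rw [if_pos rfl] at this
      simpa using this
  rw [h, Fintype.card_piFinset, ← Finset.mul_prod_erase Finset.univ _ (Finset.mem_univ s),
    if_pos rfl, Finset.card_erase_of_mem (Finset.mem_univ _), Finset.card_univ,
    Fintype.card_option, Nat.add_sub_cancel]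
  congr 1
  rw [Finset.prod_congr rfl (g := fun _ => Fintype.card N + 1)]
  · rw [Finset.prod_const, Finset.card_erase_of_mem (Finset.mem_univ _), Finset.card_univ,
      Fintype.card_fin, Nat.add_sub_cancel]
  · intro i hi
    rw [if_neg (Finset.mem_erase.1 hi).1, Finset.card_univ, Fintype.card_option]

theorem card_all :
    (Finset.univ.filter fun x : Fin L → Option N => ∀ i, x i ≠ none).card =
      Fintype.card N ^ L := by
  have h : (Finset.univ.filter fun x : Fin L → Option N => ∀ i, x i ≠ none) =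
      Fintype.piFinset fun _ => Finset.univ.erase none := by
    ext x
    simp [Fintype.mem_piFinset]
  rw [h, Fintype.card_piFinset, Finset.prod_const, Finset.card_erase_of_mem (Finset.mem_univ _),
    Finset.card_univ, Fintype.card_option, Nat.add_sub_cancel, Finset.card_univ, Fintype.card_fin]

theorem card_QP (s : Fin (L + 1)) :
    cnt (N := N) s (isQ s) + cnt (N := N) s (isP s) +
      Fintype.card N ^ (L + 1) ≤ Fintype.card N * (Fintype.card N + 1) ^ L := by
  unfold cnt
  rw [← card_ne s, ← card_all (N := N) (L := L + 1), ← Finset.card_union_of_disjoint,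
    ← Finset.card_union_of_disjoint]
  · refine Finset.card_le_card fun x hx => ?_
    simp only [Finset.mem_union, Finset.mem_filter, Finset.mem_univ, true_and] at hx ⊢
    rcases hx with (hx | hx) | hx
    · exact hx.1
    · exact hx.1
    · exact hx s
  · rw [Finset.disjoint_left]
    intro x hx hx'
    simp only [Finset.mem_union, Finset.mem_filter, Finset.mem_univ, true_and] at hx hx'
    rcases hx with ⟨_, i, hi, _⟩ | ⟨_, ⟨i, hi⟩, _⟩
    · exact hx' i hi
    · exact hx' i hi
  · rw [Finset.disjoint_left]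
    intro x hx hx'
    simp only [Finset.mem_filter, Finset.mem_univ, true_and] at hx hx'
    obtain ⟨_, i, hi, his⟩ := hx
    exact absurd his (not_lt.2 (hx'.2.2 i hi).le)

/-- the gadget -/
theorem TW.star_four {B : Type*} [Fintype B] [DecidableEq B] :
    ∃ W, TW (ptp (fun _ : Fin 4 => starO (B × Bool))) W ∧
      W + 4 * (2 * Fintype.card B) ^ 4 ≤
        4 * ((2 * Fintype.card B) * (2 * Fintype.card B + 1) ^ 3) +
        (2 * Fintype.card B * (31 * Fintype.card B ^ 3 + 32 * Fintype.card B ^ 2) +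
        20 * Fintype.card B ^ 3) := by
  rw [tpow_starO_four]
  refine ⟨_, (((TW.gt _ _).mul ((TW.gt _ _).mul ((TW.gt _ _).mul (TW.gt _ _)))).mul
    TW.block).mul ((TW.gt _ _).mul ((TW.gt _ _).mul ((TW.gt _ _).mul (TW.gt _ _)))), ?_⟩
  have hc : Fintype.card (B × Bool) = 2 * Fintype.card B := by
    rw [Fintype.card_prod, Fintype.card_bool, mul_comm]
  have key : ∀ s : Fin 4, cnt (N := B × Bool) s (isQ s) + cnt (N := B × Bool) s (isP s) +
      (2 * Fintype.card B) ^ 4 ≤ 2 * Fintype.card B * (2 * Fintype.card B + 1) ^ 3 := fun s => by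
    have h := card_QP (N := B × Bool) s
    rwa [hc] at h
  have h0 := key 0
  have h1 := key 1
  have h2 := key 2
  have h3 := key 3
  omega

end Crest.Agent.R324
end

-- ▼ part R324/Solve
section

/-!
Row 324: solving the doubling recursion.
-/

set_option autoImplicit false
set_option linter.unusedSectionVars false

namespace Crest.Agent.R324

open Matrix

/-- abstract vector recursion -/
theorem vector_recursion {s m : ℕ} (hm : 2 ≤ m) {θ ρ D : ℝ} (h0 : 0 < θ)
    (hρ0 : 0 ≤ ρ) (hρ1 : ρ < 1) (hD : 0 ≤ D) (t : ℕ → ℕ → ℝ) (c d : ℕ → ℝ) (g : ℝ)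
    (hc : ∀ i ≤ s, 0 < c i)
    (ht0 : ∀ i ≤ s, t i 0 = 0) (htn : ∀ i ≤ s, ∀ K, 0 ≤ t i K)
    (hadd : ∀ i ≤ s, ∀ a b, t i (a + b) ≤ t i a + t i b)
    (hmul : ∀ i ≤ s, ∀ a, t i a ≤ a * t i 1)
    (hdbl : ∀ i < s, ∀ K, ∀ A : ℝ, 0 ≤ A → (∀ j ≤ K, t i j ≤ A * c i * (j : ℝ) ^ θ) →
      (∀ j ≤ K, t (i + 1) j ≤ A * c (i + 1) * (j : ℝ) ^ θ) →
        t i (2 * K) ≤ A * d i * (K : ℝ) ^ θ)
    (hgad : ∀ K, ∀ A : ℝ, 0 ≤ A → (∀ j ≤ K, t 0 j ≤ A * c 0 * (j : ℝ) ^ θ) →
      t s (m * K) ≤ A * g * (K : ℝ) ^ θ + D)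
    (hI : ∀ i < s, d i ≤ ρ * c i * 2 ^ θ)
    (hG : g ≤ ρ * c s * (m : ℝ) ^ θ) :
    ∃ A : ℝ, 0 ≤ A ∧ ∀ i ≤ s, ∀ K, t i K ≤ A * c i * (K : ℝ) ^ θ := by
  set E : ℝ := ∑ i ∈ Finset.range (s + 1), (m * t i 1 + D) / c i with hE
  have hE0 : 0 ≤ E := Finset.sum_nonneg fun i hi => by
    have hi' : i ≤ s := Nat.lt_succ_iff.1 (Finset.mem_range.1 hi)
    have := hc i hi'
    have := htn i hi' 1
    positivity
  have hEi : ∀ i ≤ s, m * t i 1 + D ≤ E * c i := by
    intro i hi
    have h1 := hc i hi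
    rw [← div_le_iff₀ h1]
    exact Finset.single_le_sum (f := fun i => (m * t i 1 + D) / c i) (fun j hj => by
      have hj' : j ≤ s := Nat.lt_succ_iff.1 (Finset.mem_range.1 hj)
      have := hc j hj'
      have := htn j hj' 1
      positivity) (Finset.mem_range.2 (Nat.lt_succ_iff.2 hi))
  have hρ' : 0 < 1 - ρ := by linarith
  refine ⟨E / (1 - ρ), div_nonneg hE0 hρ'.le, ?_⟩
  set A := E / (1 - ρ) with hA
  have hA0 : 0 ≤ A := div_nonneg hE0 hρ'.le
  have hAE : A * ρ + E = A := by
    rw [hA]; field_simp; ring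
  have main : ∀ N, ∀ i ≤ s, t i N ≤ A * c i * (N : ℝ) ^ θ := by
    intro N
    induction N using Nat.strong_induction_on with
    | _ N ih =>
      intro i hi
      have hci := hc i hi
      rcases Nat.eq_zero_or_pos N with hN | hN
      · subst hN
        rw [ht0 i hi]
        positivity
      have hN1 : (1 : ℝ) ≤ (N : ℝ) ^ θ := by
        have : (1 : ℝ) ≤ N := by exact_mod_cast hN
        exact Real.one_le_rpow this h0.le
      -- the common step
      have step : ∀ l K r : ℕ, 2 ≤ l → l ≤ m → r < l → N = l * K + r →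
          t i (l * K) ≤ A * (ρ * c i * (l : ℝ) ^ θ) * (K : ℝ) ^ θ + D →
          t i N ≤ A * c i * (N : ℝ) ^ θ := by
        intro l K r hl hlm hr hNK hk
        have h1 : t i r ≤ (m : ℝ) * t i 1 := by
          refine (hmul i hi r).trans ?_
          have h2 := htn i hi 1
          have h3 : (r : ℝ) ≤ m := by exact_mod_cast (hr.le.trans hlm)
          gcongr
        have h4 : ((l : ℝ) ^ θ * (K : ℝ) ^ θ) ≤ (N : ℝ) ^ θ := by
          rw [← Real.mul_rpow (by positivity) (by positivity)]
          refine Real.rpow_le_rpow (by positivity) ?_ h0.le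
          have : l * K ≤ N := by omega
          exact_mod_cast this
        have hlK : (0 : ℝ) ≤ (l : ℝ) ^ θ * (K : ℝ) ^ θ := by positivity
        have h5 := hEi i hi
        calc t i N ≤ t i (l * K) + t i r := by rw [hNK]; exact hadd i hi _ _
          _ ≤ (A * (ρ * c i * (l : ℝ) ^ θ) * (K : ℝ) ^ θ + D) + m * t i 1 := by gcongr
          _ = A * ρ * c i * ((l : ℝ) ^ θ * (K : ℝ) ^ θ) + (m * t i 1 + D) := by ring
          _ ≤ A * ρ * c i * (N : ℝ) ^ θ + E * c i * (N : ℝ) ^ θ := by
              have h6 : m * t i 1 + D ≤ E * c i * (N : ℝ) ^ θ :=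
                h5.trans (le_mul_of_one_le_right (by positivity) hN1)
              gcongr
          _ = (A * ρ + E) * c i * (N : ℝ) ^ θ := by ring
          _ = A * c i * (N : ℝ) ^ θ := by rw [hAE]
      rcases Nat.lt_or_ge i s with his | his
      · -- doubling
        have hK : N / 2 < N := Nat.div_lt_self hN (by norm_num)
        have h1 := hdbl i his (N / 2) A hA0 (fun j hj => ih j (lt_of_le_of_lt hj hK) i hi)
          (fun j hj => ih j (lt_of_le_of_lt hj hK) (i + 1) his)
        refine step 2 (N / 2) (N % 2) le_rfl hm (Nat.mod_lt _ (by norm_num))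
          (Nat.div_add_mod N 2).symm (h1.trans ?_)
        have h2 := hI i his
        have h3 : A * d i * ((N / 2 : ℕ) : ℝ) ^ θ ≤
            A * (ρ * c i * 2 ^ θ) * ((N / 2 : ℕ) : ℝ) ^ θ := by gcongr
        push_cast at h3 ⊢
        linarith
      · -- gadget
        have his' : i = s := le_antisymm hi his
        subst his'
        have hK : N / m < N := Nat.div_lt_self hN (by omega)
        have h1 := hgad (N / m) A hA0 (fun j hj => ih j (lt_of_le_of_lt hj hK) 0 (Nat.zero_le _))
        refine step m (N / m) (N % m) hm le_rfl (Nat.mod_lt _ (by omega))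
          (Nat.div_add_mod N m).symm (h1.trans ?_)
        gcongr
  exact fun i hi K => main K i hi

/-! ### powers close to one -/

theorem rpow_le_of_small {x η δ : ℝ} {k : ℕ} (hx : 0 < x) (hxk : 1 ≤ x * 2 ^ k)
    (hη : 0 ≤ η) (hδ : δ ≤ 1) (hδ0 : 0 ≤ δ) (h : η * k ≤ δ / 2) :
    x ^ (1 - η) ≤ x * (1 + δ) := by
  have hlog : -(k : ℝ) ≤ Real.log x := by
    have h1 : 0 ≤ Real.log (x * 2 ^ k) := Real.log_nonneg hxk
    rw [Real.log_mul hx.ne' (by positivity), Real.log_pow] at h1
    have h2 : Real.log 2 ≤ 1 := by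
      have := Real.log_two_lt_d9
      linarith
    have h3 : (k : ℝ) * Real.log 2 ≤ k * 1 := by gcongr
    linarith
  have h1 : x ^ (1 - η) = x * x ^ (-η) := by
    rw [sub_eq_add_neg, Real.rpow_add hx, Real.rpow_one]
  rw [h1]
  refine mul_le_mul_of_nonneg_left ?_ hx.le
  rw [Real.rpow_def_of_pos hx]
  have h2 : Real.log x * -η ≤ δ / 2 := by nlinarith
  calc Real.exp (Real.log x * -η) ≤ Real.exp (δ / 2) := Real.exp_le_exp.2 h2
    _ ≤ 1 / (1 - δ / 2) :=
        Real.exp_bound_div_one_sub_of_interval (by linarith) (by linarith)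
    _ ≤ 1 + δ := by
        rw [div_le_iff₀ (by linarith)]
        nlinarith

theorem le_rpow_of_small {y η δ : ℝ} {k : ℕ} (hy : 0 < y) (hyk : y ≤ 2 ^ k)
    (hη : 0 ≤ η) (hδ0 : 0 ≤ δ) (h : η * k ≤ δ / 2) :
    y * (1 - δ) ≤ y ^ (1 - η) := by
  have hlog : Real.log y ≤ k := by
    have h1 : Real.log y ≤ Real.log (2 ^ k) := Real.log_le_log hy hyk
    rw [Real.log_pow] at h1
    have h2 : Real.log 2 ≤ 1 := by
      have := Real.log_two_lt_d9
      linarith
    have h3 : (k : ℝ) * Real.log 2 ≤ k * 1 := by gcongr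
    linarith
  have h1 : y ^ (1 - η) = y * y ^ (-η) := by
    rw [sub_eq_add_neg, Real.rpow_add hy, Real.rpow_one]
  rw [h1]
  refine mul_le_mul_of_nonneg_left ?_ hy.le
  rw [Real.rpow_def_of_pos hy]
  have h2 : -(δ / 2) ≤ Real.log y * -η := by nlinarith
  have h3 := Real.add_one_le_exp (Real.log y * -η)
  linarith

/-- the gadget step, real form -/
theorem nc_star_gadget {n m W r : ℕ} (hm : 1 ≤ m) (hn : 1 ≤ n)
    (hIP : IP (tpow (Fin m) (star n)) W r) {θ : ℝ} (h0 : 0 < θ) (h1 : θ ≤ 1) {A : ℝ}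
    (hA : 0 ≤ A) (K : ℕ) (h : ∀ j ≤ K, nc (star 1) j ≤ A * (j : ℝ) ^ θ) :
    nc (star n) (m * K) ≤ A * (W * (2 / ((n : ℝ) + 1) ^ m) ^ θ) * (K : ℝ) ^ θ +
      (2 * W + r) := by
  have h3 := hIP.mc_le K
  rw [← mc_tpow_eq] at h3
  have hcard : Fintype.card (Fin m → Fin (n + 1)) = (n + 1) ^ m := by simp
  rw [hcard] at h3
  have h4 : (mc (star n) (m * K) : ℝ) ≤ W * ((FK K ((n + 1) ^ m) : ℝ) +
      2 * (((n : ℝ) + 1) ^ m) ^ K) + r * (((n : ℝ) + 1) ^ m) ^ K := by exact_mod_cast h3
  have hF := FK_le (K := K) (Q := (n + 1) ^ m) h0 h1 hA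
    (by calc 2 ≤ (n + 1) ^ 1 := by rw [pow_one]; omega
          _ ≤ (n + 1) ^ m := Nat.pow_le_pow_right (by omega) hm)
    (fun j hj => by
      have := h j hj
      rw [star_one] at this
      unfold nc at this
      unfold tau tz
      simpa using this)
  push_cast at hF
  unfold nc
  have hc : (Fintype.card (Fin (n + 1)) : ℝ) = (n : ℝ) + 1 := by simp
  rw [hc, div_le_iff₀ (by positivity), pow_mul]
  have e1 : ((K : ℝ) * (2 / ((n : ℝ) + 1) ^ m)) ^ θ =
      (K : ℝ) ^ θ * (2 / ((n : ℝ) + 1) ^ m) ^ θ :=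
    Real.mul_rpow (by positivity) (by positivity)
  calc (mc (star n) (m * K) : ℝ) ≤ _ := h4
    _ ≤ W * ((((n : ℝ) + 1) ^ m) ^ K * (A * ((K : ℝ) * (2 / ((n : ℝ) + 1) ^ m)) ^ θ) +
      2 * (((n : ℝ) + 1) ^ m) ^ K) + r * (((n : ℝ) + 1) ^ m) ^ K := by gcongr
    _ = _ := by rw [e1]; ring

theorem dbl_ineq {a u t δ η : ℝ} {k : ℕ} (ha1 : 1 ≤ a) (hk1 : 1 ≤ k) (hak : a + 1 ≤ 2 ^ k)
    (hη0 : 0 < η) (hδ0 : 0 < δ) (hδ1 : δ ≤ 1 / 12) (hkδ : η * k ≤ δ / 2) (hu0 : 0 < u)
    (hδu : 6 * δ * (a + 1) ≤ u) (ht0 : 0 ≤ t) (ht1 : t + u ≤ 1) :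
    2 * (a / (a + 1) * (1 - t)) * (a / (a + 1)) ^ (1 - η) +
      (2 * a / (2 * a + 1) * (1 - (t + u))) * ((2 * a + 1) / (a + 1) ^ 2) ^ (1 - η) ≤
      (1 - δ) * (a / (a + 1) * (1 - t)) * 2 ^ (1 - η) := by
  have hp : 0 ≤ 1 - t := by linarith
  have hp1 : 0 ≤ 1 - (t + u) := by linarith
  have h2k : (2 : ℝ) ≤ 2 ^ k := by
    calc (2 : ℝ) = 2 ^ 1 := (pow_one _).symm
      _ ≤ 2 ^ k := pow_le_pow_right₀ (by norm_num) hk1
  have h1 : (a / (a + 1)) ^ (1 - η) ≤ a / (a + 1) * (1 + δ) := by
    refine rpow_le_of_small (k := k) (by positivity) ?_ hη0.le (by linarith) hδ0.le hkδ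
    calc (1 : ℝ) ≤ a / (a + 1) * 2 := by
          rw [div_mul_eq_mul_div, le_div_iff₀ (by positivity)]; linarith
      _ ≤ _ := by gcongr
  have h2 : ((2 * a + 1) / (a + 1) ^ 2) ^ (1 - η) ≤
      (2 * a + 1) / (a + 1) ^ 2 * (1 + δ) := by
    refine rpow_le_of_small (k := k) (by positivity) ?_ hη0.le (by linarith) hδ0.le hkδ
    calc (1 : ℝ) ≤ (2 * a + 1) / (a + 1) ^ 2 * (a + 1) := by
          rw [div_mul_eq_mul_div, le_div_iff₀ (by positivity)]; nlinarith
      _ ≤ _ := by gcongr
  have h3 : 2 * (1 - δ) ≤ (2 : ℝ) ^ (1 - η) :=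
    le_rpow_of_small (k := k) (by norm_num) h2k hη0.le hδ0.le hkδ
  have key : (1 + δ) * ((a + 1) * (1 - t) - u) ≤ (1 - δ) ^ 2 * ((a + 1) * (1 - t)) := by
    have hG1 : (a + 1) * (1 - t) ≤ a + 1 := by nlinarith
    have hG0 : 0 ≤ (a + 1) * (1 - t) := by positivity
    have h6 : 3 * δ * ((a + 1) * (1 - t)) ≤ 3 * δ * (a + 1) := by gcongr
    have h7 : 0 ≤ δ * u := by positivity
    have h8 : 0 ≤ δ ^ 2 * ((a + 1) * (1 - t)) := by positivity
    have h9 : (1 - δ) ^ 2 * ((a + 1) * (1 - t)) - (1 + δ) * ((a + 1) * (1 - t) - u) =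
      (u + δ * u) + δ ^ 2 * ((a + 1) * (1 - t)) - 3 * δ * ((a + 1) * (1 - t)) := by ring
    have h10 : 3 * δ * (a + 1) ≤ u := by
      have : 0 ≤ δ * (a + 1) := by positivity
      linarith
    linarith
  calc _ ≤ 2 * (a / (a + 1) * (1 - t)) * (a / (a + 1) * (1 + δ)) +
          (2 * a / (2 * a + 1) * (1 - (t + u))) * ((2 * a + 1) / (a + 1) ^ 2 * (1 + δ)) := by
        gcongr
    _ = 2 * a / (a + 1) ^ 2 * ((1 + δ) * ((a + 1) * (1 - t) - u)) := by
        field_simp; ring
    _ ≤ 2 * a / (a + 1) ^ 2 * ((1 - δ) ^ 2 * ((a + 1) * (1 - t))) := by gcongr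
    _ = (1 - δ) * (a / (a + 1) * (1 - t)) * (2 * (1 - δ)) := by field_simp
    _ ≤ _ := by
        have : 0 ≤ (1 - δ) * (a / (a + 1) * (1 - t)) :=
          mul_nonneg (by linarith) (by positivity)
        gcongr

theorem gad_ineq {n u w t δ η W : ℝ} {m k : ℕ} (hn1 : 1 ≤ n) (hm : 1 ≤ m)
    (hmk : m ≤ k) (hnk : (n + 1) ^ m ≤ 2 ^ k)
    (hη0 : 0 < η) (hδ0 : 0 < δ) (hδ1 : δ ≤ 1 / 12) (hkδ : η * k ≤ δ / 2) (hu0 : 0 < u)
    (hδu : 12 * δ ≤ u) (hw0 : 0 ≤ w) (hw1 : w ≤ 1) (ht : t + u = w) (hW0 : 0 ≤ W)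
    (hW : W ≤ (1 - w) * m * n * (n + 1) ^ (m - 1)) :
    W * (1 / 2) * (2 / (n + 1) ^ m) ^ (1 - η) ≤
      (1 - δ) * (n / (n + 1) * (1 - t)) * (m : ℝ) ^ (1 - η) := by
  have hm0 : (0 : ℝ) < m := by exact_mod_cast hm
  have h1 : (2 / (n + 1) ^ m) ^ (1 - η) ≤ 2 / (n + 1) ^ m * (1 + δ) := by
    refine rpow_le_of_small (k := k) (by positivity) ?_ hη0.le (by linarith) hδ0.le hkδ
    rw [div_mul_eq_mul_div, le_div_iff₀ (by positivity), one_mul]
    have : (0 : ℝ) ≤ 2 ^ k := by positivity
    linarith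
  have h2 : m * (1 - δ) ≤ (m : ℝ) ^ (1 - η) := by
    refine le_rpow_of_small (k := k) hm0 ?_ hη0.le hδ0.le hkδ
    have h3 : m ≤ 2 ^ k := (Nat.lt_two_pow_self (n := m)).le.trans
      (Nat.pow_le_pow_right (by norm_num) hmk)
    exact_mod_cast h3
  have key : (1 - w) * (1 + δ) ≤ (1 - δ) ^ 2 * (1 - t) := by
    have e : 1 - t = 1 - w + u := by linarith
    rw [e]
    have h7 : 0 ≤ δ * (1 - w) := mul_nonneg hδ0.le (by linarith)
    have h8 : 0 ≤ δ ^ 2 * (1 - w + u) := mul_nonneg (by positivity) (by linarith)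
    have h9 : (1 - δ) ^ 2 * (1 - w + u) - (1 - w) * (1 + δ) =
      δ ^ 2 * (1 - w + u) - 3 * (δ * (1 - w)) + u - 2 * (δ * u) := by ring
    have h10 : δ * (1 - w) ≤ δ := by nlinarith
    have h11 : δ * u ≤ 1 / 12 * u := by gcongr
    linarith
  have hpow : (n + 1) ^ m = (n + 1) ^ (m - 1) * (n + 1) := by
    rw [← pow_succ]; congr 1; omega
  calc _ ≤ W * (1 / 2) * (2 / (n + 1) ^ m * (1 + δ)) := by gcongr
    _ = W / (n + 1) ^ m * (1 + δ) := by field_simp
    _ ≤ ((1 - w) * m * n * (n + 1) ^ (m - 1)) / (n + 1) ^ m * (1 + δ) := by gcongr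
    _ = m * (n / (n + 1)) * ((1 - w) * (1 + δ)) := by rw [hpow]; field_simp
    _ ≤ m * (n / (n + 1)) * ((1 - δ) ^ 2 * (1 - t)) := by gcongr
    _ = (1 - δ) * (n / (n + 1) * (1 - t)) * (m * (1 - δ)) := by ring
    _ ≤ _ := by
        have : 0 ≤ (1 - δ) * (n / (n + 1) * (1 - t)) :=
          mul_nonneg (by linarith) (mul_nonneg (by positivity) (by linarith))
        gcongr

/-- **Solution of the doubling recursion.** -/
theorem nc_le_of_gadget {s m W r : ℕ} (hm : 2 ≤ m)
    (hIP : IP (tpow (Fin m) (star (2 ^ s))) W r) {w η : ℝ} (hw0 : 0 < w) (hw1 : w ≤ 1)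
    (hW : (W : ℝ) ≤ (1 - w) * m * 2 ^ s * (2 ^ s + 1) ^ (m - 1))
    (hη0 : 0 < η) (hη1 : 12 * η * m * (s + 1) ^ 2 * (2 ^ s + 1) ≤ w) :
    ∃ A : ℝ, 0 ≤ A ∧ ∀ K, nc (star 1) K ≤ A * (K : ℝ) ^ (1 - η) := by
  -- parameters
  set u : ℝ := w / (s + 1) with hu
  set δ : ℝ := 2 * η * (m * (s + 1)) with hδ
  have hs1 : (0 : ℝ) < (s : ℝ) + 1 := by positivity
  have hm2 : (2 : ℝ) ≤ m := by exact_mod_cast hm
  have hm0 : (0 : ℝ) < m := by linarith
  have hδ0 : 0 < δ := by positivity
  have hu0 : 0 < u := by positivity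
  have hsu : (s : ℝ) * u + u = w := by rw [hu]; field_simp
  have hδu : 6 * δ * (2 ^ s + 1) ≤ u := by
    rw [hu, le_div_iff₀ hs1, hδ]
    calc 6 * (2 * η * (m * (s + 1))) * (2 ^ s + 1) * ((s : ℝ) + 1)
        = 12 * η * m * (s + 1) ^ 2 * (2 ^ s + 1) := by ring
      _ ≤ w := hη1
  have h2s : (1 : ℝ) ≤ 2 ^ s := one_le_pow₀ (by norm_num)
  have hu1 : u ≤ 1 := by nlinarith [mul_nonneg (Nat.cast_nonneg (α := ℝ) s) hu0.le]
  have hδ1 : δ ≤ 1 / 12 := by nlinarith
  set k : ℕ := m * (s + 1) with hk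
  have hkδ : η * k ≤ δ / 2 := by
    rw [hk, hδ]; push_cast; linarith
  have hk1 : s + 1 ≤ k := by rw [hk]; nlinarith [Nat.zero_le s]
  set θ : ℝ := 1 - η with hθ
  have hη1' : η ≤ 1 / 12 := by
    have : η * 2 ≤ δ := by
      rw [hδ]
      have : (1 : ℝ) ≤ m * (s + 1) := by nlinarith [Nat.cast_nonneg (α := ℝ) s]
      nlinarith
    linarith
  have hθ0 : 0 < θ := by rw [hθ]; linarith
  have hθ1 : θ ≤ 1 := by rw [hθ]; linarith
  -- weights
  set c : ℕ → ℝ := fun i => (2 ^ i / (2 ^ i + 1)) * (1 - i * u) with hc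
  have hiu : ∀ i ≤ s, (i : ℝ) * u ≤ s * u := fun i hi => by
    have : (i : ℝ) ≤ s := by exact_mod_cast hi
    gcongr
  have hpos : ∀ i ≤ s, 0 < 1 - (i : ℝ) * u := fun i hi => by
    have := hiu i hi
    linarith
  have hcpos : ∀ i ≤ s, 0 < c i := fun i hi => by
    have := hpos i hi
    simp only [hc]
    positivity
  set d : ℕ → ℝ := fun i => 2 * c i * ((2 : ℝ) ^ i / (2 ^ i + 1)) ^ θ +
    c (i + 1) * ((2 * (2 : ℝ) ^ i + 1) / ((2 : ℝ) ^ i + 1) ^ 2) ^ θ with hd
  obtain ⟨A, hA, hmain⟩ := vector_recursion (s := s) (m := m) hm (θ := θ) (ρ := 1 - δ)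
    (D := 2 * W + r) hθ0 (by linarith) (by linarith) (by positivity)
    (fun i K => nc (star (2 ^ i)) K) c d (W * c 0 * (2 / ((2 : ℝ) ^ s + 1) ^ m) ^ θ) hcpos
    (fun i _ => nc_zero _) (fun i _ K => nc_nonneg _ K) (fun i _ a b => nc_add_le _ a b)
    (fun i _ a => nc_le_mul _ a)
    (by
      intro i hi K A hA h h'
      have h2 := nc_star_two_mul_le hθ0 hθ1 (A := A * c i) (B := A * c (i + 1))
        (mul_nonneg hA (hcpos i hi.le).le) (mul_nonneg hA (hcpos (i + 1) hi).le) (2 ^ i) K h
        (by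
          intro j hj
          have := h' j hj
          rwa [pow_succ, mul_comm] at this)
      refine h2.trans (le_of_eq ?_)
      simp only [hd]
      push_cast
      ring)
    (by
      intro K A hA h
      have h2 := nc_star_gadget (n := 2 ^ s) (by omega) Nat.one_le_two_pow hIP hθ0 hθ1
        (A := A * c 0) (mul_nonneg hA (hcpos 0 (Nat.zero_le _)).le) K (by simpa using h)
      refine h2.trans (le_of_eq ?_)
      push_cast
      ring)
    (by
      intro i hi
      have hpi1 := hpos (i + 1) hi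
      push_cast at hpi1
      have has : (2 : ℝ) ^ i ≤ 2 ^ s := pow_le_pow_right₀ (by norm_num) hi.le
      have h4 : (2 : ℝ) ^ (s + 1) ≤ 2 ^ k := pow_le_pow_right₀ (by norm_num) hk1
      have h := dbl_ineq (a := 2 ^ i) (u := u) (t := i * u) (k := k)
        (one_le_pow₀ (by norm_num)) (by omega) (by rw [pow_succ] at h4; linarith)
        hη0 hδ0 hδ1 hkδ hu0 (le_trans (by gcongr) hδu) (by positivity) (by linarith)
      refine le_trans (le_of_eq ?_) h
      simp only [hd, hc]
      rw [pow_succ]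
      push_cast
      ring)
    (by
      have h4 : ((2 : ℝ) ^ s + 1) ^ m ≤ 2 ^ k := by
        have h5 : (2 : ℝ) ^ s + 1 ≤ 2 ^ (s + 1) := by rw [pow_succ]; linarith
        calc ((2 : ℝ) ^ s + 1) ^ m ≤ (2 ^ (s + 1)) ^ m := by gcongr
          _ = 2 ^ k := by rw [← pow_mul, hk, mul_comm]
      have h := gad_ineq (n := 2 ^ s) (u := u) (w := w) (t := s * u) (m := m) (k := k)
        (W := W) h2s (by omega) (by rw [hk]; nlinarith [Nat.zero_le s]) h4 hη0 hδ0 hδ1 hkδ hu0
        (by nlinarith) hw0.le hw1 hsu (by positivity) hW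
      refine le_trans (le_of_eq ?_) h
      simp only [hc]
      rw [hθ]
      norm_num)
  refine ⟨A * c 0, mul_nonneg hA (hcpos 0 (Nat.zero_le _)).le, fun K => ?_⟩
  simpa using hmain 0 (Nat.zero_le _) K

theorem savingExponent_gt : 1 - 1 / 10 ^ 12 < Crest.FourierCircuit.savingExponent := by
  unfold Crest.FourierCircuit.savingExponent Real.logb
  have h10 : (10 : ℝ) < Real.log (10 ^ 6) := by
    rw [Real.log_pow]
    have h1 : Real.log 8 < Real.log 10 := Real.log_lt_log (by norm_num) (by norm_num)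
    have h2 : Real.log 8 = 3 * Real.log 2 := by
      rw [show (8 : ℝ) = 2 ^ 3 by norm_num, Real.log_pow]; norm_num
    have h3 := Real.log_two_gt_d9
    push_cast
    linarith
  have hx : (10 ^ 6 - 6871402692000000 / 2 ^ 71 : ℝ) =
      10 ^ 6 * (1 - 6871402692000000 / 2 ^ 71 / 10 ^ 6) := by norm_num
  have hlog : Real.log (10 ^ 6) - 5 / 10 ^ 12 <
      Real.log (10 ^ 6 - 6871402692000000 / 2 ^ 71) := by
    rw [hx, Real.log_mul (by norm_num) (by norm_num)]
    have h4 := Real.one_sub_inv_le_log_of_pos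
      (x := 1 - 6871402692000000 / 2 ^ 71 / 10 ^ 6) (by norm_num)
    have h5 : (-(5 / 10 ^ 12) : ℝ) <
        1 - (1 - 6871402692000000 / 2 ^ 71 / 10 ^ 6 : ℝ)⁻¹ := by norm_num
    linarith
  rw [lt_div_iff₀ (by linarith)]
  have : (1 - 1 / 10 ^ 12) * Real.log (10 ^ 6) =
      Real.log (10 ^ 6) - Real.log (10 ^ 6) / 10 ^ 12 := by ring
  rw [this]
  have h6 : (5 / 10 ^ 12 : ℝ) < Real.log (10 ^ 6) / 10 ^ 12 := by
    gcongr
    linarith
  linarith

/-- **The zeta transform from a star gadget.** -/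
theorem zeta_of_gadget {s m W r : ℕ} (hm : 2 ≤ m)
    (hIP : IP (tpow (Fin m) (star (2 ^ s))) W r) {w : ℝ} (hw0 : 0 < w) (hw1 : w ≤ 1)
    (hW : (W : ℝ) ≤ (1 - w) * m * 2 ^ s * (2 ^ s + 1) ^ (m - 1))
    (hη1 : 12 * (1 / 10 ^ 12) * m * ((s : ℝ) + 1) ^ 2 * (2 ^ s + 1) ≤ w) :
    ∃ A θ : ℝ, 0 ≤ A ∧ 0 < θ ∧ θ < Crest.FourierCircuit.savingExponent ∧
      ∀ K : ℕ, ∃ k : ℕ, Cost (tpow (Fin K) L) k ∧ (k : ℝ) ≤ A * 2 ^ K * (K : ℝ) ^ θ := by
  obtain ⟨A, hA, h⟩ := nc_le_of_gadget hm hIP hw0 hw1 hW (η := 1 / 10 ^ 12) (by norm_num) hη1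
  refine ⟨A, 1 - 1 / 10 ^ 12, hA, by norm_num, savingExponent_gt, fun K => ?_⟩
  refine ⟨mc L K, cost_mc L K, ?_⟩
  have := h K
  rw [star_one] at this
  unfold nc at this
  rw [div_le_iff₀ (by positivity)] at this
  simp only [Fintype.card_fin] at this
  calc (mc L K : ℝ) ≤ _ := this
    _ = _ := by push_cast; ring

/-- integer form of the hypotheses -/
theorem zeta_of_gadget_nat {s m W r : ℕ} (hm : 2 ≤ m) (hm8 : m ≤ 8) (hs : s ≤ 14)
    (hIP : IP (tpow (Fin m) (star (2 ^ s))) W r)
    (hW : 100 * W ≤ 99 * m * 2 ^ s * (2 ^ s + 1) ^ (m - 1)) :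
    ∃ A θ : ℝ, 0 ≤ A ∧ 0 < θ ∧ θ < Crest.FourierCircuit.savingExponent ∧
      ∀ K : ℕ, ∃ k : ℕ, Cost (tpow (Fin K) L) k ∧ (k : ℝ) ≤ A * 2 ^ K * (K : ℝ) ^ θ := by
  refine zeta_of_gadget hm hIP (w := 1 / 100) (by norm_num) (by norm_num) ?_ ?_
  · have h : (100 : ℝ) * W ≤ 99 * m * 2 ^ s * (2 ^ s + 1) ^ (m - 1) := by exact_mod_cast hW
    linarith
  · have h1 : (m : ℝ) ≤ 8 := by exact_mod_cast hm8
    have h2 : (s : ℝ) + 1 ≤ 15 := by
      have : (s : ℝ) ≤ 14 := by exact_mod_cast hs
      linarith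
    have h3 : (2 : ℝ) ^ s + 1 ≤ 2 ^ 14 + 1 := by
      have : (2 : ℝ) ^ s ≤ 2 ^ 14 := pow_le_pow_right₀ (by norm_num) hs
      linarith
    calc 12 * (1 / 10 ^ 12) * (m : ℝ) * ((s : ℝ) + 1) ^ 2 * (2 ^ s + 1)
        ≤ 12 * (1 / 10 ^ 12) * 8 * 15 ^ 2 * (2 ^ 14 + 1) := by gcongr
      _ ≤ 1 / 100 := by norm_num

end Crest.Agent.R324
end

-- ▼ part R324/Gadget5

/-!
Row 324: the gadget in the form needed by `zeta_of_gadget_nat`, and the zeta transform.
-/

set_option autoImplicit false
set_option linter.unusedSectionVars false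

namespace Crest.Agent.R324

open Matrix

section

variable {q q' : Type*} [Fintype q] [DecidableEq q] [Fintype q'] [DecidableEq q']

theorem TW.toIP {M : Matrix q q ℂ} {k : ℕ} (h : TW M k) : ∃ k' ≤ k, IP M k' 0 := by
  induction h with
  | one => exact ⟨0, le_refl _, IP.one⟩
  | skip _ ih =>
    obtain ⟨k', hk, h⟩ := ih
    exact ⟨k', hk.trans (Nat.le_succ _), h⟩
  | step a b hab c _ ih =>
    obtain ⟨k', hk, h⟩ := ih
    exact ⟨k' + 1, Nat.succ_le_succ hk, h.trans_mul hab c⟩

theorem TW.reindex {M : Matrix q q ℂ} {k : ℕ} (h : TW M k) (e : q' ≃ q) :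
    TW (M.submatrix e e) k := by
  induction h with
  | one =>
    rw [Matrix.submatrix_one_equiv]
    exact TW.one
  | skip _ ih => exact ih.skip
  | @step M k a b hab c _ ih =>
    rw [← Matrix.submatrix_mul_equiv (Matrix.transvection a b c) M e e e]
    have : (Matrix.transvection a b c).submatrix e e =
        Matrix.transvection (e.symm a) (e.symm b) c := by
      ext i j
      simp only [Matrix.submatrix_apply, Matrix.transvection, Matrix.add_apply,
        Matrix.one_apply, Matrix.single_apply, EmbeddingLike.apply_eq_iff_eq,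
        Equiv.symm_apply_eq]
    rw [this]
    exact ih.step _ _ (fun h => hab (e.symm.injective h)) c

end

/-- **The gadget**: the fourth tensor power of the star with 256 leaves. -/
theorem gadget_IP : ∃ W, IP (tpow (Fin 4) (star (2 ^ 8))) W 0 ∧
    100 * W ≤ 99 * 4 * 2 ^ 8 * (2 ^ 8 + 1) ^ (4 - 1) := by
  obtain ⟨W, hW, hle⟩ := TW.star_four (B := Fin 128)
  let e1 : Fin (2 ^ 8) ≃ Fin 128 × Bool := Fintype.equivOfCardEq (by simp)
  let e2 : Fin (2 ^ 8 + 1) ≃ Option (Fin 128 × Bool) :=
    (finSuccEquiv (2 ^ 8)).trans (Equiv.optionCongr e1)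
  have h1 := hW.reindex (Equiv.arrowCongr (Equiv.refl (Fin 4)) e2)
  have h2 : (ptp (fun _ : Fin 4 => starO (Fin 128 × Bool))).submatrix
      (Equiv.arrowCongr (Equiv.refl (Fin 4)) e2) (Equiv.arrowCongr (Equiv.refl (Fin 4)) e2) =
      tpow (Fin 4) (star (2 ^ 8)) := by
    rw [star_eq, ← starO_submatrix e1, Matrix.submatrix_submatrix]
    ext x y
    simp only [Matrix.submatrix_apply, ptp, tpow_apply, Matrix.of_apply]
    rfl
  rw [h2] at h1
  obtain ⟨W', hW', h⟩ := h1.toIP
  refine ⟨W', h, ?_⟩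
  rw [Fintype.card_fin] at hle
  norm_num at hle ⊢
  omega

/-- **The zeta transform in `O(2^K K^θ)` gates with `θ` below the saving exponent.** -/
theorem zeta_cost : ∃ A θ : ℝ, 0 ≤ A ∧ 0 < θ ∧ θ < Crest.FourierCircuit.savingExponent ∧
      ∀ K : ℕ, ∃ k : ℕ, Cost (tpow (Fin K) L) k ∧ (k : ℝ) ≤ A * 2 ^ K * (K : ℝ) ^ θ := by
  obtain ⟨W, h, hW⟩ := gadget_IP
  exact zeta_of_gadget_nat (by norm_num) (by norm_num) (by norm_num) h hW

end Crest.Agent.R324
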