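import Crest.Agent.R324.Cost

/-!
Row 324: tensor powers of matrices and the letter recursion.
-/

set_option autoImplicit false
set_option linter.unusedSectionVars false

namespace Crest.Agent.R324

open Matrix
open scoped Kronecker

variable {κ μ p q r : Type*} [Fintype κ] [DecidableEq κ] [Fintype μ] [DecidableEq μ]
  [Fintype p] [DecidableEq p] [Fintype q] [DecidableEq q] [Fintype r] [DecidableEq r]

/-- the tensor power of `A` with factors indexed by `κ` -/
def tpow (κ : Type*) [Fintype κ] {p q : Type*} (A : Matrix p q ℂ) :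
    Matrix (κ → p) (κ → q) ℂ :=
  Matrix.of fun x y => ∏ i, A (x i) (y i)

@[simp] theorem tpow_apply (A : Matrix p q ℂ) (x : κ → p) (y : κ → q) :
    tpow κ A x y = ∏ i, A (x i) (y i) := rfl

theorem tpow_mul (A : Matrix p q ℂ) (B : Matrix q r ℂ) :
    tpow κ (A * B) = tpow κ A * tpow κ B := by
  ext x y
  simp only [tpow_apply, Matrix.mul_apply]
  rw [Finset.prod_univ_sum, Fintype.piFinset_univ]
  exact Finset.sum_congr rfl fun z _ => Finset.prod_mul_distrib

theorem tpow_one : tpow κ (1 : Matrix q q ℂ) = 1 := by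
  ext x y
  simp only [tpow_apply, Matrix.one_apply]
  rw [Finset.prod_boole]
  simp [funext_iff]

theorem tpow_monomial (e : p → q) (d : p → ℂ) :
    tpow κ (Matrix.of fun j i => if e j = i then d j else 0) =
      Matrix.of fun x y => if (fun i => e (x i)) = y then ∏ i, d (x i) else 0 := by
  ext x y
  simp only [tpow_apply, Matrix.of_apply]
  split_ifs with h
  · exact Finset.prod_congr rfl fun i _ => by rw [if_pos (congrFun h i)]
  · rw [funext_iff, not_forall] at h
    obtain ⟨i, hi⟩ := h
    exact Finset.prod_eq_zero (Finset.mem_univ i) (if_neg hi)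

theorem tpow_diagonal (d : q → ℂ) :
    tpow κ (Matrix.diagonal d) = Matrix.diagonal fun x => ∏ i, d (x i) := by
  ext x y
  simp only [tpow_apply, Matrix.diagonal_apply]
  split_ifs with h
  · exact Finset.prod_congr rfl fun i _ => by rw [if_pos (congrFun h i)]
  · rw [funext_iff, not_forall] at h
    obtain ⟨i, hi⟩ := h
    exact Finset.prod_eq_zero (Finset.mem_univ i) (if_neg hi)

/-- tensor powers only depend on the number of factors -/
theorem Cost.tpow_congr {A : Matrix p q ℂ} {k : ℕ} (h : Cost (tpow κ A) k) (e : μ ≃ κ) :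
    Cost (tpow μ A) k := by
  have := h.reindex (Equiv.arrowCongr e (Equiv.refl p)) (Equiv.arrowCongr e (Equiv.refl q))
  convert this using 1
  ext x y
  simp only [tpow_apply, Matrix.submatrix_apply, Equiv.arrowCongr_apply, Equiv.coe_refl,
    Function.comp_def, id]
  exact (Equiv.prod_comp e.symm fun i => A (x i) (y i)).symm

theorem Cost.tpow_submatrix {A : Matrix p p ℂ} {k : ℕ} (h : Cost (tpow κ A) k) (e : q ≃ p) :
    Cost (tpow κ (A.submatrix e e)) k := by
  have := h.reindex (Equiv.arrowCongr (Equiv.refl κ) e) (Equiv.arrowCongr (Equiv.refl κ) e)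
  convert this using 1
  ext x y
  simp [Equiv.arrowCongr_apply]

/-- a monomial matrix -/
theorem Cost.tpow_monomial (e : p → q) (d : p → ℂ) :
    Cost (tpow κ (Matrix.of fun j i => if e j = i then d j else 0))
      (Fintype.card p ^ Fintype.card κ) := by
  rw [Crest.Agent.R324.tpow_monomial]
  have := Cost.monomial (κ := κ → p) (ι := κ → q) (fun x => fun i => e (x i))
    (fun x => ∏ i, d (x i))
  rwa [Fintype.card_fun] at this

/-- a permutation of the symbols is free -/
theorem Cost.tpow_perm (e : p → q) :
    Cost (tpow κ (Matrix.of fun j i => if e j = i then (1 : ℂ) else 0)) 0 := by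
  rw [Crest.Agent.R324.tpow_monomial]
  have := Cost.perm (κ := κ → p) (ι := κ → q) (fun x => fun i => e (x i))
  simpa using this


/-- Tensor power of a matrix that acts as `A` on the symbols `f '' p` and trivially elsewhere. -/
theorem Cost.tpow_sub {A : Matrix p p ℂ} {M : Matrix q q ℂ} (f : p → q)
    (hf : Function.Injective f)
    (hM1 : ∀ i b, M (f i) b = ∑ i', A i i' * (if f i' = b then 1 else 0))
    (hM2 : ∀ a b, a ∉ Set.range f → M a b = if a = b then 1 else 0)
    (t : ℕ → ℕ) (ht : ∀ j ≤ Fintype.card κ, Cost (tpow (Fin j) A) (t j)) :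
    Cost (tpow κ M) (∑ j ∈ Finset.range (Fintype.card κ + 1),
      (Fintype.card κ).choose j * (Fintype.card q - Fintype.card p) ^ (Fintype.card κ - j) *
        t j) := by
  classical
  let β := Σ J : Finset κ, ({i : κ // i ∉ J} → {s : q // s ∉ Set.range f})
  let Jx : (κ → q) → Finset κ := fun x => Finset.univ.filter fun i => x i ∈ Set.range f
  have hJ : ∀ x i, i ∈ Jx x ↔ x i ∈ Set.range f := fun x i => by simp [Jx]
  let g : ∀ b : β, ({i : κ // i ∈ b.1} → p) → (κ → q) := fun b w i =>
    if h : i ∈ b.1 then f (w ⟨i, h⟩) else (b.2 ⟨i, h⟩).1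
  let row : (κ → q) → Σ b : β, ({i : κ // i ∈ b.1} → p) := fun x =>
    ⟨⟨Jx x, fun i => ⟨x i.1, fun h => i.2 ((hJ x i.1).2 h)⟩⟩,
      fun i => ((hJ x i.1).1 i.2).choose⟩
  have h1 := Cost.blocks (κ := κ → q) (ι := κ → q) (β := β)
    (κb := fun b => ({i : κ // i ∈ b.1} → p)) (ιb := fun b => ({i : κ // i ∈ b.1} → p))
    (fun b => tpow {i : κ // i ∈ b.1} A) (fun b => t b.1.card) (by
      intro b
      have hb : Fintype.card {i : κ // i ∈ b.1} = b.1.card := by simp
      exact (ht b.1.card (Finset.card_le_univ _)).tpow_congr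
        (Fintype.equivFinOfCardEq hb)) g (A := tpow κ M) row (by
      intro x y
      have hw : ∀ i : {i : κ // i ∈ Jx x}, f ((row x).2 i) = x i.1 := fun i =>
        ((hJ x i.1).1 i.2).choose_spec
      have e1 : ∏ i : {i : κ // i ∈ Jx x}, M (x i.1) (y i.1) =
          ∑ w' : {i : κ // i ∈ Jx x} → p, ∏ i : {i : κ // i ∈ Jx x},
            (A ((row x).2 i) (w' i) * (if f (w' i) = y i.1 then 1 else 0)) := by
        have : ∏ i : {i : κ // i ∈ Jx x}, M (x i.1) (y i.1) =
            ∏ i : {i : κ // i ∈ Jx x}, ∑ i' : p,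
              A ((row x).2 i) i' * (if f i' = y i.1 then 1 else 0) := by
          refine Finset.prod_congr rfl fun i _ => ?_
          rw [← hM1, hw i]
        rw [this, Finset.prod_univ_sum, Fintype.piFinset_univ]
      have e2 : ∏ i ∈ (Jx x)ᶜ, M (x i) (y i) =
          if (∀ i ∈ (Jx x)ᶜ, x i = y i) then 1 else 0 := by
        have h3 : ∏ i ∈ (Jx x)ᶜ, M (x i) (y i) =
            ∏ i ∈ (Jx x)ᶜ, (if x i = y i then (1 : ℂ) else 0) := by
          refine Finset.prod_congr rfl fun i hi => ?_
          exact hM2 _ _ fun h => (Finset.mem_compl.1 hi) ((hJ x i).2 h)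
        rw [h3, Finset.prod_boole]
        congr
      have e3 : tpow κ M x y = (∏ i : {i : κ // i ∈ Jx x}, M (x i.1) (y i.1)) *
          ∏ i ∈ (Jx x)ᶜ, M (x i) (y i) := by
        rw [tpow_apply, ← Finset.prod_mul_prod_compl (Jx x),
          ← Finset.prod_coe_sort (Jx x) (fun i => M (x i) (y i))]
      rw [e3, e1, e2, Finset.sum_mul]
      refine Finset.sum_congr rfl fun w' _ => ?_
      rw [Finset.prod_mul_distrib, Finset.prod_boole, tpow_apply, mul_assoc]
      congr 1
      have key : ((∀ i ∈ (Finset.univ : Finset {i : κ // i ∈ Jx x}), f (w' i) = y i.1) ∧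
          (∀ i ∈ (Jx x)ᶜ, x i = y i)) ↔ g (row x).1 w' = y := by
        rw [funext_iff]
        constructor
        · rintro ⟨h3, h4⟩ i
          by_cases hi : i ∈ Jx x
          · have := h3 ⟨i, hi⟩ (Finset.mem_univ _)
            simp only [g, row]
            rw [dif_pos hi]
            exact this
          · simp only [g, row]
            rw [dif_neg hi]
            exact h4 i (Finset.mem_compl.2 hi)
        · intro h3
          constructor
          · intro i _
            have := h3 i.1
            simp only [g, row] at this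
            rw [dif_pos i.2] at this
            exact this
          · intro i hi
            have := h3 i
            simp only [g, row] at this
            rw [dif_neg (Finset.mem_compl.1 hi)] at this
            exact this
      by_cases hP : ∀ i ∈ (Finset.univ : Finset {i : κ // i ∈ Jx x}), f (w' i) = y i.1
      · by_cases hQ : ∀ i ∈ (Jx x)ᶜ, x i = y i
        · rw [if_pos hP, if_pos hQ, if_pos (key.1 ⟨hP, hQ⟩), one_mul]
        · rw [if_pos hP, if_neg hQ, if_neg fun h => hQ (key.2 h).2, mul_zero]
      · rw [if_neg hP, if_neg fun h => hP (key.2 h).1, zero_mul])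
  refine h1.mono (le_of_eq ?_)
  rw [Fintype.sum_sigma]
  have hs : ∀ J : Finset κ, (∑ _y : ({i : κ // i ∉ J} → {s : q // s ∉ Set.range f}), t J.card) =
      (Fintype.card q - Fintype.card p) ^ (Fintype.card κ - J.card) * t J.card := by
    intro J
    rw [Finset.sum_const, smul_eq_mul, Finset.card_univ, Fintype.card_fun]
    congr 2
    · rw [Fintype.card_subtype_compl, Set.card_range_of_injective hf]
    · rw [Fintype.card_subtype_compl, Fintype.card_coe]
  simp only [hs]
  rw [← Finset.powerset_univ, Finset.sum_powerset_apply_card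
    (fun j => (Fintype.card q - Fintype.card p) ^ (Fintype.card κ - j) * t j)]
  simp only [smul_eq_mul, Finset.card_univ, mul_assoc]

end Crest.Agent.R324
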