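import Crest.Agent.R324.Word
import Crest.Agent.R324.TPow
import Crest.Agent.R324.Layers
import Crest.Agent.R324.Cost
import Mathlib

-- ▼ part R324/Final
section

/-!
Row 324: final assembly (abstract): the cost bound of the pieces gives S0501.
-/

set_option autoImplicit false

namespace Crest.Agent.R324

open Crest.FourierCircuit

theorem savingExponent_pos : 0 < savingExponent := by
  unfold savingExponent
  apply Real.logb_pos <;> norm_num

theorem savingExponent_lt_one : savingExponent < 1 := by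
  unfold savingExponent
  rw [Real.logb_lt_iff_lt_rpow] <;> norm_num

/-- the analytic core: polylog factors are absorbed -/
theorem absorb {A c θ' θ : ℝ} (d : ℕ) (hθ' : 0 ≤ θ') (h : θ' < θ) (hA : 0 ≤ A) (hc : 0 ≤ c) :
    ∃ C : ℝ, 0 ≤ C ∧ ∀ y : ℝ, 1 ≤ y →
      (c * (Real.log y + 1) ^ d + 1) * (A * y ^ θ' + 1) ≤ C * y ^ θ := by
  set ε : ℝ := (θ - θ') / (d + 1) with hε
  have hd : (0 : ℝ) < d + 1 := by positivity
  have hε0 : 0 < ε := by
    rw [hε]; exact div_pos (by linarith) hd
  have hεd : ε * d + θ' ≤ θ := by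
    have : ε * (d + 1) = θ - θ' := by rw [hε]; field_simp
    nlinarith
  refine ⟨(c * (1 / ε + 1) ^ d + 1) * (A + 1), by positivity, fun y hy => ?_⟩
  have hy0 : 0 < y := by linarith
  have h1 : Real.log y + 1 ≤ (1 / ε + 1) * y ^ ε := by
    have h2 := Real.log_le_rpow_div hy0.le hε0
    have h3 : 1 ≤ y ^ ε := Real.one_le_rpow hy hε0.le
    calc Real.log y + 1 ≤ y ^ ε / ε + y ^ ε := add_le_add h2 h3
      _ = (1 / ε + 1) * y ^ ε := by ring
  have hl : 0 ≤ Real.log y + 1 := by
    have := Real.log_nonneg hy; linarith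
  have h4 : (Real.log y + 1) ^ d ≤ (1 / ε + 1) ^ d * y ^ (ε * d) := by
    calc (Real.log y + 1) ^ d ≤ ((1 / ε + 1) * y ^ ε) ^ d := pow_le_pow_left₀ hl h1 d
      _ = (1 / ε + 1) ^ d * y ^ (ε * d) := by
        rw [mul_pow, Real.rpow_mul hy0.le, Real.rpow_natCast]
  have h5 : 1 ≤ y ^ (ε * d) := Real.one_le_rpow hy (by positivity)
  have h6 : c * (Real.log y + 1) ^ d + 1 ≤ (c * (1 / ε + 1) ^ d + 1) * y ^ (ε * d) := by
    calc c * (Real.log y + 1) ^ d + 1 ≤ c * ((1 / ε + 1) ^ d * y ^ (ε * d)) + y ^ (ε * d) := by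
          gcongr
      _ = _ := by ring
  have h7 : 1 ≤ y ^ θ' := Real.one_le_rpow hy hθ'
  have h8 : A * y ^ θ' + 1 ≤ (A + 1) * y ^ θ' := by
    calc A * y ^ θ' + 1 ≤ A * y ^ θ' + y ^ θ' := by gcongr
      _ = _ := by ring
  calc (c * (Real.log y + 1) ^ d + 1) * (A * y ^ θ' + 1)
      ≤ ((c * (1 / ε + 1) ^ d + 1) * y ^ (ε * d)) * ((A + 1) * y ^ θ') := by gcongr
    _ = (c * (1 / ε + 1) ^ d + 1) * (A + 1) * y ^ (ε * d + θ') := by
        rw [Real.rpow_add hy0]; ring
    _ ≤ (c * (1 / ε + 1) ^ d + 1) * (A + 1) * y ^ θ := by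
        gcongr

/-- the final assembly: from the cost bound with `K` moduli and `R` rounds -/
theorem final_assembly {A θ' a b c : ℝ} (d : ℕ) (hθ' : 0 ≤ θ') (hθ : θ' < savingExponent)
    (hA : 0 ≤ A) (ha : 0 ≤ a) (hb : 1 ≤ b) (hc : 0 ≤ c)
    (h : ∀ n : ℕ, 1 ≤ n → ∃ k K R : ℕ, Cost (dftMatrix n) k ∧
      (k : ℝ) ≤ a * n * (R + 1) * (A * (K : ℝ) ^ θ' + 1) ∧
      (K : ℝ) ≤ b * (Real.log n + 1) ∧
      (R : ℝ) ≤ c * (Real.log (b * (Real.log n + 1)) + 1) ^ d) :
    ∃ C : ℝ, ∃ N₀ : ℕ, ∀ n ≥ N₀, ∃ P : LinCircuit n,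
      P.Computes (dftMatrix n) ∧
        (P.size : ℝ) ≤ C * n * Real.log n ^ savingExponent *
          Real.log (Real.log n) ^ (4 - savingExponent) := by
  set θ := savingExponent with hθdef
  have hθ0 : 0 < θ := savingExponent_pos
  have hθ1 : θ < 1 := savingExponent_lt_one
  have hb0 : 0 < b := by linarith
  obtain ⟨C, hC0, hC⟩ := absorb (A := A) (c := c) d hθ' hθ hA hc
  refine ⟨a * C * (2 * b) ^ θ, 16, fun n hn => ?_⟩
  have hn1 : 1 ≤ n := by omega
  obtain ⟨k, K, R, hk, hk1, hK, hR⟩ := h n hn1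
  obtain ⟨P, hP, hPs⟩ := exists_circuit hk
  refine ⟨P, hP, ?_⟩
  rw [hPs]
  have hnr : (16 : ℝ) ≤ n := by exact_mod_cast hn
  have hn0 : (0 : ℝ) < n := by linarith
  -- log n ≥ e
  have he : Real.exp (Real.exp 1) ≤ 16 := by
    have h1 : Real.exp 1 < 2.7182818286 := Real.exp_one_lt_d9
    have h2 : Real.exp (Real.exp 1) ≤ Real.exp (2.7182818286) := Real.exp_le_exp.2 h1.le
    have h3 : Real.exp (2.7182818286 : ℝ) ≤ 16 := by
      rw [← Real.le_log_iff_exp_le (by norm_num)]
      have : Real.log 16 = 4 * Real.log 2 := by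
        rw [show (16 : ℝ) = 2 ^ (4 : ℕ) by norm_num, Real.log_pow]; norm_num
      rw [this]
      have := Real.log_two_gt_d9
      linarith
    linarith
  have hlogn : Real.exp 1 ≤ Real.log n := by
    rw [Real.le_log_iff_exp_le hn0]; linarith
  have hlog1 : 1 ≤ Real.log n := by
    have := Real.add_one_le_exp (1 : ℝ); linarith
  have hlog0 : 0 < Real.log n := by linarith
  have hloglog : 1 ≤ Real.log (Real.log n) := by
    rw [Real.le_log_iff_exp_le hlog0]; exact hlogn
  set y : ℝ := b * (Real.log n + 1) with hy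
  have hy1 : 1 ≤ y := by nlinarith
  have hA' : A * (K : ℝ) ^ θ' + 1 ≤ A * y ^ θ' + 1 := by gcongr
  have hR1 : (R : ℝ) + 1 ≤ c * (Real.log y + 1) ^ d + 1 := by linarith
  have hR0 : 0 ≤ c * (Real.log y + 1) ^ d + 1 := le_trans (by positivity) hR1
  have han : 0 ≤ a * n := by positivity
  calc (k : ℝ) ≤ a * n * (R + 1) * (A * (K : ℝ) ^ θ' + 1) := hk1
    _ ≤ a * n * (c * (Real.log y + 1) ^ d + 1) * (A * y ^ θ' + 1) :=
        mul_le_mul (mul_le_mul_of_nonneg_left hR1 han) hA' (by positivity)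
          (mul_nonneg han hR0)
    _ = a * n * ((c * (Real.log y + 1) ^ d + 1) * (A * y ^ θ' + 1)) := by ring
    _ ≤ a * n * (C * y ^ θ) := mul_le_mul_of_nonneg_left (hC y hy1) (by positivity)
    _ ≤ a * n * (C * (2 * b * Real.log n) ^ θ) := by
        gcongr
        rw [hy]; nlinarith
    _ = a * C * (2 * b) ^ θ * n * Real.log n ^ θ * 1 := by
        rw [Real.mul_rpow (by positivity) hlog0.le]; ring
    _ ≤ a * C * (2 * b) ^ θ * n * Real.log n ^ θ * Real.log (Real.log n) ^ (4 - θ) := by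
        gcongr
        exact Real.one_le_rpow hloglog (by linarith)

end Crest.Agent.R324
end

-- ▼ part R324/DTensor
section

/-!
Row 324: cost of a tensor product of *different* layers.

`CostR A r`: `A` has cost at most the real number `r`.
`IsMonoT`, `IsTL`: monomial matrices and matrices of pairwise disjoint transvections.
`piKron A`: the tensor product of a family of matrices.

Main result `piKron_layer`.
-/

set_option autoImplicit false
set_option linter.unusedSectionVars false

namespace Crest.Agent.R324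

open Matrix
open scoped Kronecker

/-! ### Real-valued cost bounds -/

section CostR

variable {ι κ ρ α : Type*} [Fintype ι] [DecidableEq ι] [Fintype κ] [DecidableEq κ]
  [Fintype ρ] [DecidableEq ρ] [Fintype α] [DecidableEq α]
variable {ι' κ' : Type*} [Fintype ι'] [DecidableEq ι'] [Fintype κ'] [DecidableEq κ']

/-- `A` can be computed with at most `r` gates, `r` real -/
def CostR (A : Matrix κ ι ℂ) (r : ℝ) : Prop := ∃ k : ℕ, (k : ℝ) ≤ r ∧ Cost A k


theorem Cost.costR_of_le {A : Matrix κ ι ℂ} {k : ℕ} {r : ℝ} (h : Cost A k) (hr : (k : ℝ) ≤ r) :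
    CostR A r := ⟨k, hr, h⟩

theorem CostR.mono {A : Matrix κ ι ℂ} {r s : ℝ} (h : CostR A r) (hrs : r ≤ s) : CostR A s := by
  obtain ⟨k, hk, h⟩ := h
  exact ⟨k, hk.trans hrs, h⟩

theorem CostR.mul {A : Matrix κ ι ℂ} {B : Matrix ι ρ ℂ} {r s : ℝ} (hA : CostR A r)
    (hB : CostR B s) : CostR (A * B) (r + s) := by
  obtain ⟨k, hk, hA⟩ := hA
  obtain ⟨l, hl, hB⟩ := hB
  exact ⟨k + l, by push_cast; linarith, hA.mul hB⟩

theorem CostR.reindex {A : Matrix κ ι ℂ} {r : ℝ} (h : CostR A r) (e : κ' ≃ κ) (f : ι' ≃ ι) :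
    CostR (A.submatrix e f) r := by
  obtain ⟨k, hk, h⟩ := h
  exact ⟨k, hk, h.reindex e f⟩

end CostR

/-! ### Layers -/

section Layers

variable {ι : Type*} [DecidableEq ι]

/-- at most one nonzero entry in each row -/
def IsMonoT (A : Matrix ι ι ℂ) : Prop :=
  ∃ (s : ι → ι) (d : ι → ℂ), ∀ i j, A i j = if j = s i then d i else 0

/-- pairwise disjoint transvections with coefficient `1` -/
def IsLL (A : Matrix ι ι ℂ) : Prop :=
  ∃ (p : ι → ι) (c : ι → Prop) (_ : DecidablePred c), (∀ i, p (p i) = i) ∧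
    (∀ i, c i → ¬ c (p i)) ∧
    ∀ i j, A i j = (if j = i then 1 else 0) + (if c i ∧ j = p i then 1 else 0)

/-- pairwise disjoint transvections with arbitrary coefficients -/
def IsTL (A : Matrix ι ι ℂ) : Prop :=
  ∃ (p : ι → ι) (c : ι → ℂ), (∀ i, p (p i) = i) ∧ (∀ i, c i = 0 ∨ c (p i) = 0) ∧
    ∀ i j, A i j = (if j = i then 1 else 0) + (if j = p i then c i else 0)

theorem IsMonoT.diagonal (d : ι → ℂ) : IsMonoT (Matrix.diagonal d) :=
  ⟨id, d, fun i j => by simp [Matrix.diagonal_apply, eq_comm]⟩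

theorem IsMonoT.one : IsMonoT (1 : Matrix ι ι ℂ) :=
  ⟨id, fun _ => 1, fun i j => by simp [Matrix.one_apply, eq_comm]⟩

/-- a layer of transvections is a layer of unit transvections up to diagonal matrices -/
theorem IsTL.exists_isLL [Fintype ι] {A : Matrix ι ι ℂ} (h : IsTL A) :
    ∃ (d e : ι → ℂ) (B : Matrix ι ι ℂ), IsLL B ∧ A = Matrix.diagonal d * B * Matrix.diagonal e := by
  classical
  obtain ⟨p, c, hp, hc, hA⟩ := h
  let d : ι → ℂ := fun i => if c i = 0 then 1 else c i
  refine ⟨d, fun i => (d i)⁻¹, Matrix.of fun i j =>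
    (if j = i then 1 else 0) + (if c i ≠ 0 ∧ j = p i then 1 else 0),
    ⟨p, fun i => c i ≠ 0, inferInstance, hp, ?_, fun i j => rfl⟩, ?_⟩
  · intro i hi
    rcases hc i with h | h
    · exact absurd h hi
    · exact not_not.2 h
  · ext i j
    rw [hA, Matrix.mul_diagonal, Matrix.diagonal_mul, Matrix.of_apply]
    have hd : ∀ i, d i ≠ 0 := by
      intro i
      by_cases h : c i = 0
      · simp [d, h]
      · simp [d, h]
    by_cases hj : j = i
    · subst hj
      rw [if_pos rfl]
      by_cases hpj : j = p j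
      · have : c j = 0 := by
          rcases hc j with h | h
          · exact h
          · rwa [← hpj] at h
        simp [this, hd]
      · simp [hpj, hd]
    · rw [if_neg hj]
      by_cases hpj : j = p i
      · subst hpj
        by_cases hci : c i = 0
        · simp [hci]
        · have h2 : c (p i) = 0 := (hc i).resolve_left hci
          simp [hci, d, h2]
      · simp [hpj]

end Layers

/-! ### one unit layer in the first factor -/

section OneLayer

/-- `[1]` or `[[1,0],[1,1]]` -/
def zetaFin (w : ℕ) : Matrix (Fin w) (Fin w) ℂ := Matrix.of fun i j => if j ≤ i then 1 else 0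

variable {ι κ : Type*} [Fintype ι] [DecidableEq ι] [Fintype κ] [DecidableEq κ]

theorem card_split (p : ι → ι) (c : ι → Prop) [DecidablePred c] (hp : ∀ i, p (p i) = i)
    (hc : ∀ i, c i → ¬ c (p i)) :
    2 * Fintype.card {i // c i} + Fintype.card {i // ¬ c i ∧ ¬ c (p i)} = Fintype.card ι := by
  have h1 : Fintype.card {i // c i} = Fintype.card {i // c (p i)} := by
    refine Fintype.card_congr ⟨fun i => ⟨p i.1, by rw [hp]; exact i.2⟩,
      fun i => ⟨p i.1, i.2⟩, fun i => by simp [hp], fun i => by simp [hp]⟩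
  have h2 : Fintype.card ι = (Finset.univ.filter fun i => c i).card +
      (Finset.univ.filter fun i => ¬ c i).card := by
    rw [Finset.card_filter_add_card_filter_not, Finset.card_univ]
  have h3 : (Finset.univ.filter fun i => ¬ c i).card =
      (Finset.univ.filter fun i => c (p i)).card +
        (Finset.univ.filter fun i => ¬ c i ∧ ¬ c (p i)).card := by
    rw [← Finset.card_union_of_disjoint]
    · congr 1
      ext i
      simp only [Finset.mem_filter, Finset.mem_univ, true_and, Finset.mem_union]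
      constructor
      · intro h
        by_cases h' : c (p i)
        · exact Or.inl h'
        · exact Or.inr ⟨h, h'⟩
      · rintro (h | h)
        · intro h'
          exact hc i h' h
        · exact h.1
    · rw [Finset.disjoint_filter]
      rintro i _ h ⟨_, h'⟩
      exact h' h
  rw [Fintype.card_subtype, Fintype.card_subtype] at h1
  rw [Fintype.card_subtype, Fintype.card_subtype]
  omega

/-- cost of `A ⊗ X` for a unit layer `A` -/
theorem Cost.isLL_kronecker {A : Matrix ι ι ℂ} (hA : IsLL A) {X : Matrix κ κ ℂ} {k k2 : ℕ}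
    (hX : Cost X k) (hX2 : Cost (zetaFin 2 ⊗ₖ X) k2) :
    ∃ u v : ℕ, 2 * u + v = Fintype.card ι ∧ Cost (A ⊗ₖ X) (u * k2 + v * k) := by
  classical
  obtain ⟨p, c, _, hp, hc, hA⟩ := hA
  refine ⟨Fintype.card {i // c i}, Fintype.card {i // ¬ c i ∧ ¬ c (p i)},
    card_split p c hp hc, ?_⟩
  let β := {i // c i} ⊕ {i // ¬ c i ∧ ¬ c (p i)}
  let w : β → ℕ := Sum.elim (fun _ => 2) (fun _ => 1)
  let g : ∀ b : β, Fin (w b) → ι := fun b =>
    match b with
    | Sum.inl i => fun e => if e.val = 0 then p i.1 else i.1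
    | Sum.inr i => fun _ => i.1
  have h1X : Cost (zetaFin 1 ⊗ₖ X) k := by
    have := (hX.one_kronecker (α := Fin 1))
    simp only [Fintype.card_fin, one_mul] at this
    convert this using 2
    ext i j
    have hi := Subsingleton.elim i 0
    have hj := Subsingleton.elim j 0
    subst hi; subst hj
    simp [zetaFin]
  have key := Cost.blocks (β := β) (κb := fun b => Fin (w b) × κ)
    (ιb := fun b => Fin (w b) × κ) (ι := ι × κ) (κ := ι × κ)
    (fun b => zetaFin (w b) ⊗ₖ X) (Sum.elim (fun _ => k2) (fun _ => k)) (by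
      rintro (i | i)
      · exact hX2
      · exact h1X)
    (fun b e => (g b e.1, e.2)) (A := A ⊗ₖ X)
    (fun x => if h : c x.1 then ⟨Sum.inl ⟨x.1, h⟩, ((1 : Fin 2), x.2)⟩
      else if h' : c (p x.1) then ⟨Sum.inl ⟨p x.1, h'⟩, ((0 : Fin 2), x.2)⟩
      else ⟨Sum.inr ⟨x.1, h, h'⟩, ((0 : Fin 1), x.2)⟩) (by
      rintro ⟨i, a⟩ ⟨j, b⟩
      rw [Matrix.kronecker_apply, hA]
      by_cases h : c i
      · rw [dif_pos h]
        simp only [Fintype.sum_prod_type, zetaFin, Prod.mk.injEq]
        change _ = ∑ x : Fin 2, ∑ x1 : κ, (if x ≤ 1 then (1 : ℂ) else 0) * X a x1 *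
          (if (if x.val = 0 then p i else i) = j ∧ x1 = b then 1 else 0)
        rw [Fin.sum_univ_two, Finset.sum_eq_single b, Finset.sum_eq_single b]
        · simp only [h, true_and, Fin.isValue, Fin.zero_le, if_true, Fin.val_zero,
            Fin.val_one, one_ne_zero, if_false, and_true, le_refl, one_mul, eq_comm (a := j)]
          ring
        · intro b' _ hb'; simp [hb']
        · simp
        · intro b' _ hb'; simp [hb']
        · simp
      · rw [dif_neg h]
        by_cases h' : c (p i)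
        · rw [dif_pos h']
          simp only [Fintype.sum_prod_type, zetaFin, Prod.mk.injEq]
          change _ = ∑ x : Fin 2, ∑ x1 : κ, (if x ≤ 0 then (1 : ℂ) else 0) * X a x1 *
            (if (if x.val = 0 then p (p i) else p i) = j ∧ x1 = b then 1 else 0)
          rw [Fin.sum_univ_two, Finset.sum_eq_single b, Finset.sum_eq_single b]
          · simp [h, hp, eq_comm]
          · intro b' _ hb'; simp [hb']
          · simp
          · intro b' _ hb'; simp [hb']
          · simp
        · rw [dif_neg h']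
          simp only [Fintype.sum_prod_type, zetaFin, Prod.mk.injEq]
          change _ = ∑ x : Fin 1, ∑ x1 : κ, (if x ≤ 0 then (1 : ℂ) else 0) * X a x1 *
            (if i = j ∧ x1 = b then 1 else 0)
          rw [Fin.sum_univ_one, Finset.sum_eq_single b]
          · simp [h, eq_comm]
          · intro b' _ hb'; simp [hb']
          · simp)
  refine key.mono (le_of_eq ?_)
  rw [Fintype.sum_sum_type]
  simp

end OneLayer

/-! ### tensor products of families -/

section PiKron

variable {K : Type*} [Fintype K]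

/-- the tensor product of a family of square matrices -/
def piKron {ι : K → Type*} (A : ∀ k, Matrix (ι k) (ι k) ℂ) :
    Matrix (∀ k, ι k) (∀ k, ι k) ℂ :=
  Matrix.of fun x y => ∏ k, A k (x k) (y k)

@[simp] theorem piKron_apply {ι : K → Type*} (A : ∀ k, Matrix (ι k) (ι k) ℂ) (x y : ∀ k, ι k) :
    piKron A x y = ∏ k, A k (x k) (y k) := rfl

theorem piKron_mul [DecidableEq K] {ι : K → Type*} [∀ k, Fintype (ι k)]
    (A B : ∀ k, Matrix (ι k) (ι k) ℂ) :
    piKron (fun k => A k * B k) = piKron A * piKron B := by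
  ext x y
  simp only [piKron_apply, Matrix.mul_apply]
  rw [Finset.prod_univ_sum, Fintype.piFinset_univ]
  exact Finset.sum_congr rfl fun z _ => Finset.prod_mul_distrib

theorem piKron_isMonoT {ι : K → Type*} [∀ k, DecidableEq (ι k)]
    {A : ∀ k, Matrix (ι k) (ι k) ℂ} (hA : ∀ k, IsMonoT (A k)) : IsMonoT (piKron A) := by
  choose s d hA using hA
  refine ⟨fun x k => s k (x k), fun x => ∏ k, d k (x k), fun x y => ?_⟩
  simp only [piKron_apply, hA]
  split_ifs with h
  · exact Finset.prod_congr rfl fun k _ => by rw [if_pos (congrFun h k)]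
  · rw [funext_iff, not_forall] at h
    obtain ⟨k, hk⟩ := h
    exact Finset.prod_eq_zero (Finset.mem_univ k) (if_neg hk)

theorem Cost.isMonoT {ι : Type*} [Fintype ι] [DecidableEq ι] {A : Matrix ι ι ℂ} (hA : IsMonoT A) :
    Cost A (Fintype.card ι) := by
  obtain ⟨s, d, hA⟩ := hA
  have := Cost.monomial s d
  convert this using 1
  ext i j
  rw [hA, Matrix.of_apply]
  simp [eq_comm]

end PiKron

section Rec

/-- `ι 0 × (rest) ≃ all` -/
theorem piKron_cons {n : ℕ} {ι : Fin (n + 1) → Type*} (A : ∀ k, Matrix (ι k) (ι k) ℂ)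
    (x y : ∀ k, ι k) :
    piKron A x y = A 0 (x 0) (y 0) *
      piKron (fun k : Fin n => A k.succ) (fun k => x k.succ) (fun k => y k.succ) := by
  simp only [piKron_apply]
  rw [Fin.prod_univ_succ]

/-- a family of unit layers together with `m` further factors `[[1,0],[1,1]]` -/
theorem CostR.piKron_isLL_aux (τ : ℕ → ℝ) (hmono : Monotone τ) (h0 : ∀ k, 0 ≤ τ k)
    (hτ : ∀ m, CostR (tpow (Fin m) (zetaFin 2)) (2 ^ m * τ m)) (n : ℕ) :
    ∀ (m : ℕ) (ι : Fin n → Type) [∀ k, Fintype (ι k)] [∀ k, DecidableEq (ι k)]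
      (A : ∀ k, Matrix (ι k) (ι k) ℂ), (∀ k, IsLL (A k)) →
      CostR (piKron A ⊗ₖ tpow (Fin m) (zetaFin 2))
        ((∏ k, (Fintype.card (ι k) : ℝ)) * 2 ^ m * τ (n + m)) := by
  induction n with
  | zero =>
    intro m ι _ _ A _
    have h := (hτ m).reindex (Equiv.uniqueProd (Fin m → Fin 2) (∀ k, ι k))
      (Equiv.uniqueProd (Fin m → Fin 2) (∀ k, ι k))
    have h1 : (tpow (Fin m) (zetaFin 2)).submatrix (Equiv.uniqueProd (Fin m → Fin 2) (∀ k, ι k))
        (Equiv.uniqueProd (Fin m → Fin 2) (∀ k, ι k)) = piKron A ⊗ₖ tpow (Fin m) (zetaFin 2) := by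
      ext ⟨a, x⟩ ⟨b, y⟩
      simp
    rw [h1] at h
    simpa using h
  | succ n ih =>
    intro m ι _ _ A hA
    let N' : ℝ := ∏ k : Fin n, (Fintype.card (ι k.succ) : ℝ)
    have hN' : 0 ≤ N' := Finset.prod_nonneg fun _ _ => Nat.cast_nonneg _
    let X := piKron (fun k : Fin n => A k.succ) ⊗ₖ tpow (Fin m) (zetaFin 2)
    obtain ⟨k, hk, hX⟩ := ih m (fun k => ι k.succ) (fun k => A k.succ) (fun k => hA k.succ)
    obtain ⟨k2, hk2, hX2⟩ :=
      ih (m + 1) (fun k => ι k.succ) (fun k => A k.succ) (fun k => hA k.succ)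
    let e2 : Fin 2 × ((∀ k : Fin n, ι k.succ) × (Fin m → Fin 2)) ≃
        (∀ k : Fin n, ι k.succ) × (Fin (m + 1) → Fin 2) :=
      { toFun := fun z => (z.2.1, Fin.cons z.1 z.2.2)
        invFun := fun z => (z.2 0, (z.1, fun i => z.2 i.succ))
        left_inv := fun z => by simp
        right_inv := fun z => by
          ext1
          · rfl
          · exact Fin.cons_self_tail z.2 }
    have hX2' : Cost (zetaFin 2 ⊗ₖ X) k2 := by
      have := hX2.reindex e2 e2
      convert this using 1
      ext ⟨a, p, x⟩ ⟨b, q, y⟩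
      simp only [X, e2, Matrix.kronecker_apply, Matrix.submatrix_apply, Equiv.coe_fn_mk,
        tpow_apply, Fin.prod_univ_succ, Fin.cons_zero, Fin.cons_succ]
      ring
    obtain ⟨u, v, huv, hC⟩ := Cost.isLL_kronecker (hA 0) hX hX2'
    let e : (∀ k, ι k) × (Fin m → Fin 2) ≃
        ι 0 × ((∀ k : Fin n, ι k.succ) × (Fin m → Fin 2)) :=
      { toFun := fun z => (z.1 0, (fun k => z.1 k.succ, z.2))
        invFun := fun z => (Fin.cons z.1 z.2.1, z.2.2)
        left_inv := fun z => by
          ext1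
          · exact Fin.cons_self_tail z.1
          · rfl
        right_inv := fun z => by simp }
    have h3 := hC.reindex e e
    have h4 : (A 0 ⊗ₖ X).submatrix e e = piKron A ⊗ₖ tpow (Fin m) (zetaFin 2) := by
      ext ⟨x, s⟩ ⟨y, t⟩
      simp only [X, e, Matrix.kronecker_apply, Matrix.submatrix_apply, Equiv.coe_fn_mk]
      rw [piKron_cons A x y]
      ring
    rw [h4] at h3
    refine ⟨_, ?_, h3⟩
    push_cast
    have e1 : (k : ℝ) ≤ N' * 2 ^ m * τ (n + 1 + m) :=
      hk.trans (mul_le_mul_of_nonneg_left (hmono (by omega)) (by positivity))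
    have e2 : (k2 : ℝ) ≤ 2 * (N' * 2 ^ m * τ (n + 1 + m)) := by
      refine hk2.trans (le_of_eq ?_)
      have : n + (m + 1) = n + 1 + m := by omega
      rw [this, pow_succ]
      ring
    have e3 : (2 * u + v : ℝ) = Fintype.card (ι 0) := by exact_mod_cast huv
    calc (u : ℝ) * k2 + v * k
        ≤ u * (2 * (N' * 2 ^ m * τ (n + 1 + m))) + v * (N' * 2 ^ m * τ (n + 1 + m)) := by
          gcongr
      _ = (2 * u + v) * (N' * 2 ^ m * τ (n + 1 + m)) := by ring
      _ = (∏ k, (Fintype.card (ι k) : ℝ)) * 2 ^ m * τ (n + 1 + m) := by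
          rw [e3, Fin.prod_univ_succ]
          ring

theorem CostR.piKron_isLL (τ : ℕ → ℝ) (hmono : Monotone τ) (h0 : ∀ k, 0 ≤ τ k)
    (hτ : ∀ m, CostR (tpow (Fin m) (zetaFin 2)) (2 ^ m * τ m)) {n : ℕ}
    (ι : Fin n → Type) [∀ k, Fintype (ι k)] [∀ k, DecidableEq (ι k)]
    (A : ∀ k, Matrix (ι k) (ι k) ℂ) (hA : ∀ k, IsLL (A k)) :
    CostR (piKron A) ((∏ k, (Fintype.card (ι k) : ℝ)) * τ n) := by
  have h := CostR.piKron_isLL_aux τ hmono h0 hτ n 0 ι A hA
  have h1 := h.reindex (Equiv.prodUnique (∀ k, ι k) (Fin 0 → Fin 2)).symm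
    (Equiv.prodUnique (∀ k, ι k) (Fin 0 → Fin 2)).symm
  have h2 : (piKron A ⊗ₖ tpow (Fin 0) (zetaFin 2)).submatrix
      (Equiv.prodUnique (∀ k, ι k) (Fin 0 → Fin 2)).symm
      (Equiv.prodUnique (∀ k, ι k) (Fin 0 → Fin 2)).symm = piKron A := by
    ext x y
    simp
  rw [h2] at h1
  simpa using h1

/-- **one layer**: the tensor product of `n` matrices of disjoint transvections -/
theorem CostR.piKron_isTL (τ : ℕ → ℝ) (hmono : Monotone τ) (h0 : ∀ k, 0 ≤ τ k)
    (hτ : ∀ m, CostR (tpow (Fin m) (zetaFin 2)) (2 ^ m * τ m)) {n : ℕ}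
    (ι : Fin n → Type) [∀ k, Fintype (ι k)] [∀ k, DecidableEq (ι k)]
    (A : ∀ k, Matrix (ι k) (ι k) ℂ) (hA : ∀ k, IsTL (A k)) :
    CostR (piKron A) ((∏ k, (Fintype.card (ι k) : ℝ)) * (τ n + 2)) := by
  choose d e B hB hA using fun k => (hA k).exists_isLL
  have h1 : piKron A = piKron (fun k => Matrix.diagonal (d k)) * piKron B *
      piKron (fun k => Matrix.diagonal (e k)) := by
    rw [← piKron_mul, ← piKron_mul]
    congr 1
    funext k
    exact hA k
  rw [h1]
  have h2 : ∀ d : ∀ k, ι k → ℂ, CostR (piKron (fun k => Matrix.diagonal (d k)))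
      (∏ k, (Fintype.card (ι k) : ℝ)) := by
    intro d
    have := Cost.isMonoT (piKron_isMonoT (fun k => IsMonoT.diagonal (d k)))
    rw [Fintype.card_pi] at this
    exact this.costR_of_le (by push_cast; exact le_rfl)
  refine (((h2 d).mul (CostR.piKron_isLL τ hmono h0 hτ ι B hB)).mul (h2 e)).mono (le_of_eq ?_)
  ring

end Rec

end Crest.Agent.R324
end

-- ▼ part R324/DRounds
section

/-!
Row 324: the tensor product of `n` in-place layered words (`LW d`) on types of cardinality `N k`
costs at most `d * ∏ N k * (τ n + 4)`.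
-/

set_option autoImplicit false
set_option linter.unusedSectionVars false

namespace Crest.Agent.R324

open Matrix
open scoped Kronecker

section

variable {q : Type*} [Fintype q] [DecidableEq q]

theorem IsMono.isMonoT {A : Matrix q q ℂ} (h : IsMono A) : IsMonoT A := by
  obtain ⟨e, d, rfl⟩ := h
  exact ⟨e, d, fun i j => by simp [monoMat, eq_comm]⟩

theorem IsMatch.isTL {A : Matrix q q ℂ} (h : IsMatch A) : IsTL A := by
  obtain ⟨σ, c, h1, h2, rfl⟩ := h
  refine ⟨σ, c, h1, h2, fun i j => ?_⟩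
  simp only [matchMat, Matrix.of_apply]
  by_cases hij : i = j
  · subst hij
    by_cases hs : i = σ i
    · have hc : c i = 0 := by
        rcases h2 i with h | h
        · exact h
        · rwa [← hs] at h
      simp [hc]
    · simp [hs]
  · have hji : ¬ j = i := fun h => hij h.symm
    rw [if_neg hij, if_neg hji, zero_add]
    by_cases hs : σ i = j
    · rw [if_pos hs, if_pos hs.symm]
    · rw [if_neg hs, if_neg (fun h => hs h.symm)]

end

/-- **the tensor lemma**: different words of the same length -/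
theorem CostR.piKron_LW (τ : ℕ → ℝ) (hmono : Monotone τ) (h0 : ∀ k, 0 ≤ τ k)
    (hτ : ∀ m, CostR (tpow (Fin m) (zetaFin 2)) (2 ^ m * τ m)) {n : ℕ}
    (ι : Fin n → Type) [∀ k, Fintype (ι k)] [∀ k, DecidableEq (ι k)] (d : ℕ) :
    ∀ (A : ∀ k, Matrix (ι k) (ι k) ℂ), (∀ k, LW d (A k)) →
    CostR (piKron A) (d * ((∏ k, (Fintype.card (ι k) : ℝ)) * (τ n + 4))) := by
  have hone : piKron (fun k => (1 : Matrix (ι k) (ι k) ℂ)) = 1 := by
    ext x y
    simp only [piKron_apply, Matrix.one_apply]
    rw [Finset.prod_boole]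
    simp [funext_iff]
  have hmo : ∀ M : ∀ k, Matrix (ι k) (ι k) ℂ, (∀ k, IsMono (M k)) →
      CostR (piKron M) (∏ k, (Fintype.card (ι k) : ℝ)) := by
    intro M hM
    have := Cost.isMonoT (piKron_isMonoT (fun k => (hM k).isMonoT))
    rw [Fintype.card_pi] at this
    exact this.costR_of_le (by push_cast; exact le_rfl)
  induction d with
  | zero =>
    intro A hA
    have h1 : A = fun k => 1 := funext fun k => (hA k).of_zero
    rw [h1, hone]
    exact Cost.one.costR_of_le (by simp)
  | succ d ih =>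
    intro A hA
    have h1 : ∀ k, ∃ (M L M' A' : Matrix (ι k) (ι k) ℂ), IsMono M ∧ IsMatch L ∧ IsMono M' ∧
        LW d A' ∧ A k = M * L * M' * A' := by
      intro k
      have := hA k
      generalize A k = B at this
      cases this with
      | step hB hA' =>
        obtain ⟨M, L, M', hM, hL, hM', rfl⟩ := hB
        exact ⟨M, L, M', _, hM, hL, hM', hA', rfl⟩
    choose M L M' A' hM hL hM' hA' hE using h1
    have h2 : piKron A = piKron M * piKron L * piKron M' * piKron A' := by
      rw [← piKron_mul, ← piKron_mul, ← piKron_mul]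
      congr 1
      funext k
      exact hE k
    rw [h2]
    refine ((((hmo M hM).mul (CostR.piKron_isTL τ hmono h0 hτ ι L (fun k => (hL k).isTL))).mul
      (hmo M' hM')).mul (ih A' hA')).mono (le_of_eq ?_)
    push_cast
    ring

end Crest.Agent.R324
end

-- ▼ part R324/Bluestein
section

/-!
Row 324: Bluestein's reduction. The DFT of any order `n` costs at most two Fourier transforms of
any finite abelian group `A` (with a perfect pairing `e`) having an element of order `≥ 2n-1`.
-/

set_option autoImplicit false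
set_option linter.unusedSectionVars false

namespace Crest.Agent.R324

open Matrix Crest.FourierCircuit

variable {ι κ : Type*} [Fintype ι] [DecidableEq ι] [Fintype κ] [DecidableEq κ]
variable {ι' κ' : Type*} [Fintype ι'] [DecidableEq ι'] [Fintype κ'] [DecidableEq κ']

/-- setting some inputs to zero is free -/
theorem Cost.restrict {A : Matrix κ ι ℂ} {k : ℕ} (h : Cost A k) (f : ι' → ι)
    (hf : Function.Injective f) : Cost (A.submatrix id f) k := by
  have h1 := Reach.map (LinearMap.funLeft ℂ ℂ f) h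
  have h2 : (LinearMap.funLeft ℂ ℂ f) '' (coords ι) ⊆ insert 0 (coords ι') := by
    rintro _ ⟨_, ⟨i, rfl⟩, rfl⟩
    by_cases hi : ∃ i', f i' = i
    · obtain ⟨i', rfl⟩ := hi
      refine Or.inr ⟨i', ?_⟩
      ext x
      simp only [LinearMap.funLeft_apply, Pi.single_apply]
      by_cases hx : x = i'
      · simp [hx]
      · rw [if_neg hx, if_neg (fun h => hx (hf h))]
    · left
      ext x
      simp only [LinearMap.funLeft_apply, Pi.single_apply, Pi.zero_apply]
      rw [if_neg]
      exact fun h => hi ⟨x, h⟩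
  have h3 : Reach (coords ι') 0 (insert (0 : ι' → ℂ) (coords ι')) := .refl (le_refl _)
  have h4 := h3.trans' (h1.mono_left h2)
  rw [Nat.zero_add] at h4
  refine h4.mono_right ?_
  rintro _ ⟨j, rfl⟩
  exact ⟨_, ⟨j, rfl⟩, rfl⟩

theorem Cost.mul_diagonal {A : Matrix κ ι ℂ} {k : ℕ} (h : Cost A k) (d : ι → ℂ) :
    Cost (A * Matrix.diagonal d) (k + Fintype.card ι) :=
  h.mul (Cost.diagonal d)

section Group

variable {A : Type*} [AddCommGroup A] [Fintype A] [DecidableEq A]

/-- a symmetric perfect pairing of a finite abelian group with itself -/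
structure IsPairing (e : A → A → ℂ) : Prop where
  symm : ∀ a b, e a b = e b a
  add : ∀ a b c, e (a + b) c = e a c * e b c
  orth : ∀ a, ∑ b, e a b = if a = 0 then (Fintype.card A : ℂ) else 0

theorem IsPairing.add_right {e : A → A → ℂ} (he : IsPairing e) (a b c : A) :
    e a (b + c) = e a b * e a c := by
  rw [he.symm, he.add, he.symm b, he.symm c]

theorem card_ne_zero' : (Fintype.card A : ℂ) ≠ 0 := by
  have : 0 < Fintype.card A := Fintype.card_pos_iff.2 ⟨0⟩
  exact_mod_cast this.ne'

/-- a group matrix `c (a + b)` costs two Fourier transforms -/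
theorem Cost.hankel {e : A → A → ℂ} (he : IsPairing e) (c : A → ℂ) {k : ℕ}
    (hF : Cost (Matrix.of e) k) :
    Cost (Matrix.of fun a b : A => c (a + b)) (2 * k + Fintype.card A) := by
  have hA : (Fintype.card A : ℂ) ≠ 0 := card_ne_zero'
  let ch : A → ℂ := fun χ => (∑ d, c d * e χ (-d)) / Fintype.card A
  have h1 : Cost (Matrix.of e * (Matrix.diagonal ch * Matrix.of e)) (k + (k + Fintype.card A)) :=
    hF.mul (hF.diagonal_mul ch)
  have h2 : Matrix.of e * (Matrix.diagonal ch * Matrix.of e) =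
      Matrix.of fun a b : A => c (a + b) := by
    ext a b
    rw [Matrix.mul_apply]
    simp only [Matrix.diagonal_mul, Matrix.of_apply]
    have h3 : ∀ χ, e a χ * (ch χ * e χ b) =
        ∑ d, c d / Fintype.card A * e (a + b - d) χ := by
      intro χ
      simp only [ch]
      rw [div_mul_eq_mul_div, Finset.sum_mul, mul_div_assoc', Finset.mul_sum, Finset.sum_div]
      refine Finset.sum_congr rfl fun d _ => ?_
      rw [sub_eq_add_neg, he.add, he.add, he.symm χ (-d), he.symm χ b]
      ring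
    rw [Finset.sum_congr rfl fun χ _ => h3 χ, Finset.sum_comm]
    have h4 : ∀ d, ∑ χ, c d / Fintype.card A * e (a + b - d) χ =
        if d = a + b then c d else 0 := by
      intro d
      rw [← Finset.mul_sum, he.orth]
      by_cases hd : d = a + b
      · rw [if_pos (by rw [hd, sub_self]), if_pos hd]
        field_simp
      · rw [if_neg (fun h => hd (sub_eq_zero.1 h).symm), if_neg hd, mul_zero]
    rw [Finset.sum_congr rfl fun d _ => h4 d]
    simp
  rw [h2] at h1
  exact h1.mono (by omega)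

/-- a group matrix `c (a - b)` costs two Fourier transforms -/
theorem Cost.circulant {e : A → A → ℂ} (he : IsPairing e) (c : A → ℂ) {k : ℕ}
    (hF : Cost (Matrix.of e) k) :
    Cost (Matrix.of fun a b : A => c (a - b)) (2 * k + Fintype.card A) := by
  have h := (Cost.hankel he c hF).cols_equiv (Equiv.neg A)
  convert h using 1
  ext a b
  simp [sub_eq_add_neg]

/-- a Toeplitz matrix of size `n` costs two Fourier transforms of any finite abelian group
with an element of order at least `2n - 1` -/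
theorem Cost.toeplitz {e : A → A → ℂ} (he : IsPairing e) {n : ℕ} (g : A)
    (hg : 2 * n ≤ addOrderOf g + 1) (c : ℤ → ℂ) {k : ℕ} (hF : Cost (Matrix.of e) k) :
    Cost (Matrix.of fun i j : Fin n => c ((i : ℤ) - (j : ℤ))) (2 * k + Fintype.card A) := by
  classical
  -- `cc x = c d` if `x = d • g` with `|d| < n`
  let cc : A → ℂ := fun x => if h : ∃ d : ℤ, |d| < n ∧ d • g = x then c h.choose else 0
  have hcc : ∀ d : ℤ, |d| < n → cc (d • g) = c d := by
    intro d hd
    have h : ∃ d' : ℤ, |d'| < n ∧ d' • g = d • g := ⟨d, hd, rfl⟩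
    simp only [cc]
    rw [dif_pos h]
    congr 1
    obtain ⟨h1, h2⟩ := h.choose_spec
    generalize h.choose = d' at h1 h2
    have h3 : ((d' - d) : ℤ) • g = 0 := by rw [sub_zsmul, h2, ← sub_eq_add_neg, sub_self]
    have h4 : (addOrderOf g : ℤ) ∣ d' - d := addOrderOf_dvd_iff_zsmul_eq_zero.2 h3
    have h5 : |d' - d| < addOrderOf g := by
      have := abs_sub d' d
      have h6 : |d' - d| ≤ |d'| + |d| := abs_sub _ _
      have : ((2 * n : ℕ) : ℤ) ≤ ((addOrderOf g + 1 : ℕ) : ℤ) := by exact_mod_cast hg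
      push_cast at this
      omega
    have h6 := Int.eq_zero_of_abs_lt_dvd h4 h5
    omega
  have h := (Cost.circulant he cc hF).rows (fun i : Fin n => ((i : ℕ) : ℤ) • g)
  have hinj : Function.Injective (fun i : Fin n => (((i : ℕ) : ℤ) • g : A)) := by
    intro i j hij
    have h3 : (((i : ℕ) : ℤ) - ((j : ℕ) : ℤ)) • g = 0 := by
      rw [sub_zsmul, ← sub_eq_add_neg]
      exact sub_eq_zero.2 hij
    have h4 : (addOrderOf g : ℤ) ∣ ((i : ℕ) : ℤ) - ((j : ℕ) : ℤ) :=
      addOrderOf_dvd_iff_zsmul_eq_zero.2 h3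
    have h5 : |((i : ℕ) : ℤ) - ((j : ℕ) : ℤ)| < addOrderOf g := by
      have hi := i.2
      have hj := j.2
      rw [abs_lt]
      omega
    have h6 := Int.eq_zero_of_abs_lt_dvd h4 h5
    exact Fin.ext (by omega)
  have h' := h.restrict (fun i : Fin n => (((i : ℕ) : ℤ) • g : A)) hinj
  convert h' using 1
  ext i j
  simp only [Matrix.submatrix_apply, Matrix.of_apply, id]
  rw [sub_eq_add_neg (((i : ℕ) : ℤ) • g), ← sub_zsmul, hcc]
  have hi := i.2
  have hj := j.2
  rw [abs_lt]
  omega

/-- **Bluestein**: the DFT of order `n` from two Fourier transforms of `A`. -/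
theorem Cost.bluestein {e : A → A → ℂ} (he : IsPairing e) {n : ℕ} (g : A)
    (hg : 2 * n ≤ addOrderOf g + 1) {k : ℕ} (hF : Cost (Matrix.of e) k) :
    Cost (dftMatrix n) (2 * k + Fintype.card A + 2 * n) := by
  let w : ℂ := Complex.exp (Real.pi * Complex.I / n)
  have hw0 : w ≠ 0 := Complex.exp_ne_zero _
  have hw : w ^ 2 = Complex.exp (2 * Real.pi * Complex.I / n) := by
    rw [← Complex.exp_nat_mul]
    congr 1
    push_cast
    ring
  have h1 := Cost.toeplitz he (n := n) g hg (fun d => w ^ (-(d ^ 2))) hF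
  have h2 := (h1.diagonal_mul (fun j : Fin n => w ^ ((j : ℕ) ^ 2))).mul_diagonal
    (fun j : Fin n => w ^ ((j : ℕ) ^ 2))
  rw [Fintype.card_fin] at h2
  refine Cost.mono ?_ (show 2 * k + Fintype.card A + n + n ≤ 2 * k + Fintype.card A + 2 * n by
    omega)
  convert h2 using 1
  ext i j
  rw [Matrix.mul_diagonal, Matrix.diagonal_mul, Matrix.of_apply, dftMatrix, Matrix.of_apply, ← hw]
  rw [← zpow_natCast, ← zpow_natCast w, ← zpow_natCast, ← zpow_natCast w, ← _root_.zpow_mul,
    ← zpow_add₀ hw0, ← zpow_add₀ hw0]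
  congr 1
  push_cast
  ring

end Group

end Crest.Agent.R324
end

-- ▼ part R324/ProdPairing
section

/-!
Row 324: the pairing on `∏ ZMod (q i)` given by primitive roots of unity, and Bluestein's reduction
for it: the DFT of any order `n` costs two "mixed radix tensor products" of small Fourier matrices.
-/

set_option autoImplicit false
set_option linter.unusedSectionVars false

namespace Crest.Agent.R324

open Matrix Crest.FourierCircuit

theorem pow_mod_of_eq_one {z : ℂ} {N : ℕ} (h : z ^ N = 1) (k : ℕ) : z ^ (k % N) = z ^ k := by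
  conv_rhs => rw [← Nat.mod_add_div k N, pow_add, pow_mul, h, one_pow, mul_one]

/-- the pairing of `ZMod N` -/
theorem isPairing_zmod {N : ℕ} [NeZero N] {z : ℂ} (hz : IsPrimitiveRoot z N) :
    IsPairing (A := ZMod N) (fun a b => z ^ (a.val * b.val)) where
  symm a b := by rw [mul_comm]
  add a b c := by
    have h1 : z ^ (a + b).val = z ^ (a.val + b.val) := by
      rw [ZMod.val_add]
      exact pow_mod_of_eq_one hz.pow_eq_one (a.val + b.val)
    rw [pow_mul, h1, ← pow_mul, ← pow_add]
    congr 1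
    ring
  orth a := by
    have hN : N ≠ 0 := NeZero.ne N
    obtain ⟨n, rfl⟩ : ∃ n, N = n + 1 := ⟨N - 1, by omega⟩
    have h0 : ∑ b : ZMod (n + 1), z ^ (a.val * b.val) =
        ∑ i ∈ Finset.range (n + 1), (z ^ a.val) ^ i := by
      have h := Fin.sum_univ_eq_sum_range (fun i => (z ^ a.val) ^ i) (n + 1)
      rw [← h]
      refine Finset.sum_congr rfl fun b _ => ?_
      rw [pow_mul]
      rfl
    rw [h0]
    by_cases ha : a = 0
    · subst ha
      simp
    · rw [if_neg ha]
      have h1 : z ^ a.val ≠ 1 := by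
        refine hz.pow_ne_one_of_pos_of_lt ?_ (ZMod.val_lt a)
        exact fun h => ha ((ZMod.val_eq_zero a).1 h)
      have h2 : (z ^ a.val) ^ (n + 1) = 1 := by
        rw [← pow_mul, mul_comm, pow_mul, hz.pow_eq_one, one_pow]
      have h3 := mul_geom_sum (z ^ a.val) (n + 1)
      rw [h2, sub_self] at h3
      exact (mul_eq_zero.1 h3).resolve_left (sub_ne_zero.2 h1)

section Pi

variable {κ : Type*} [Fintype κ] [DecidableEq κ]

/-- products of pairings -/
theorem IsPairing.pi {A : κ → Type*} [∀ i, AddCommGroup (A i)] [∀ i, Fintype (A i)]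
    [∀ i, DecidableEq (A i)] {e : ∀ i, A i → A i → ℂ} (he : ∀ i, IsPairing (e i)) :
    IsPairing (A := ∀ i, A i) (fun a b => ∏ i, e i (a i) (b i)) where
  symm a b := Finset.prod_congr rfl fun i _ => (he i).symm _ _
  add a b c := by
    rw [← Finset.prod_mul_distrib]
    exact Finset.prod_congr rfl fun i _ => (he i).add _ _ _
  orth a := by
    have h1 : ∑ b : (∀ i, A i), ∏ i, e i (a i) (b i) = ∏ i, ∑ b, e i (a i) b := by
      rw [Finset.prod_univ_sum, Fintype.piFinset_univ]
    rw [h1, Finset.prod_congr rfl fun i _ => (he i).orth (a i)]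
    by_cases ha : a = 0
    · subst ha
      simp [Fintype.card_pi]
    · rw [if_neg ha]
      obtain ⟨i, hi⟩ := Function.ne_iff.1 ha
      exact Finset.prod_eq_zero (Finset.mem_univ i) (if_neg hi)

theorem prod_le_addOrderOf_one {q : κ → ℕ} [∀ i, NeZero (q i)]
    (hc : Pairwise (Function.onFun Nat.Coprime q)) :
    ∏ i, q i ≤ addOrderOf (1 : ∀ i, ZMod (q i)) := by
  have h1 : ∀ i, q i ∣ addOrderOf (1 : ∀ i, ZMod (q i)) := by
    intro i
    have h := addOrderOf_nsmul_eq_zero (1 : ∀ i, ZMod (q i))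
    have h' := congrFun h i
    simp only [Pi.smul_apply, Pi.one_apply, nsmul_eq_mul, mul_one, Pi.zero_apply] at h'
    exact (ZMod.natCast_eq_zero_iff _ _).1 h'
  have h2 : ∏ i, q i ∣ addOrderOf (1 : ∀ i, ZMod (q i)) :=
    Finset.prod_dvd_of_isRelPrime (fun i _ j _ hij => Nat.coprime_iff_isRelPrime.1 (hc hij)) fun i _ => h1 i
  exact Nat.le_of_dvd (addOrderOf_pos _) h2

/-- the mixed tensor product of the small Fourier matrices `(z_i ^ (j k))` -/
noncomputable def tensorF (q : κ → ℕ) (z : κ → ℂ) :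
    Matrix (∀ i, Fin (q i)) (∀ i, Fin (q i)) ℂ :=
  Matrix.of fun x y => ∏ i, z i ^ ((x i : ℕ) * (y i : ℕ))

/-- the DFT of any order `n` with `2 n - 1 ≤ ∏ q i` costs two mixed tensor products -/
theorem Cost.bluestein_prod {q : κ → ℕ} (hq : ∀ i, q i ≠ 0)
    (hc : Pairwise (Function.onFun Nat.Coprime q)) {z : κ → ℂ}
    (hz : ∀ i, IsPrimitiveRoot (z i) (q i)) {n k : ℕ} (hn : 2 * n ≤ ∏ i, q i + 1)
    (hF : Cost (tensorF q z) k) :
    Cost (dftMatrix n) (2 * k + ∏ i, q i + 2 * n) := by
  have : ∀ i, NeZero (q i) := fun i => ⟨hq i⟩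
  have hp := IsPairing.pi (κ := κ) (fun i => isPairing_zmod (hz i))
  have hv : ∀ i : κ, ∃ f : ZMod (q i) ≃ Fin (q i), ∀ a, ((f a : Fin (q i)) : ℕ) = a.val := by
    intro i
    obtain ⟨m, hm⟩ : ∃ m, q i = m + 1 := ⟨q i - 1, by have := hq i; omega⟩
    rw [hm]
    exact ⟨Equiv.refl (Fin (m + 1)), fun a => rfl⟩
  choose f hf using hv
  have h1 := hF.reindex (Equiv.piCongrRight f) (Equiv.piCongrRight f)
  have h2 : Cost (Matrix.of fun a b : (∀ i, ZMod (q i)) =>
      ∏ i, z i ^ ((a i).val * (b i).val)) k := by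
    convert h1 using 1
    ext a b
    simp only [Matrix.of_apply, Matrix.submatrix_apply, tensorF, Equiv.piCongrRight_apply,
      Pi.map_apply, hf]
  have h3 := Cost.bluestein hp (n := n) (1 : ∀ i, ZMod (q i))
    (hn.trans (Nat.add_le_add_right (prod_le_addOrderOf_one hc) 1)) h2
  have h4 : Fintype.card (∀ i, ZMod (q i)) = ∏ i, q i := by
    rw [Fintype.card_pi]
    exact Finset.prod_congr rfl fun i _ => ZMod.card (q i)
  rwa [h4] at h3

end Pi

end Crest.Agent.R324
end

-- ▼ part R324/Primes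
section

/-!
Row 324: pairwise coprime small moduli whose product lies in `[2n, 8n]`: the prime power
components of a central binomial coefficient (no distribution of primes needed).
-/

set_option autoImplicit false

namespace Crest.Agent.R324

open Finset

theorem two_pow_le_centralBinom (m : ℕ) : 2 ^ m ≤ Nat.centralBinom m := by
  rcases Nat.eq_zero_or_pos m with rfl | hm
  · simp
  have h1 := Nat.four_pow_le_two_mul_self_mul_centralBinom m hm
  have h2 : 2 * m ≤ 2 ^ m := by
    obtain ⟨k, rfl⟩ : ∃ k, m = k + 1 := ⟨m - 1, by omega⟩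
    have : k < 2 ^ k := Nat.lt_two_pow_self
    rw [pow_succ]; omega
  have h3 : 2 ^ m * 2 ^ m ≤ 2 ^ m * Nat.centralBinom m := by
    calc 2 ^ m * 2 ^ m = 4 ^ m := by rw [← mul_pow]; norm_num
      _ ≤ 2 * m * Nat.centralBinom m := h1
      _ ≤ 2 ^ m * Nat.centralBinom m := Nat.mul_le_mul_right _ h2
  exact Nat.le_of_mul_le_mul_left h3 (by positivity)

theorem centralBinom_succ_le (m : ℕ) : Nat.centralBinom (m + 1) ≤ 4 * Nat.centralBinom m := by
  have h := Nat.succ_mul_centralBinom_succ m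
  have h1 : (m + 1) * Nat.centralBinom (m + 1) ≤ (m + 1) * (4 * Nat.centralBinom m) := by
    rw [h]
    nlinarith [Nat.centralBinom_pos m]
  exact Nat.le_of_mul_le_mul_left h1 (by omega)

theorem exists_centralBinom (n : ℕ) (hn : 1 ≤ n) :
    ∃ m, 2 * n ≤ Nat.centralBinom m ∧ Nat.centralBinom m ≤ 8 * n ∧ m ≤ Nat.log 2 n + 3 := by
  have hex : ∃ m, 2 * n ≤ Nat.centralBinom m := by
    refine ⟨2 * n, ?_⟩
    have := two_pow_le_centralBinom (2 * n)
    have h2 : 2 * n < 2 ^ (2 * n) := Nat.lt_two_pow_self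
    omega
  classical
  have h1 := Nat.find_spec hex
  set m := Nat.find hex with hm
  have hm0 : m ≠ 0 := by
    intro h0
    rw [h0, Nat.centralBinom_zero] at h1
    omega
  have h2 : Nat.centralBinom (m - 1) < 2 * n := by
    have := Nat.find_min hex (m := m - 1) (by omega)
    omega
  have h3 : Nat.centralBinom m ≤ 8 * n := by
    have := centralBinom_succ_le (m - 1)
    rw [Nat.sub_add_cancel (by omega)] at this
    omega
  refine ⟨m, h1, h3, ?_⟩
  have h4 : 2 ^ (m - 1) < 2 * n := (two_pow_le_centralBinom (m - 1)).trans_lt h2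
  have h5 : m - 1 ≤ Nat.log 2 (2 * n) := Nat.le_log_of_pow_le (by norm_num) h4.le
  rw [mul_comm, Nat.log_mul_base (by norm_num) (by omega)] at h5
  omega

/-- pairwise coprime moduli `q i ≤ K ≤ 2 log₂ n + 7` with product between `2 n` and `8 n` -/
theorem moduli (n : ℕ) (hn : 1 ≤ n) :
    ∃ (K : ℕ) (q : Fin K → ℕ), (∀ i, 0 < q i) ∧ Pairwise (Function.onFun Nat.Coprime q) ∧
      (∀ i, q i ≤ K) ∧ K ≤ 2 * Nat.log 2 n + 7 ∧ 2 * n ≤ ∏ i, q i ∧ ∏ i, q i ≤ 8 * n := by
  obtain ⟨m, h1, h2, h3⟩ := exists_centralBinom n hn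
  have hm : 0 < m := by
    rcases Nat.eq_zero_or_pos m with rfl | h
    · rw [Nat.centralBinom_zero] at h1; omega
    · exact h
  have hprod : ∏ i : Fin (2 * m + 1), (i : ℕ) ^ (Nat.centralBinom m).factorization i =
      Nat.centralBinom m := by
    rw [← Nat.prod_pow_factorization_centralBinom m]
    conv_rhs => rw [Finset.prod_range]
    rw [Nat.prod_pow_factorization_centralBinom m]
  refine ⟨2 * m + 1, fun i => (i : ℕ) ^ (Nat.centralBinom m).factorization i, ?_, ?_, ?_, ?_, ?_, ?_⟩
  · intro i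
    rcases Nat.eq_zero_or_pos (i : ℕ) with h | h
    · simp [h]
    · exact Nat.pow_pos h
  · intro i j hij
    simp only [Function.onFun]
    by_cases hi : (i : ℕ).Prime
    · by_cases hj : (j : ℕ).Prime
      · exact Nat.Coprime.pow _ _ ((Nat.coprime_primes hi hj).2 fun h => hij (Fin.ext h))
      · rw [Nat.factorization_eq_zero_of_not_prime _ hj, pow_zero]
        exact Nat.coprime_one_right _
    · rw [Nat.factorization_eq_zero_of_not_prime _ hi, pow_zero]
      exact Nat.coprime_one_left _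
  · intro i
    have := Nat.pow_factorization_choose_le (p := (i : ℕ)) (n := 2 * m) (k := m) (by omega)
    rw [← Nat.centralBinom_eq_two_mul_choose] at this
    exact this.trans (Nat.le_succ _)
  · omega
  · rw [hprod]; exact h1
  · rw [hprod]; exact h2

end Crest.Agent.R324
end

-- ▼ part R324/Glue

/-!
Row 324: glue. The two remaining inputs are the layered words for the Fourier matrices (`hG`)
and the bound for the zeta transform (`hZ`).
-/

set_option autoImplicit false

namespace Crest.Agent.R324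

open Matrix Crest.FourierCircuit

theorem zetaFin_two : zetaFin 2 = L := by
  ext i j
  fin_cases i <;> fin_cases j <;> simp [zetaFin, L]

/-- S0501 from (hG) and (hZ) -/
theorem glue
    (hG : ∃ C : ℕ, ∀ N : ℕ, 1 ≤ N → ∀ z : ℂ, IsPrimitiveRoot z N →
      LW (C * (Nat.log 2 N + 1)) (Matrix.of fun j k : Fin N => z ^ (j.val * k.val)))
    (hZ : ∃ A θ : ℝ, 0 ≤ A ∧ 0 < θ ∧ θ < savingExponent ∧
      ∀ K : ℕ, ∃ k : ℕ, Cost (tpow (Fin K) L) k ∧ (k : ℝ) ≤ A * 2 ^ K * (K : ℝ) ^ θ) :
    ∃ C : ℝ, ∃ N₀ : ℕ, ∀ n ≥ N₀, ∃ P : LinCircuit n,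
      P.Computes (dftMatrix n) ∧
        (P.size : ℝ) ≤ C * n * Real.log n ^ savingExponent *
          Real.log (Real.log n) ^ (4 - savingExponent) := by
  obtain ⟨C, hG⟩ := hG
  obtain ⟨A, θ, hA, hθ0, hθ, hZ⟩ := hZ
  refine final_assembly (A := A) (θ' := θ) (a := 64) (b := 7) (c := 2 * C) 1 hθ0.le hθ hA
    (by norm_num) (by norm_num) (by positivity) ?_
  intro n hn
  obtain ⟨K, q, hq0, hcop, hqK, hK, hprod1, hprod2⟩ := moduli n hn
  -- primitive roots
  let z : Fin K → ℂ := fun i => Complex.exp (2 * Real.pi * Complex.I / q i)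
  have hz : ∀ i, IsPrimitiveRoot (z i) (q i) := fun i =>
    Complex.isPrimitiveRoot_exp (q i) (hq0 i).ne'
  set R : ℕ := C * (Nat.log 2 K + 1) with hR
  have hLW : ∀ i, LW R (Matrix.of fun j k : Fin (q i) => z i ^ (j.val * k.val)) := by
    intro i
    refine (hG (q i) (hq0 i) (z i) (hz i)).mono ?_
    rw [hR]
    have := Nat.log_mono_right (b := 2) (hqK i)
    gcongr
  have hmono : Monotone (fun m : ℕ => A * (m : ℝ) ^ θ) := by
    intro a b hab
    have : (a : ℝ) ≤ b := by exact_mod_cast hab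
    show A * (a : ℝ) ^ θ ≤ A * (b : ℝ) ^ θ
    gcongr
  have hten := CostR.piKron_LW (fun m : ℕ => A * (m : ℝ) ^ θ) hmono
    (fun m => by positivity)
    (by
      intro m
      obtain ⟨k, hk, hk'⟩ := hZ m
      rw [zetaFin_two]
      exact ⟨k, by linarith, hk⟩)
    (fun i : Fin K => Fin (q i)) R
    (fun i => Matrix.of fun j k : Fin (q i) => z i ^ (j.val * k.val)) hLW
  obtain ⟨k, hk, hcost⟩ := hten
  have hcost' : Cost (tensorF q z) k := hcost
  have hb := Cost.bluestein_prod (fun i => (hq0 i).ne') hcop hz (n := n) (k := k)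
    (by omega) hcost'
  have hKy : (K : ℝ) ≤ 7 * (Real.log n + 1) := by
    have h1 : (K : ℝ) ≤ 2 * Nat.log 2 n + 7 := by exact_mod_cast hK
    have h2 := Real.natLog_le_logb n 2
    have h3 : Real.logb (2 : ℕ) n ≤ 3 * Real.log n := by
      unfold Real.logb
      push_cast
      have hl := Real.log_two_gt_d9
      rw [div_le_iff₀ (by linarith)]
      have h4 : 0 ≤ Real.log n := Real.log_natCast_nonneg n
      nlinarith
    have h4 : 0 ≤ Real.log n := Real.log_natCast_nonneg n
    linarith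
  refine ⟨_, K, R, hb, ?_, hKy, ?_⟩
  · have hP : (∏ i, (Fintype.card (Fin (q i)) : ℝ)) ≤ 8 * n := by
      simp only [Fintype.card_fin]
      exact_mod_cast hprod2
    have hP' : ((∏ i, q i : ℕ) : ℝ) ≤ 8 * n := by exact_mod_cast hprod2
    have hAK : 0 ≤ A * (K : ℝ) ^ θ := by positivity
    have h1 : (k : ℝ) ≤ R * ((8 * n) * (A * (K : ℝ) ^ θ + 4)) := hk.trans (by gcongr)
    have hn1 : (1 : ℝ) ≤ n := by exact_mod_cast hn
    have hR0 : (0 : ℝ) ≤ R := by positivity
    push_cast at hP' ⊢
    have h2 : (R : ℝ) * ((8 * n) * (A * (K : ℝ) ^ θ + 4)) ≤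
        R * ((8 * n) * (4 * (A * (K : ℝ) ^ θ + 1))) := by
      gcongr
      linarith
    have h3 : (0 : ℝ) ≤ n * (A * (K : ℝ) ^ θ) := by positivity
    nlinarith
  · have hlogn : 0 ≤ Real.log n := Real.log_natCast_nonneg n
    set y : ℝ := 7 * (Real.log n + 1) with hy
    have hy1 : 1 ≤ y := by rw [hy]; linarith
    have hly : 0 ≤ Real.log y := Real.log_nonneg hy1
    have h1 : (Nat.log 2 K : ℝ) ≤ 2 * Real.log y := by
      have h2 := Real.natLog_le_logb K 2
      refine h2.trans ?_
      unfold Real.logb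
      push_cast
      have hl := Real.log_two_gt_d9
      rw [div_le_iff₀ (by linarith)]
      have h3 : Real.log K ≤ Real.log y := by
        rcases Nat.eq_zero_or_pos K with h0 | h0
        · rw [h0]; simpa using hly
        · exact Real.log_le_log (by exact_mod_cast h0) hKy
      nlinarith
    rw [hR, pow_one]
    push_cast
    have hC : (0 : ℝ) ≤ C := by positivity
    nlinarith

end Crest.Agent.R324
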